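import Vale.Agent.P159.H280.Top1
import Vale.Agent.P159.H864.Cel4
import Vale.Agent.P159.H963.NeuC
import Vale.Agent.P159.H447.MassH
import Vale.Agent.P159.H197.Hyp5

/-!
P159, row TOP (helper280), part 2: cells and the neutral model. **TOP2**
(`Π^c_t(k) ≤ C (t + EE k / l²)` on every cell torus, integer and neutral) and **TOP3**
(`Π^{c,0}_τ(k) ≤ C EE k / l²`, neutral, all `k ≠ 0`, from the upper bound of the fine neutral self
energy at the momenta `EE p ≤ κ t`).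
-/

open Finset Filter Topology

namespace Vale.Agent.P159.H280

open Vale.Agent.P159.TM.H764 (EE cN Gh pw dt)
open Vale.Agent.P159.TM.Spec (V)
open Vale.Agent.P159.TM
open Vale.Agent.P159.H37
open Vale.Agent.P159.H864 (cen rd rd1 Gck PiCk Gc sym Wl als TI)
open Vale.Agent.P159.H963 (PinC Pin Gnc Gnh Gn)

variable {N l : ℕ} [NeZero N] [NeZero (N / l)]

/-- at a central alias the two Laplacians are comparable -/
lemma EE_cen_rd (hl : l ∣ N) {p : V N} (hp : cen l p) :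
    (l : ℝ) ^ 2 * EE p ≤ 3 * EE (rd p : V (N / l)) := by
  have key : ∀ z : ZMod N, 2 * l * z.valMinAbs.natAbs ≤ N →
      (l : ℝ) ^ 2 * (1 - cN z) ≤ 3 * (1 - cN (rd1 z : ZMod (N / l))) := by
    intro z hz
    have h1 := H864.pw_cen hz
    have hlp : (0 : ℝ) < l := by exact_mod_cast H864.l_pos hl
    have h2 : cN (rd1 z : ZMod (N / l)) = Real.cos (l * pw z) := by
      have h3 : (rd1 z : ZMod (N / l)) = ((z.valMinAbs : ℤ) : ZMod (N / l)) := by
        rw [← H864.rd1_intCast hl, ZMod.coe_valMinAbs]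
      rw [h3, H764.cN_int]
      congr 1
      unfold pw
      have hNl := H864.Nl (N := N) hl
      have hn : (0 : ℝ) < ((N / l : ℕ) : ℝ) := by exact_mod_cast NeZero.pos (N / l)
      rw [← hNl]
      field_simp
    rw [h2, H764.cN_pw]
    have h4 : |(l : ℝ) * pw z| ≤ Real.pi := by
      rw [abs_mul, abs_of_pos hlp, mul_comm]
      exact h1
    have h5 := H764.one_sub_cos_low h4
    have h6 := Real.one_sub_sq_div_two_le_cos (x := pw z)
    have h7 : Real.pi ^ 2 ≤ 12 := by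
      have := Real.pi_lt_d2
      nlinarith [Real.pi_pos]
    have h8 : (l : ℝ) ^ 2 * (1 - Real.cos (pw z)) ≤ (l : ℝ) ^ 2 * (pw z ^ 2 / 2) :=
      mul_le_mul_of_nonneg_left (by linarith) (by positivity)
    have h9 : (l : ℝ) ^ 2 * (pw z ^ 2 / 2) ≤ 3 * (2 / Real.pi ^ 2 * ((l : ℝ) * pw z) ^ 2) := by
      have h10 : 3 * (2 / Real.pi ^ 2 * ((l : ℝ) * pw z) ^ 2) =
          (12 / Real.pi ^ 2) * ((l : ℝ) ^ 2 * (pw z ^ 2 / 2)) := by
        field_simp
        ring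
      rw [h10]
      refine le_mul_of_one_le_left (by positivity) ?_
      rw [le_div_iff₀ (by positivity)]
      linarith
    linarith
  have h1 := key p.1 hp.1
  have h2 := key p.2 hp.2
  have e1 : EE p = 2 * (1 - cN p.1) + 2 * (1 - cN p.2) := rfl
  have e2 : EE (rd p : V (N / l)) =
      2 * (1 - cN (rd1 p.1 : ZMod (N / l))) + 2 * (1 - cN (rd1 p.2 : ZMod (N / l))) := rfl
  rw [e1, e2]
  nlinarith

lemma ne_of_rd (hl : l ∣ N) {p : V N} {k : V (N / l)} (h : rd p = k) (hk : k ≠ 0) : p ≠ 0 := by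
  intro h0
  rw [h0, H864.rd_zero hl] at h
  exact hk h.symm

/-- **TOP2**: cells, integer model -/
theorem top2 {b C t1 : ℝ} (hb : 0 < b) (hC : 0 < C)
    (h : ∀ (N : ℕ) [NeZero N] (t : ℝ), 0 < t → t ≤ t1 → ∀ k : V N, k ≠ 0 →
      Pik N b t k ≤ C * (t + EE k)) (hl : l ∣ N) {t : ℝ} (ht : 0 < t) (htt : t ≤ t1)
    {k : V (N / l)} (hk : k ≠ 0) :
    PiCk N l b t t k ≤ 108 * (1 + C) * (t + EE k / (l : ℝ) ^ 2) := by
  have hlp : (0 : ℝ) < l := by exact_mod_cast H864.l_pos hl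
  obtain ⟨p, hp, hpk⟩ := H864.exists_cen hl k
  have hp0 := ne_of_rd hl hpk hk
  have h1 := H864.Gck_ge hb.le hl ht hp
  have h2 := H864.Ght_pos (N := N) hb ht p
  have h3 := h N t ht htt p hp0
  have h4 := EE_cen_rd hl hp
  rw [hpk] at h1 h4
  unfold PiCk
  have h5 : (Gck N l b t t k)⁻¹ ≤ (Ght N b t p / 36)⁻¹ := inv_anti₀ (by positivity) h1
  have h6 : (Ght N b t p / 36)⁻¹ = 36 * (t + Pik N b t p) := by
    unfold Pik
    rw [inv_div]
    ring
  have h7 : EE p ≤ 3 * (EE k / (l : ℝ) ^ 2) := by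
    rw [← mul_div_assoc, le_div_iff₀ (by positivity)]
    linarith
  have hE : 0 ≤ EE k / (l : ℝ) ^ 2 := div_nonneg (H462.EE_nonneg k) (by positivity)
  have h8 : C * (t + EE p) ≤ C * (t + 3 * (EE k / (l : ℝ) ^ 2)) :=
    mul_le_mul_of_nonneg_left (by linarith) hC.le
  have h9 : 0 ≤ C * t := by positivity
  have h10 : 0 ≤ C * (EE k / (l : ℝ) ^ 2) := by positivity
  nlinarith

theorem PinC_le_PiCk {b t τ : ℝ} (hb : 0 < b) (hl : l ∣ N) (hτ : 0 < τ) (h : τ ≤ t)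
    {k : V (N / l)} (hk : k ≠ 0) : PinC N l b t τ k ≤ PiCk N l b t τ k := by
  have h1 : Gck N l b t τ k ≤ sym (Gnc N l b t τ) k :=
    H963.sym_Gc_le_Gnc (N := N) (l := l) hb.le hl hτ h hk
  have h3 := inv_anti₀ (H864.Gck_pos (N := N) (l := l) hb hl hτ h k) h1
  exact sub_le_sub_right h3 τ

/-- **TOP2**: cells, neutral model, cell mass `τ ≤ t` -/
theorem top2n {b C t1 : ℝ} (hb : 0 < b) (hC : 0 < C)
    (h : ∀ (N : ℕ) [NeZero N] (t : ℝ), 0 < t → t ≤ t1 → ∀ k : V N, k ≠ 0 →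
      Pik N b t k ≤ C * (t + EE k)) (hl : l ∣ N) {t τ : ℝ} (hτ : 0 < τ) (hτt : τ ≤ t)
    (htt : t ≤ t1) {k : V (N / l)} (hk : k ≠ 0) :
    PinC N l b t τ k ≤ 108 * (1 + C) * (t + EE k / (l : ℝ) ^ 2) := by
  have ht := hτ.trans_le hτt
  exact ((H447.PinC_mono hb hl hτ hτt le_rfl hk).trans
    (PinC_le_PiCk hb hl ht le_rfl hk)).trans (top2 hb hC h hl ht htt hk)

/-- low momenta: one alias only -/
theorem PinC_low {b t : ℝ} (hb : 0 < b) (hl : l ∣ N) (ht : 0 < t) {p : V N}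
    (hp : p ≠ 0) (hs : (l : ℝ) ^ 2 * EE p ≤ 1 / 2) :
    PinC N l b t t (rd p) ≤ Pin N b t p + 2 * ((l : ℝ) ^ 2 * EE p) * (t + Pin N b t p) := by
  have h1 : Gnh N b t p * Wl l p ≤ sym (Gnc N l b t t) (rd p) := by
    rw [H963.Gnc_self, H864.sym_Gc hl (H963.ti_Gn hb.le ht)]
    unfold als
    exact Finset.single_le_sum (f := fun q : V N => sym (Gn N b t) q * Wl l q)
      (s := univ.filter fun q : V N => (rd q : V (N / l)) = rd p)
      (fun q _ => mul_nonneg (H963.Gnh_nonneg hb.le ht q) (H864.Wl_nonneg q))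
      (Finset.mem_filter.2 ⟨Finset.mem_univ p, rfl⟩)
  have h2 := H864.one_sub_Wl_le (l := l) hl p
  have h3 := H963.Gnh_pos hb ht hp
  obtain ⟨x, hx⟩ : ∃ x : ℝ, x = (l : ℝ) ^ 2 * EE p := ⟨_, rfl⟩
  have hx0 : 0 ≤ x := by rw [hx]; exact mul_nonneg (sq_nonneg _) (H462.EE_nonneg p)
  rw [← hx] at hs h2 ⊢
  have h4 : Gnh N b t p * (1 - x) ≤ sym (Gnc N l b t t) (rd p) :=
    (mul_le_mul_of_nonneg_left (by linarith) h3.le).trans h1
  have h5 : 0 < Gnh N b t p * (1 - x) := mul_pos h3 (by linarith)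
  have h6 := inv_anti₀ h5 h4
  have h7 : (Gnh N b t p * (1 - x))⁻¹ ≤ (Gnh N b t p)⁻¹ * (1 + 2 * x) := by
    rw [mul_inv]
    refine mul_le_mul_of_nonneg_left ?_ (inv_nonneg.2 h3.le)
    rw [inv_le_iff_one_le_mul₀ (by linarith)]
    nlinarith
  have h8 : (Gnh N b t p)⁻¹ = t + Pin N b t p := by
    unfold Pin
    ring
  unfold PinC
  rw [h8] at h7
  nlinarith

/-- **TOP3**: neutral cells, every momentum `k ≠ 0`, every cell mass `τ ≤ t ≤ l⁻²` -/
theorem top3 {b C t1 C0 κ : ℝ} (hb : 0 < b) (hC : 0 < C)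
    (h : ∀ (N : ℕ) [NeZero N] (t : ℝ), 0 < t → t ≤ t1 → ∀ k : V N, k ≠ 0 →
      Pik N b t k ≤ C * (t + EE k)) (hl : l ∣ N) {t τ : ℝ} (hτ : 0 < τ) (hτt : τ ≤ t)
    (htt : t ≤ t1) (htl : t * (l : ℝ) ^ 2 ≤ 1) (hκ : 0 < κ) (hC0 : 0 ≤ C0)
    (h0 : ∀ p : V N, p ≠ 0 → EE p ≤ κ * t → Pin N b t p ≤ C0 * EE p) {k : V (N / l)}
    (hk : k ≠ 0) :
    PinC N l b t τ k ≤ 1000 * (1 + C) * (1 + C0) * (1 + 1 / κ) * (EE k / (l : ℝ) ^ 2) := by
  have ht := hτ.trans_le hτt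
  have hlp : (0 : ℝ) < l := by exact_mod_cast H864.l_pos hl
  have hE : 0 ≤ EE k / (l : ℝ) ^ 2 := div_nonneg (H462.EE_nonneg k) (by positivity)
  have hκ1 : 0 < 1 / κ := by positivity
  obtain ⟨p, hp, hpk⟩ := H864.exists_cen hl k
  have hp0 := ne_of_rd hl hpk hk
  have h4 := EE_cen_rd hl hp
  rw [hpk] at h4
  have hEp : 0 ≤ EE p := H462.EE_nonneg p
  have h7 : EE p ≤ 3 * (EE k / (l : ℝ) ^ 2) := by
    rw [← mul_div_assoc, le_div_iff₀ (by positivity)]
    linarith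
  obtain ⟨e, he⟩ : ∃ e : ℝ, e = EE k / (l : ℝ) ^ 2 := ⟨_, rfl⟩
  rw [← he] at hE h7 ⊢
  have hC00 : 0 ≤ C * C0 := by positivity
  have base : ∀ A : ℝ, 0 ≤ A → A ≤ 1000 * (1 + C) * (1 + C0) * (1 + 1 / κ) →
      A * e ≤ 1000 * (1 + C) * (1 + C0) * (1 + 1 / κ) * e := fun A _ hA =>
    mul_le_mul_of_nonneg_right hA hE
  by_cases hs : (l : ℝ) ^ 2 * EE p ≤ 1 / 2
  · have h8 := PinC_low (N := N) (l := l) hb hl ht hp0 hs
    rw [hpk] at h8
    have h9 := (H447.PinC_mono hb hl hτ hτt le_rfl hk).trans h8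
    -- the fine self energy
    have h10 : Pin N b t p ≤ (C0 + C * (1 + 1 / κ)) * EE p := by
      by_cases hpt : EE p ≤ κ * t
      · refine (h0 p hp0 hpt).trans (mul_le_mul_of_nonneg_right ?_ hEp)
        have : 0 ≤ C * (1 + 1 / κ) := by positivity
        linarith
      · push Not at hpt
        have h11 := (H963.Pin_le_Pik hb ht hp0).trans (h N t ht htt p hp0)
        have h12 : t ≤ 1 / κ * EE p := by
          rw [div_mul_eq_mul_div, one_mul, le_div_iff₀ hκ]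
          linarith
        have h13 : C * (t + EE p) ≤ C * (1 / κ * EE p + EE p) :=
          mul_le_mul_of_nonneg_left (by linarith) hC.le
        have h14 : 0 ≤ C0 * EE p := by positivity
        calc Pin N b t p ≤ C * (1 / κ * EE p + EE p) := h11.trans h13
          _ = C * (1 + 1 / κ) * EE p := by ring
          _ ≤ (C0 + C * (1 + 1 / κ)) * EE p := by linarith
    have hP0 := H963.Pin_nonneg (N := N) hb ht hp0
    have h15 : 2 * ((l : ℝ) ^ 2 * EE p) * (t + Pin N b t p) ≤ 2 * EE p + Pin N b t p := by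
      have h16 : 2 * ((l : ℝ) ^ 2 * EE p) * t ≤ 2 * EE p := by
        have := mul_le_mul_of_nonneg_left htl hEp
        linarith
      have h17 : 2 * ((l : ℝ) ^ 2 * EE p) * Pin N b t p ≤ 1 * Pin N b t p :=
        mul_le_mul_of_nonneg_right (by linarith) hP0
      linarith
    have h18 : PinC N l b t τ k ≤ (2 + 2 * (C0 + C * (1 + 1 / κ))) * EE p := by linarith
    refine (h18.trans (mul_le_mul_of_nonneg_left h7 (by positivity))).trans ?_
    have h19 : (2 + 2 * (C0 + C * (1 + 1 / κ))) * (3 * e) =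
        (6 + 6 * C0 + 6 * (C * (1 + 1 / κ))) * e := by ring
    rw [h19]
    refine base _ (by positivity) ?_
    have h20 : 6 + 6 * C0 + 6 * (C * (1 + 1 / κ)) ≤ 6 * ((1 + C) * (1 + C0) * (1 + 1 / κ)) := by
      have h21 : 0 ≤ 1 / κ := hκ1.le
      generalize 1 / κ = r at *
      have g1 : 0 ≤ r * C0 := by positivity
      have g2 : 0 ≤ r * C := by positivity
      have g3 : 0 ≤ C * C0 * r := by positivity
      nlinarith
    have h22 : 0 ≤ (1 + C) * (1 + C0) * (1 + 1 / κ) := by positivity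
    linarith
  · push Not at hs
    have h8 := top2n (N := N) (l := l) hb hC h hl hτ hτt htt hk
    rw [← he] at h8
    have h9 : t ≤ 6 * e := by
      have h10 : t ≤ 1 / (l : ℝ) ^ 2 := by
        rw [le_div_iff₀ (by positivity)]
        exact htl
      have h11 : 1 / (l : ℝ) ^ 2 ≤ 6 * e := by
        rw [he, ← mul_div_assoc]
        exact div_le_div_of_nonneg_right (by linarith) (by positivity)
      linarith
    have h12 : 108 * (1 + C) * (t + e) ≤ 108 * (1 + C) * (7 * e) :=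
      mul_le_mul_of_nonneg_left (by linarith) (by positivity)
    refine (h8.trans h12).trans ?_
    have h13 : 108 * (1 + C) * (7 * e) = 756 * (1 + C) * e := by ring
    rw [h13]
    refine base _ (by positivity) ?_
    have h14 : (1 + C) ≤ (1 + C) * (1 + C0) * (1 + 1 / κ) := by
      have h15 : 1 ≤ (1 + C0) * (1 + 1 / κ) := by nlinarith [mul_nonneg hC0 hκ1.le]
      nlinarith
    linarith

/-- the input of `top3` from a probability kernel with second moment `≤ C2 / t` -/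
theorem pin_of_kernel {b t C2 : ℝ} (hb : 0 < b) (ht : 0 < t) (hC2 : 0 < C2) {S : V N → ℝ}
    (hS0 : ∀ z, 0 ≤ S z) (hS1 : ∑ z, S z = 1)
    (hS2 : ∑ z : V N, S z * ((z.1.valMinAbs : ℝ) ^ 2 + (z.2.valMinAbs : ℝ) ^ 2) ≤ C2 / t)
    {p : V N} (hp : p ≠ 0) (hG : t * Gnh N b t p = Gh S p)
    (hE : EE p ≤ 1 / (4 * C2) * t) : Pin N b t p ≤ 6 * C2 * EE p := by
  have hEp : 0 ≤ EE p := H462.EE_nonneg p
  have hlow : 4 / Real.pi ^ 2 * (pw p.1 ^ 2 + pw p.2 ^ 2) ≤ EE p := H197.EE_ge p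
  have hq : pw p.1 ^ 2 + pw p.2 ^ 2 ≤ 5 / 2 * EE p := by
    have h7 : Real.pi ^ 2 ≤ 10 := by
      have := Real.pi_lt_d2
      nlinarith [Real.pi_pos]
    rw [div_mul_eq_mul_div, div_le_iff₀ (by positivity)] at hlow
    have h8 : EE p * Real.pi ^ 2 ≤ EE p * 10 := by gcongr
    linarith
  have hG1 : 1 - 5 / 4 * EE p * (C2 / t) ≤ Gh S p := by
    have h1 : ∀ z : V N, S z * (1 - (pw p.1 ^ 2 + pw p.2 ^ 2) / 2 *
        ((z.1.valMinAbs : ℝ) ^ 2 + (z.2.valMinAbs : ℝ) ^ 2)) ≤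
        S z * cN (p.1 * z.1 + p.2 * z.2) := by
      intro z
      refine mul_le_mul_of_nonneg_left ?_ (hS0 z)
      have h2 : cN (p.1 * z.1 + p.2 * z.2) =
          Real.cos (pw p.1 * z.1.valMinAbs + pw p.2 * z.2.valMinAbs) := by
        have h3 : (p.1 * z.1 + p.2 * z.2 : ZMod N) =
            ((p.1.valMinAbs * z.1.valMinAbs + p.2.valMinAbs * z.2.valMinAbs : ℤ) : ZMod N) := by
          simp
        rw [h3, H764.cN_int]
        congr 1
        unfold pw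
        push_cast
        ring
      rw [h2]
      have h4 := Real.one_sub_sq_div_two_le_cos
        (x := pw p.1 * z.1.valMinAbs + pw p.2 * z.2.valMinAbs)
      have h5 : (pw p.1 * z.1.valMinAbs + pw p.2 * z.2.valMinAbs) ^ 2 ≤
          (pw p.1 ^ 2 + pw p.2 ^ 2) * ((z.1.valMinAbs : ℝ) ^ 2 + (z.2.valMinAbs : ℝ) ^ 2) := by
        nlinarith [sq_nonneg (pw p.1 * (z.2.valMinAbs : ℝ) - pw p.2 * z.1.valMinAbs)]
      linarith
    have h2 : ∑ z : V N, S z * (1 - (pw p.1 ^ 2 + pw p.2 ^ 2) / 2 *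
        ((z.1.valMinAbs : ℝ) ^ 2 + (z.2.valMinAbs : ℝ) ^ 2)) ≤ Gh S p :=
      Finset.sum_le_sum fun z _ => h1 z
    refine le_trans ?_ h2
    have h3 : ∑ z : V N, S z * (1 - (pw p.1 ^ 2 + pw p.2 ^ 2) / 2 *
        ((z.1.valMinAbs : ℝ) ^ 2 + (z.2.valMinAbs : ℝ) ^ 2)) =
        ∑ z : V N, S z - (pw p.1 ^ 2 + pw p.2 ^ 2) / 2 *
          ∑ z : V N, S z * ((z.1.valMinAbs : ℝ) ^ 2 + (z.2.valMinAbs : ℝ) ^ 2) := by
      rw [Finset.mul_sum, ← Finset.sum_sub_distrib]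
      exact Finset.sum_congr rfl fun z _ => by ring
    rw [h3, hS1]
    have h4 : (pw p.1 ^ 2 + pw p.2 ^ 2) / 2 *
          ∑ z : V N, S z * ((z.1.valMinAbs : ℝ) ^ 2 + (z.2.valMinAbs : ℝ) ^ 2) ≤
        (5 / 4 * EE p) * (C2 / t) := by
      refine mul_le_mul (by linarith) hS2 ?_ (by positivity)
      exact Finset.sum_nonneg fun z _ => mul_nonneg (hS0 z) (by positivity)
    linarith
  have hx : 5 / 4 * EE p * (C2 / t) ≤ 5 / 16 := by
    have h1 : EE p * (C2 / t) ≤ 1 / (4 * C2) * t * (C2 / t) := by gcongr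
    have h2 : 1 / (4 * C2) * t * (C2 / t) = 1 / 4 := by field_simp
    linarith
  obtain ⟨x, hxd⟩ : ∃ x : ℝ, x = 5 / 4 * EE p * (C2 / t) := ⟨_, rfl⟩
  have hx0 : 0 ≤ x := by rw [hxd]; positivity
  rw [← hxd] at hx hG1
  rw [← hG] at hG1
  have h3 : (1 - x) / t ≤ Gnh N b t p := by
    rw [div_le_iff₀ ht]
    linarith
  have h4 : 0 < (1 - x) / t := div_pos (by linarith) ht
  have h5 := inv_anti₀ h4 h3
  rw [inv_div] at h5
  have h6 : t / (1 - x) ≤ t * (1 + 2 * x) := by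
    rw [div_le_iff₀ (by linarith)]
    have : 1 ≤ (1 + 2 * x) * (1 - x) := by nlinarith
    nlinarith
  have h7 : t * (2 * x) = 5 / 2 * C2 * EE p := by
    rw [hxd]
    field_simp
    ring
  unfold Pin
  have h8 : 0 ≤ C2 * EE p := by positivity
  nlinarith

end Vale.Agent.P159.H280
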