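import Vale.Agent.P159.H280.StF
import Vale.Agent.P159.H30.StG

/-!
P159, START of `P_up` (helper280), part 3: **`H972.StartP`**: at every level large enough the state
holds for all `e` in `[e0, es]` at once, with stiffness `1 / helicity b`.
-/

open Real Filter Topology MeasureTheory

namespace Vale.Agent.P159.H280

open Vale.Agent.P159.H37
open Vale.Agent.P159.H972 (Par lg tn RNG FL GP StartP AP cobB)

/-- **START of `P_up`** -/
theorem startP {b : ℝ} (hb : 0 < b) (hY : 2 / Real.pi ≤ helicity b) :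
    ∃ W0 : ℝ, ∀ W : ℝ, W0 ≤ W → ∀ th x1 C0 ys pf : ℝ, 0 < th → 0 < x1 → 0 < C0 → 0 < ys →
      ∀ X0 : ℕ, ∃ es0 : ℝ, 0 < es0 ∧ ∀ P : Par, P.th = th → P.x1 = x1 → P.C0 = C0 → P.ys = ys →
        P.pf = pf → P.X0 = X0 → P.W = W → P.b1 ≤ b → b ≤ P.b2 → P.es ≤ es0 → StartP P b := by
  obtain ⟨hY0, hY2⟩ := H197.inv_Y_le hY
  obtain ⟨W0, hR⟩ := start_R hb hY0 (by linarith)
  refine ⟨W0, fun W hW th x1 C0 ys pf hth hx1 hC0 hys X0 => ?_⟩
  obtain ⟨s1, hs1, hR⟩ := hR W hW th x1 ys hth hx1 hys X0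
  obtain ⟨s2, hs2, hF⟩ := start_F hb hY (pf := pf) hth
  obtain ⟨s3, hs3, hD⟩ := H30.start_DAP hb hY hth hC0 hx1
  refine ⟨min s1 (min s2 s3), lt_min hs1 (lt_min hs2 hs3), fun P h1 h2 h3 h4 h5 h6 h7 h8 h9 h10 => ?_⟩
  have g1 : P.es ≤ s1 := h10.trans (min_le_left _ _)
  have g2 : P.es ≤ s2 := h10.trans ((min_le_right _ _).trans (min_le_left _ _))
  have g3 : P.es ≤ s3 := h10.trans ((min_le_right _ _).trans (min_le_right _ _))
  intro e0 he0 hees
  obtain ⟨n1, hn1⟩ := hR P h1 h2 h7 h4 h6 h8 h9 g1 e0 he0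
  obtain ⟨n2, hn2⟩ := hF P h1 h5 g2 e0 he0
  obtain ⟨n3, hn3⟩ := hD P h1 h3 h2 g3 e0 he0
  refine ⟨max (4 * lg P.C0 e0) (max n1 (max n2 n3)), fun n hn' =>
    ⟨tn n, le_rfl, by linarith [tn_pos n], fun e he1 he2 => ?_⟩⟩
  have hn : max n1 (max n2 n3) ≤ n := (le_max_right _ _).trans hn'
  have k0 : 4 * lg P.C0 e0 ≤ n := (le_max_left _ _).trans hn'
  have k1 : n1 ≤ n := (le_max_left _ _).trans hn
  have k2 : n2 ≤ n := ((le_max_left _ _).trans (le_max_right _ _)).trans hn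
  have k3 : n3 ≤ n := ((le_max_right _ _).trans (le_max_right _ _)).trans hn
  have he : 0 < e := he0.trans_le he1
  obtain ⟨d1, d2⟩ := hn3 n k3 e he1 he2 (tn n) le_rfl (by linarith [tn_pos n])
  have k4 : lg P.C0 e ≤ lg P.C0 e0 := H972.lg_anti P.C00.le he0 he1
  refine ⟨d1, fun B => ?_, fun r hr => hn1 n k1 e he1 he2 r hr, fun r hr => ?_, by omega⟩
  · refine le_trans (measureReal_mono ?_) (d2 (n + 3 * P.xE e) (Or.inr rfl) B)
    intro g hg
    have h11 : e ≤ e ^ (1 / 8 : ℝ) := by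
      have h12 := Real.rpow_le_rpow_of_exponent_ge he (he2.trans (P.es1.trans (by norm_num)))
        (by norm_num : (1 / 8 : ℝ) ≤ 1)
      rwa [Real.rpow_one] at h12
    exact lt_of_le_of_lt h11 hg
  · have h11 := hn2 n k2 e he1 he2 r hr
    rwa [one_div] at h11

end Vale.Agent.P159.H280
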