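import Vale.Agent.P159.H280.Hs3
import Vale.Agent.P159.H474.Cb7

/-!
P159, (H6) / SW2 (helper280), part 4: the arm integrals of `Hs3` in the letters of helper474's
entangled chessboard (`arm_vol`): charts of the closed block at `s1` in the torus `N` and at `s2` in
the torus `M N`.
-/

set_option linter.unusedSectionVars false
set_option linter.unusedDecidableInType false

namespace Vale.Agent.P159.H280.Hs

open scoped ENNReal
open Finset Vale.Agent.P159.TM.H60 Vale.Agent.P159.TM.H576 Vale.Agent.P159.H764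
open Vale.Agent.P159.H145.Dz (I0 touch mem_touch)
open Vale.Agent.P159.H474.Cb (qa qa_le_one wDC Z0 pt foE foF trD trF arm_vol)
open Vale.Agent.P159.TM.Spec (V)
open Vale.Agent.P159.H817 (sz eb prj sz_step sz_add_le sz_neg prj_add prj_eb vma_add prj_inj
  vma_pr1 sz_prj)
open Vale.Agent.P159.H353 (wI)
open Vale.Agent.P159.H37 (ZM qf re)
open Vale.Agent.P159.H770 (eS eT wTD Ed)
open Vale.Agent.P159.TM.SpecC (Tor wT)
open Vale.Agent.P159.TM.H459 (ball mem_ball)

noncomputable section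

/-! ### translations and charts -/

section chart

variable {N : ℕ} [NeZero N] (W : Wg)

/-- translation invariance of the arm functional -/
lemma qa_tr (s : V N) (B Λ : Finset (V N)) (x : V N → ℤ × ℤ) :
    qa (W.two (eS N) (eT N)) (B.image fun v => v + s) (Λ.image fun v => v + s) x =
      qa (W.two (eS N) (eT N)) B Λ fun v => x (v + s) := by
  have T : Tr (W.two (eS N) (eT N)) (W.two (eS N) (eT N)) (fun v => v + s)
      (fun e => (e.1 + s, e.2)) Λ := by
    refine ⟨add_left_injective s, ?_, fun _ _ => rfl, ?_, rfl, rfl, fun _ _ => rfl, ?_⟩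
    · intro e e' h
      have g0 : (e.1 + s, e.2) = (e'.1 + s, e'.2) := h
      have g1 := (Prod.mk.inj g0).1
      exact Prod.ext (add_left_injective s g1) (Prod.mk.inj g0).2
    · intro e _
      show eT N (e.1 + s, e.2) = eT N e + s
      rw [eT_eq, eT_eq, add_right_comm]
    · intro e' he'
      refine ⟨(e'.1 - s, e'.2), ?_, Prod.ext (sub_add_cancel _ _) rfl⟩
      rw [mem_touch] at he' ⊢
      rcases he' with h | h
      · left
        obtain ⟨v, hv, hve⟩ := Finset.mem_image.1 h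
        have h1 : (W.two (eS N) (eT N)).s (e'.1 - s, e'.2) = v := by
          show e'.1 - s = v
          have h2 : v + s = e'.1 := hve
          rw [← h2, add_sub_cancel_right]
        rw [h1]
        exact hv
      · right
        obtain ⟨v, hv, hve⟩ := Finset.mem_image.1 h
        have h1 : (W.two (eS N) (eT N)).t (e'.1 - s, e'.2) = v := by
          show eT N (e'.1 - s, e'.2) = v
          have h2 : v + s = eT N e' := hve
          rw [eT_eq] at h2 ⊢
          have h3 : e'.1 - s + eb e'.2 = e'.1 + eb e'.2 - s := by abel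
          show e'.1 - s + eb e'.2 = v
          rw [h3, ← h2, add_sub_cancel_right]
        rw [h1]
        exact hv
  exact qa_transport T B x

/-- the arm functional in the chart of the closed block at `0` -/
lemma qa_ch {m : ℕ} (hm : m + 2 ≤ N) (B0 : Finset (VB m m)) {Λ0 : Finset (VB m m)} (hΛ : Inn Λ0)
    (x : V N → ℤ × ℤ) :
    qa (W.two (eS N) (eT N)) (B0.image (ch m m 0 0)) (Λ0.image (ch m m 0 0)) x =
      qa (sB m m W.w_pos W.w_log) B0 Λ0 (x ∘ ch m m 0 0) := by
  refine qa_transport (tr_gen hm hm W.w_pos W.w_log false 0 0 (fun e => rfl) (fun e => ?_) rfl rfl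
    hΛ fun e _ => rfl) B0 x
  obtain ⟨v, c⟩ := e
  cases c <;> rfl

/-- the chart of the closed block at `s` -/
def pB {m : ℕ} (s : V N) (v : VB m m) : V N := pt s v.1 v.2

lemma pB_eq {m : ℕ} (s : V N) (v : VB m m) : pB s v = ch m m 0 0 v + s := by
  unfold pB pt ch
  simp

/-- the arm functional in the chart of the closed block at `s` -/
lemma qa_pB {m : ℕ} (hm : m + 2 ≤ N) (s : V N) (B0 : Finset (VB m m)) {Λ0 : Finset (VB m m)}
    (hΛ : Inn Λ0) (x : V N → ℤ × ℤ) :
    qa (W.two (eS N) (eT N)) (B0.image (pB s)) (Λ0.image (pB s)) x =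
      qa (sB m m W.w_pos W.w_log) B0 Λ0 fun v => x (pB s v) := by
  have e : ∀ A : Finset (VB m m), A.image (pB s) = (A.image (ch m m 0 0)).image fun v => v + s := by
    intro A
    rw [Finset.image_image]
    exact Finset.image_congr fun v _ => pB_eq s v
  rw [e, e, qa_tr, qa_ch W hm B0 hΛ]
  congr 1
  funext v
  show x (ch m m 0 0 v + s) = x (pB s v)
  rw [pB_eq]

end chart

/-! ### balls in the block -/

/-- the ball in the closed block -/
def bl0 (m : ℕ) (c : ℕ × ℕ) (r : ℕ) : Finset (VB m m) :=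
  univ.filter fun v => ((v.1 : ℕ) - (c.1 : ℤ)).natAbs ≤ r ∧ ((v.2 : ℕ) - (c.2 : ℤ)).natAbs ≤ r

lemma mem_bl0 {m : ℕ} {c : ℕ × ℕ} {r : ℕ} {v : VB m m} :
    v ∈ bl0 m c r ↔ (((v.1 : ℕ) : ℤ) - (c.1 : ℤ)).natAbs ≤ r ∧
      (((v.2 : ℕ) : ℤ) - (c.2 : ℤ)).natAbs ≤ r := by simp [bl0]

/-- the ball of radius `ρ` around `c` is in the open block -/
structure InC (m : ℕ) (c : ℕ × ℕ) (ρ : ℕ) : Prop where
  l1 : ρ + 1 ≤ c.1
  l2 : ρ + 1 ≤ c.2
  u1 : c.1 + ρ ≤ m
  u2 : c.2 + ρ ≤ m

lemma InC.inn {m ρ : ℕ} {c : ℕ × ℕ} (h : InC m c ρ) : Inn (bl0 m c ρ) := by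
  intro v hv
  rw [mem_bl0] at hv
  have := h.l1
  have := h.l2
  have := h.u1
  have := h.u2
  omega

lemma InC.mono {m ρ r : ℕ} {c : ℕ × ℕ} (h : InC m c ρ) (hr : r ≤ ρ) : InC m c r where
  l1 := by have := h.l1; omega
  l2 := by have := h.l2; omega
  u1 := by have := h.u1; omega
  u2 := by have := h.u2; omega

section ballsec

variable {N : ℕ} [NeZero N]

/-- the origin of the chart with `x` at the position `c` -/
def og (x : V N) (c : ℕ × ℕ) : V N := x - (((c.1 : ℕ) : ZMod N), ((c.2 : ℕ) : ZMod N))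

lemma pB_og {m : ℕ} (x : V N) (c : ℕ × ℕ) (v : VB m m) :
    pB (og x c) v = x + zc N ((v.1 : ℕ) - (c.1 : ℤ)) ((v.2 : ℕ) - (c.2 : ℤ)) := by
  unfold pB pt og zc
  ext <;> · simp; ring

lemma zc_small {i j : ℤ} : sz (zc N i j) ≤ max i.natAbs j.natAbs := by
  unfold sz zc
  have h1 := ZMod.natAbs_valMinAbs_le (i : ZMod N)
  have g : ∀ k : ℤ, ((k : ZMod N)).valMinAbs.natAbs ≤ k.natAbs := by
    intro k
    rcases Nat.lt_or_ge (2 * k.natAbs) N with h | h
    · rw [vma_int h]
    · have := ZMod.natAbs_valMinAbs_le (k : ZMod N)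
      omega
  have g1 := g i
  have g2 := g j
  show max ((i : ZMod N)).valMinAbs.natAbs ((j : ZMod N)).valMinAbs.natAbs ≤ _
  omega

/-- the ball of the torus is the image of the ball of the block -/
lemma ball_img {m ρ : ℕ} {c : ℕ × ℕ} (h : InC m c ρ) (x : V N) :
    ball x ρ = (bl0 m c ρ).image (pB (og x c)) := by
  ext z
  rw [ball_sz, Finset.mem_image]
  constructor
  · intro hz
    obtain ⟨i, hi⟩ : ∃ i, i = (z - x).1.valMinAbs := ⟨_, rfl⟩
    obtain ⟨j, hj⟩ : ∃ j, j = (z - x).2.valMinAbs := ⟨_, rfl⟩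
    have hij : max i.natAbs j.natAbs ≤ ρ := by
      unfold sz at hz
      rw [hi, hj]
      exact hz
    have hzx : z = x + zc N i j := by
      rw [hi, hj, zc_vma]
      abel
    have := h.l1
    have := h.l2
    have := h.u1
    have := h.u2
    obtain ⟨a, ha⟩ : ∃ a : ℕ, (a : ℤ) = c.1 + i := ⟨(c.1 + i).toNat, by omega⟩
    obtain ⟨d, hd⟩ : ∃ d : ℕ, (d : ℤ) = c.2 + j := ⟨(c.2 + j).toNat, by omega⟩
    refine ⟨(⟨a, by omega⟩, ⟨d, by omega⟩), ?_, ?_⟩
    · rw [mem_bl0]
      constructor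
      · show ((a : ℤ) - c.1).natAbs ≤ ρ
        omega
      · show ((d : ℤ) - c.2).natAbs ≤ ρ
        omega
    · rw [pB_og]
      show x + zc N ((a : ℤ) - c.1) ((d : ℤ) - c.2) = z
      rw [ha, hd, add_sub_cancel_left, add_sub_cancel_left]
      exact hzx.symm
  · rintro ⟨v, hv, rfl⟩
    rw [mem_bl0] at hv
    rw [pB_og, add_sub_cancel_left]
    refine zc_small.trans ?_
    omega

end ballsec

/-! ### the two charts -/

section two

variable {N M : ℕ} [NeZero N] [NeZero M]

/-- the embedding of the box commutes with small translations -/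
lemma io_zc {x : V N} {i j : ℤ} (h : 2 * (sz x + max i.natAbs j.natAbs) < N) :
    io N M (x + zc N i j) = io N M x + zc (M * N) i j := by
  have h1 : prj (N := N) M (io N M x + zc (M * N) i j) = x + zc N i j := by
    rw [prj_add, prj_io]
    congr 1
    unfold prj zc
    ext <;> · simp
  have h2 : 2 * sz (io N M x + zc (M * N) i j) < N := by
    have h3 := sz_add_le (io N M x) (zc (M * N) i j)
    rw [sz_io] at h3
    have h4 := zc_small (N := M * N) (i := i) (j := j)
    omega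
  rw [← h1, io_prj h2]

/-- the arm functional of one edge weight in the closed block, read on two height functions -/
def G0 (m : ℕ) {b : ℝ} (hb : 0 < b) (c : ℕ × ℕ) (r ρ : ℕ)
    (τ τ' : Fin (m + 2) → Fin (m + 2) → ℤ) : ℝ≥0∞ :=
  qa (sB m m (WI b hb).w_pos (WI b hb).w_log) (bl0 m c r) (bl0 m c ρ) fun v =>
    (τ v.1 v.2, τ' v.1 v.2)

lemma G0_le_one (m : ℕ) {b : ℝ} (hb : 0 < b) (c : ℕ × ℕ) (r ρ : ℕ)
    (τ τ' : Fin (m + 2) → Fin (m + 2) → ℤ) : G0 m hb c r ρ τ τ' ≤ 1 :=
  qa_le_one _ (fun _ _ _ => mul_pos ((WI b hb).w_pos _) ((WI b hb).w_pos _)) _ _ _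

/-- **the arm functional of the pair in the two charts** -/
lemma qN_G0 {b : ℝ} (hb : 0 < b) {m r ρ : ℕ} {c : ℕ × ℕ} (hm : m + 2 ≤ N) (hc : InC m c ρ)
    (hr : r ≤ ρ) {x : V N} (hx : 2 * (sz x + ρ + 1) < N) (h : V N → ℤ) (h' : V (M * N) → ℤ) :
    qN N hb r ρ x (fun v => (h v, h' (io N M v))) =
      G0 m hb c r ρ (fun a d => h (pt (og x c) a d)) (fun a d => h' (pt (og (io N M x) c) a d)) := by
  have e1 := qa_pB (WI b hb) hm (og x c) (bl0 m c r) hc.inn fun v => (h v, h' (io N M v))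
  unfold qN G0
  rw [ball_img (hc.mono hr) x, ball_img hc x, e1]
  have key : ∀ v : VB m m, v ∈ bl0 m c (ρ + 1) →
      io N M (pB (og x c) v) = pB (og (io N M x) c) v := by
    intro v hv
    rw [mem_bl0] at hv
    rw [pB_og, pB_og, io_zc]
    omega
  refine qa_local (fun v hv => ?_) (fun e he => ?_)
  · rw [key v (by rw [mem_bl0] at hv ⊢; omega)]
    rfl
  · have hnx : ∀ a : Fin (m + 2), ((nx a : Fin (m + 2)) : ℕ) = a + 1 ∨
        ((nx a : Fin (m + 2)) : ℕ) = a := by
      intro a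
      unfold nx
      split_ifs
      · left; rfl
      · right; rfl
    have hboth : bS e ∈ bl0 m c (ρ + 1) ∧ bT e ∈ bl0 m c (ρ + 1) := by
      obtain ⟨⟨u, v⟩, o⟩ := e
      have g1 := hnx u
      have g2 := hnx v
      rw [mem_bl0, mem_bl0]
      rcases (mem_touch _).1 he with h1 | h1
      · have h2 := mem_bl0.1 h1
        change ((((u : Fin (m + 2)) : ℕ) : ℤ) - (c.1 : ℤ)).natAbs ≤ ρ ∧
          ((((v : Fin (m + 2)) : ℕ) : ℤ) - (c.2 : ℤ)).natAbs ≤ ρ at h2
        cases o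
        · simp only [bS, bT, Bool.false_eq_true, if_false]
          omega
        · simp only [bS, bT, if_true]
          omega
      · have h2 := mem_bl0.1 h1
        cases o
        · change ((((u : Fin (m + 2)) : ℕ) : ℤ) - (c.1 : ℤ)).natAbs ≤ ρ ∧
            ((((nx v : Fin (m + 2)) : ℕ) : ℤ) - (c.2 : ℤ)).natAbs ≤ ρ at h2
          simp only [bS, bT, Bool.false_eq_true, if_false]
          omega
        · change ((((nx u : Fin (m + 2)) : ℕ) : ℤ) - (c.1 : ℤ)).natAbs ≤ ρ ∧
            ((((v : Fin (m + 2)) : ℕ) : ℤ) - (c.2 : ℤ)).natAbs ≤ ρ at h2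
          simp only [bS, bT, if_true]
          omega
    have h3 : (sB m m (WI b hb).w_pos (WI b hb).w_log).s e = bS e := rfl
    have h4 : (sB m m (WI b hb).w_pos (WI b hb).w_log).t e = bT e := rfl
    rw [h3, h4, key _ hboth.1, key _ hboth.2]
    exact ⟨rfl, rfl⟩

/-- **the arm integral in the two charts** -/
theorem AF_G0 {b t : ℝ} (hb : 0 < b) {m r ρ : ℕ} {c : ℕ × ℕ} (hm : m + 2 ≤ N) (hc : InC m c ρ)
    (hr : r ≤ ρ) {x : V N} (hx : 2 * (sz x + ρ + 1) < N) (η1 : V N × Bool → ℤ) (F1 : V N → ℝ)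
    (η2 : V (M * N) × Bool → ℤ) (F2 : V (M * N) → ℝ) :
    AF (wI b) (eS N) (eT N) (eS (M * N)) (eT (M * N)) (io N M) η1 (fun v => aF t (F1 v)) η2
      (fun u => aF t (F2 u)) (qN N hb r ρ x) =
    ∑' h1 : Tor N → ℤ, ∑' h2 : Tor (M * N) → ℤ, ENNReal.ofReal (wDC N b t η1 F1 h1) *
      ENNReal.ofReal (wDC (M * N) b t η2 F2 h2) *
        G0 m hb c r ρ (fun a d => h1 (pt (og x c) a d))
          (fun a d => h2 (pt (og (io N M x) c) a d)) := by
  unfold AF
  refine tsum_congr fun h => tsum_congr fun h' => ?_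
  rw [qN_G0 hb hm hc hr hx h h', wX_eq, wX_eq]
  rfl

end two

end

end Vale.Agent.P159.H280.Hs
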