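import Vale.Agent.P159.H764.Sw0

/-!
P159, (H6) / SW2 (helper280), part 1: the swap of two copies on two DIFFERENT graphs with a common
box.  Copy `1` lives on `V1, E1`, copy `2` on `V2, E2`; `ι : V1 → V2` injective is the identification
of the common box, `Eg ⊆ E1` the edges of the box.  `VW` contains the data, `VP` the boundary.
-/

set_option linter.unusedSectionVars false
set_option linter.unusedDecidableInType false

namespace Vale.Agent.P159.H280.Hs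

open scoped ENNReal
open Finset Vale.Agent.P159.TM.H60 Vale.Agent.P159.TM.H576 Vale.Agent.P159.H764
open Vale.Agent.P159.H145.Dz (I0 touch mem_touch)

/-! ### the canonical arm functional -/

section arm

variable {V E : Type*} [Fintype V] [DecidableEq V] [Fintype E] [DecidableEq E]

/-- edge and site weight of one copy -/
structure Wg where
  /-- edge weight -/
  w : ℤ → ℝ
  w_pos : ∀ n, 0 < w n
  w_neg : ∀ n, w (-n) = w n
  w_log : T1.H897.LogC w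

/-- two copies, all edges with the weight `w`, no site weight -/
noncomputable def Wg.two (W : Wg) (s t : E → V) : Sys V E (ℤ × ℤ) :=
  TM.H60.two s t (fun _ => W.w) (fun _ n => (W.w_pos n).le) (fun _ => W.w_log) (fun _ _ => 1)
    fun _ _ => zero_le_one

/-- **the arm functional**: conditional probability, given the two height functions, that `z` is
joined to the outside of `Λ` -/
noncomputable def Wg.arF (W : Wg) (s t : E → V) (Λ : Finset V) (z : V) (x : V → ℤ × ℤ) : ℝ≥0∞ :=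
  Arm1 (W.two s t) Λ z x

lemma Wg.arF_le_one (W : Wg) (s t : E → V) (Λ : Finset V) (z : V) (x : V → ℤ × ℤ) :
    W.arF s t Λ z x ≤ 1 :=
  Arm1_le_one _ (fun _ _ _ => mul_pos (W.w_pos _) (W.w_pos _)) Λ z x

/-- edges of `Om` with the weight `w`, the others with the weight `1`; site weights `a` -/
noncomputable def Wg.twoOm (W : Wg) (s t : E → V) (Om : Finset E) (a : V → ℤ → ℝ)
    (ha : ∀ v n, 0 ≤ a v n) : Sys V E (ℤ × ℤ) :=
  TM.H60.two s t (fun e n => if e ∈ Om then W.w n else 1)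
    (fun e n => by
      by_cases h : e ∈ Om
      · rw [if_pos h]; exact (W.w_pos n).le
      · rw [if_neg h]; exact zero_le_one)
    (fun e => by
      by_cases h : e ∈ Om
      · simp only [if_pos h]; exact W.w_log
      · simp only [if_neg h]
        intro p q r s _ _ _
        exact le_refl _) a ha

lemma Wg.fl_pos (W : Wg) (s t : E → V) (Om : Finset E) (a : V → ℤ → ℝ)
    (ha : ∀ v n, 0 ≤ a v n) (e : E) (x y : ℤ × ℤ) : 0 < (W.twoOm s t Om a ha).fl e x y := by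
  show 0 < (if e ∈ Om then W.w (y.1 - x.1) else 1) * (if e ∈ Om then W.w (y.2 - x.2) else 1)
  by_cases h : e ∈ Om
  · rw [if_pos h, if_pos h]; exact mul_pos (W.w_pos _) (W.w_pos _)
  · rw [if_neg h, if_neg h]; norm_num

/-- the arm function of `twoOm` is the canonical one if every edge touching `Λ` is in `Om` -/
lemma Wg.arm_eq (W : Wg) (s t : E → V) {Om : Finset E} (a : V → ℤ → ℝ)
    (ha : ∀ v n, 0 ≤ a v n) {Λ : Finset V} (hΛ : ∀ e, s e ∈ Λ ∨ t e ∈ Λ → e ∈ Om) (z : V)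
    (x : V → ℤ × ℤ) : Arm1 (W.twoOm s t Om a ha) Λ z x = W.arF s t Λ z x := by
  unfold Wg.arF Arm1 H145.Dz.cp
  have hT : touch (W.twoOm s t Om a ha) Λ = touch (W.two s t) Λ := by
    ext e
    rw [mem_touch, mem_touch]
    rfl
  rw [hT]
  refine Finset.sum_congr rfl fun T hTT => ?_
  rw [Finset.mem_powerset] at hTT
  have key : ∀ e ∈ touch (W.two s t) Λ, ∀ u v : ℤ × ℤ,
      (W.twoOm s t Om a ha).fl e u v = (W.two s t).fl e u v := by
    intro e he u v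
    rw [mem_touch] at he
    have h1 : e ∈ Om := hΛ e he
    show (if e ∈ Om then W.w (v.1 - u.1) else 1) * (if e ∈ Om then W.w (v.2 - u.2) else 1) =
      W.w (v.1 - u.1) * W.w (v.2 - u.2)
    rw [if_pos h1, if_pos h1]
  have kp : ∀ e ∈ touch (W.two s t) Λ, ∀ u v : ℤ × ℤ,
      H145.Dz.pe (W.twoOm s t Om a ha) e u v = H145.Dz.pe (W.two s t) e u v := by
    intro e he u v
    unfold H145.Dz.pe Sys.op
    rw [key e he, key e he]
    rfl
  have kq : ∀ e ∈ touch (W.two s t) Λ, ∀ u v : ℤ × ℤ,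
      H145.Dz.qe (W.twoOm s t Om a ha) e u v = H145.Dz.qe (W.two s t) e u v := by
    intro e he u v
    unfold H145.Dz.qe Sys.cl
    rw [key e he, key e he]
    rfl
  have hout : Out (W.twoOm s t Om a ha) Λ z T ↔ Out (W.two s t) Λ z T := Iff.rfl
  refine congrArg₂ (· * ·) (congrArg₂ (· * ·) ?_ ?_) (ind_congr hout)
  · exact Finset.prod_congr rfl fun e he => kp e (hTT he) _ _
  · exact Finset.prod_congr rfl fun e he => kq e (Finset.mem_sdiff.1 he).1 _ _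

end arm

/-! ### gluing of the spectators -/

section glue

variable {V1 V2 : Type*} (ι : V1 → V2)

open Classical in
/-- configurations of the second graph = configurations of the box and of the spectators -/
noncomputable def glE (hι : Function.Injective ι) :
    (V1 → ℤ) × ({u // u ∉ Set.range ι} → ℤ) ≃ (V2 → ℤ) where
  toFun p u := if h : u ∈ Set.range ι then p.1 h.choose else p.2 ⟨u, h⟩
  invFun h := (fun v => h (ι v), fun u => h u)
  left_inv p := by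
    obtain ⟨k, y⟩ := p
    ext v
    · have h : ι v ∈ Set.range ι := ⟨v, rfl⟩
      simp only [dif_pos h]
      rw [hι h.choose_spec]
    · obtain ⟨u, hu⟩ := v
      simp only [dif_neg hu]
  right_inv h := by
    funext u
    by_cases hu : u ∈ Set.range ι
    · simp only [dif_pos hu]
      rw [hu.choose_spec]
    · simp only [dif_neg hu]

variable {ι}

open Classical in
lemma glE_ι (hι : Function.Injective ι) (k : V1 → ℤ) (y : {u // u ∉ Set.range ι} → ℤ) (v : V1) :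
    glE ι hι (k, y) (ι v) = k v := by
  have h : ι v ∈ Set.range ι := ⟨v, rfl⟩
  show (if h : ι v ∈ Set.range ι then k h.choose else y ⟨ι v, h⟩) = k v
  rw [dif_pos h, hι h.choose_spec]

open Classical in
lemma glE_out (hι : Function.Injective ι) (k : V1 → ℤ) (y : {u // u ∉ Set.range ι} → ℤ) {u : V2}
    (hu : u ∉ Set.range ι) : glE ι hι (k, y) u = y ⟨u, hu⟩ := by
  show (if h : u ∈ Set.range ι then k h.choose else y ⟨u, h⟩) = _
  rw [dif_neg hu]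

end glue

/-! ### the two graphs -/

/-- the geometry: common box of two graphs, data in `VW`, boundary `VP` -/
structure Geo {V1 E1 V2 E2 : Type*} (s1 t1 : E1 → V1) (s2 t2 : E2 → V2) (ι : V1 → V2)
    (ιE : E1 → E2) (Eg : Finset E1) (VW VP : Finset V1) : Prop where
  inj : Function.Injective ι
  injE : ∀ e ∈ Eg, ∀ e' ∈ Eg, ιE e = ιE e' → e = e'
  src : ∀ e ∈ Eg, s2 (ιE e) = ι (s1 e)
  tgt : ∀ e ∈ Eg, t2 (ιE e) = ι (t1 e)
  disj : Disjoint VW VP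
  bad1 : ∀ e, e ∉ Eg → s1 e ∈ VP ∧ t1 e ∈ VP
  bad2 : ∀ e', (∀ e ∈ Eg, ιE e ≠ e') → (∀ v, ι v = s2 e' → v ∈ VP) ∧ ∀ v, ι v = t2 e' → v ∈ VP

section two

variable {V1 E1 V2 E2 : Type*} [Fintype V1] [DecidableEq V1] [Fintype E1] [DecidableEq E1]
  [Fintype V2] [DecidableEq V2] [Fintype E2] [DecidableEq E2]

/-- weight of one copy: edge data `η`, site weights `α` -/
noncomputable def wX {V E : Type*} [Fintype V] [Fintype E] (w : ℤ → ℝ) (s t : E → V) (η : E → ℤ)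
    (α : V → ℤ → ℝ) (h : V → ℤ) : ℝ :=
  (∏ e, w (h (t e) - h (s e) + η e)) * ∏ v, α v (h v)

lemma wX_nonneg {V E : Type*} [Fintype V] [Fintype E] {w : ℤ → ℝ} (hw : ∀ n, 0 < w n)
    {s t : E → V} {η : E → ℤ} {α : V → ℤ → ℝ} (hα : ∀ v n, 0 ≤ α v n) (h : V → ℤ) :
    0 ≤ wX w s t η α h :=
  mul_nonneg (Finset.prod_nonneg fun _ _ => (hw _).le) (Finset.prod_nonneg fun v _ => hα v _)

/-- partition function of one copy -/
noncomputable def ZX {V E : Type*} [Fintype V] [Fintype E] (w : ℤ → ℝ) (s t : E → V) (η : E → ℤ)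
    (α : V → ℤ → ℝ) : ℝ≥0∞ := ∑' h : V → ℤ, ENNReal.ofReal (wX w s t η α h)

variable (w : ℤ → ℝ) (s1 t1 : E1 → V1) (s2 t2 : E2 → V2) (ι : V1 → V2) (ιE : E1 → E2)
  (Eg D : Finset E1) (VW VP : Finset V1) (a : ℤ → ℝ)

/-- the common edges of the open sets -/
def OmE : Finset E1 := Eg \ D

/-- common part of the weight -/
noncomputable def com (h h' : V1 → ℤ) : ℝ :=
  (∏ e ∈ Eg \ D, w (h (t1 e) - h (s1 e)) * w (h' (t1 e) - h' (s1 e))) *
    ∏ v ∈ VWᶜ, a (h v) * a (h' v)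

/-- boundary and spectator part of the weight: does not depend on the data -/
noncomputable def bdW (h : V1 → ℤ) (h' : V2 → ℤ) : ℝ :=
  (∏ e ∈ Egᶜ, w (h (t1 e) - h (s1 e))) *
    (∏ e' ∈ (Eg.image ιE)ᶜ, w (h' (t2 e') - h' (s2 e'))) *
    ∏ u ∈ (univ.image ι)ᶜ, a (h' u)

/-- data part of the weight: the data in the first copy -/
noncomputable def daW (η : E1 → ℤ) (α : V1 → ℤ → ℝ) (h h' : V1 → ℤ) : ℝ :=
  (∏ e ∈ D, w (h (t1 e) - h (s1 e) + η e) * w (h' (t1 e) - h' (s1 e))) *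
    ∏ v ∈ VW, α v (h v) * a (h' v)

/-- total weight of the pair -/
noncomputable def tw2 (η1 : E1 → ℤ) (α1 : V1 → ℤ → ℝ) (η2 : E2 → ℤ) (α2 : V2 → ℤ → ℝ)
    (h : V1 → ℤ) (h' : V2 → ℤ) : ℝ := wX w s1 t1 η1 α1 h * wX w s2 t2 η2 α2 h'

variable {w s1 t1 s2 t2 ι ιE Eg D VW VP a}

/-- splitting of a product over the edges of the second graph -/
lemma prod_E2 (G : Geo s1 t1 s2 t2 ι ιE Eg VW VP) (hD : D ⊆ Eg) (f : E2 → ℝ) :
    ∏ e', f e' = ((∏ e ∈ Eg \ D, f (ιE e)) * ∏ e ∈ D, f (ιE e)) * ∏ e' ∈ (Eg.image ιE)ᶜ, f e' := by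
  rw [← Finset.prod_mul_prod_compl (Eg.image ιE) f, Finset.prod_sdiff hD,
    Finset.prod_image fun e he e' he' h => G.injE e he e' he' h]

lemma prod_V2 (G : Geo s1 t1 s2 t2 ι ιE Eg VW VP) (f : V2 → ℝ) :
    ∏ u, f u = ((∏ v ∈ VWᶜ, f (ι v)) * ∏ v ∈ VW, f (ι v)) * ∏ u ∈ (univ.image ι)ᶜ, f u := by
  rw [← Finset.prod_mul_prod_compl (univ.image ι) f, Finset.prod_image fun v _ v' _ h => G.inj h,
    ← Finset.prod_mul_prod_compl VW fun v => f (ι v), mul_comm (∏ v ∈ VW, f (ι v))]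

lemma prod_E1 (hD : D ⊆ Eg) (f : E1 → ℝ) :
    ∏ e, f e = ((∏ e ∈ Eg \ D, f e) * ∏ e ∈ D, f e) * ∏ e ∈ Egᶜ, f e := by
  rw [← Finset.prod_mul_prod_compl Eg f, Finset.prod_sdiff hD]

lemma prod_V1 (f : V1 → ℝ) : ∏ v, f v = (∏ v ∈ VWᶜ, f v) * ∏ v ∈ VW, f v := by
  rw [← Finset.prod_mul_prod_compl VW f, mul_comm]

/-- the data on the second graph -/
structure Dat2 (ι : V1 → V2) (ιE : E1 → E2) (D : Finset E1) (VW : Finset V1) (a : ℤ → ℝ)
    (η : E1 → ℤ) (α : V1 → ℤ → ℝ) (η2 : E2 → ℤ) (α2 : V2 → ℤ → ℝ) : Prop where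
  eta : ∀ e ∈ D, η2 (ιE e) = η e
  eta0 : ∀ e', (∀ e ∈ D, ιE e ≠ e') → η2 e' = 0
  al : ∀ v ∈ VW, α2 (ι v) = α v
  al0 : ∀ u, (∀ v ∈ VW, ι v ≠ u) → α2 u = a

/-- the data in the first copy -/
lemma tw2_A (G : Geo s1 t1 s2 t2 ι ιE Eg VW VP) (hD : D ⊆ Eg) {η : E1 → ℤ} {α : V1 → ℤ → ℝ}
    (hη : ∀ e, e ∉ D → η e = 0) (hα : ∀ v, v ∉ VW → α v = a) (h : V1 → ℤ) (h' : V2 → ℤ) :
    tw2 w s1 t1 s2 t2 η α 0 (fun _ => a) h h' =
      com w s1 t1 Eg D VW a h (fun v => h' (ι v)) *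
        (bdW w s1 t1 s2 t2 ι ιE Eg a h h' * daW w s1 t1 D VW a η α h fun v => h' (ι v)) := by
  unfold tw2 wX com bdW daW
  rw [prod_E1 hD, prod_V1 (VW := VW), prod_E2 G hD, prod_V2 G]
  have e1 : ∏ e ∈ Eg \ D, w (h (t1 e) - h (s1 e) + η e) =
      ∏ e ∈ Eg \ D, w (h (t1 e) - h (s1 e)) :=
    Finset.prod_congr rfl fun e he => by rw [hη e (Finset.mem_sdiff.1 he).2, add_zero]
  have e2 : ∏ e ∈ Egᶜ, w (h (t1 e) - h (s1 e) + η e) = ∏ e ∈ Egᶜ, w (h (t1 e) - h (s1 e)) :=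
    Finset.prod_congr rfl fun e he => by
      rw [hη e fun h1 => (Finset.mem_compl.1 he) (hD h1), add_zero]
  have e3 : ∏ v ∈ VWᶜ, α v (h v) = ∏ v ∈ VWᶜ, a (h v) :=
    Finset.prod_congr rfl fun v hv => by rw [hα v (Finset.mem_compl.1 hv)]
  have e4 : ∏ e ∈ Eg \ D, w (h' (t2 (ιE e)) - h' (s2 (ιE e)) + (0 : E2 → ℤ) (ιE e)) =
      ∏ e ∈ Eg \ D, w (h' (ι (t1 e)) - h' (ι (s1 e))) :=
    Finset.prod_congr rfl fun e he => by
      rw [G.src e (Finset.mem_sdiff.1 he).1, G.tgt e (Finset.mem_sdiff.1 he).1, Pi.zero_apply,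
        add_zero]
  have e5 : ∏ e ∈ D, w (h' (t2 (ιE e)) - h' (s2 (ιE e)) + (0 : E2 → ℤ) (ιE e)) =
      ∏ e ∈ D, w (h' (ι (t1 e)) - h' (ι (s1 e))) :=
    Finset.prod_congr rfl fun e he => by
      rw [G.src e (hD he), G.tgt e (hD he), Pi.zero_apply, add_zero]
  have e6 : ∏ e' ∈ (Eg.image ιE)ᶜ, w (h' (t2 e') - h' (s2 e') + (0 : E2 → ℤ) e') =
      ∏ e' ∈ (Eg.image ιE)ᶜ, w (h' (t2 e') - h' (s2 e')) :=
    Finset.prod_congr rfl fun e _ => by rw [Pi.zero_apply, add_zero]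
  rw [e1, e2, e3, e4, e5, e6]
  simp only [Finset.prod_mul_distrib]
  ring

/-- the data in the second copy -/
lemma tw2_B (G : Geo s1 t1 s2 t2 ι ιE Eg VW VP) (hD : D ⊆ Eg) {η : E1 → ℤ} {α : V1 → ℤ → ℝ}
    {η2 : E2 → ℤ} {α2 : V2 → ℤ → ℝ} (H : Dat2 ι ιE D VW a η α η2 α2) (h : V1 → ℤ)
    (h' : V2 → ℤ) :
    tw2 w s1 t1 s2 t2 0 (fun _ => a) η2 α2 h h' =
      com w s1 t1 Eg D VW a h (fun v => h' (ι v)) *
        (bdW w s1 t1 s2 t2 ι ιE Eg a h h' * daW w s1 t1 D VW a η α (fun v => h' (ι v)) h) := by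
  unfold tw2 wX com bdW daW
  rw [prod_E1 hD, prod_V1 (VW := VW), prod_E2 G hD, prod_V2 G]
  have e4 : ∏ e ∈ Eg \ D, w (h' (t2 (ιE e)) - h' (s2 (ιE e)) + η2 (ιE e)) =
      ∏ e ∈ Eg \ D, w (h' (ι (t1 e)) - h' (ι (s1 e))) :=
    Finset.prod_congr rfl fun e he => by
      have h1 := Finset.mem_sdiff.1 he
      rw [G.src e h1.1, G.tgt e h1.1, H.eta0 (ιE e) fun e' he' h2 =>
        h1.2 (G.injE e' (hD he') e h1.1 h2 ▸ he'), add_zero]
  have e5 : ∏ e ∈ D, w (h' (t2 (ιE e)) - h' (s2 (ιE e)) + η2 (ιE e)) =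
      ∏ e ∈ D, w (h' (ι (t1 e)) - h' (ι (s1 e)) + η e) :=
    Finset.prod_congr rfl fun e he => by
      rw [G.src e (hD he), G.tgt e (hD he), H.eta e he]
  have e6 : ∏ e' ∈ (Eg.image ιE)ᶜ, w (h' (t2 e') - h' (s2 e') + η2 e') =
      ∏ e' ∈ (Eg.image ιE)ᶜ, w (h' (t2 e') - h' (s2 e')) :=
    Finset.prod_congr rfl fun e' he' => by
      rw [H.eta0 e' fun e he h2 => (Finset.mem_compl.1 he')
        (Finset.mem_image.2 ⟨e, hD he, h2⟩), add_zero]
  have e7 : ∏ v ∈ VWᶜ, α2 (ι v) (h' (ι v)) = ∏ v ∈ VWᶜ, a (h' (ι v)) :=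
    Finset.prod_congr rfl fun v hv => by
      rw [H.al0 (ι v) fun v' hv' h2 => (Finset.mem_compl.1 hv) (G.inj h2 ▸ hv')]
  have e8 : ∏ v ∈ VW, α2 (ι v) (h' (ι v)) = ∏ v ∈ VW, α v (h' (ι v)) :=
    Finset.prod_congr rfl fun v hv => by rw [H.al v hv]
  have e9 : ∏ u ∈ (univ.image ι)ᶜ, α2 u (h' u) = ∏ u ∈ (univ.image ι)ᶜ, a (h' u) :=
    Finset.prod_congr rfl fun u hu => by
      rw [H.al0 u fun v _ h2 => (Finset.mem_compl.1 hu)
        (Finset.mem_image.2 ⟨v, Finset.mem_univ _, h2⟩)]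
  have e1 : ∏ e ∈ Eg \ D, w (h (t1 e) - h (s1 e) + (0 : E1 → ℤ) e) =
      ∏ e ∈ Eg \ D, w (h (t1 e) - h (s1 e)) :=
    Finset.prod_congr rfl fun e _ => by rw [Pi.zero_apply, add_zero]
  have e2 : ∏ e ∈ D, w (h (t1 e) - h (s1 e) + (0 : E1 → ℤ) e) =
      ∏ e ∈ D, w (h (t1 e) - h (s1 e)) :=
    Finset.prod_congr rfl fun e _ => by rw [Pi.zero_apply, add_zero]
  have e3 : ∏ e ∈ Egᶜ, w (h (t1 e) - h (s1 e) + (0 : E1 → ℤ) e) =
      ∏ e ∈ Egᶜ, w (h (t1 e) - h (s1 e)) :=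
    Finset.prod_congr rfl fun e _ => by rw [Pi.zero_apply, add_zero]
  rw [e1, e2, e3, e4, e5, e6, e7, e8, e9]
  simp only [Finset.prod_mul_distrib]
  ring

/-! ### the swap -/

lemma daW_nonneg (hw : ∀ n, 0 < w n) (ha : ∀ n, 0 ≤ a n) {η : E1 → ℤ} {α : V1 → ℤ → ℝ}
    (hα : ∀ v n, 0 ≤ α v n) (h h' : V1 → ℤ) : 0 ≤ daW w s1 t1 D VW a η α h h' := by
  unfold daW
  exact mul_nonneg (Finset.prod_nonneg fun _ _ => mul_nonneg (hw _).le (hw _).le)
    (Finset.prod_nonneg fun v _ => mul_nonneg (hα v _) (ha _))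

lemma bdW_nonneg (hw : ∀ n, 0 < w n) (ha : ∀ n, 0 ≤ a n) (h : V1 → ℤ) (h' : V2 → ℤ) :
    0 ≤ bdW w s1 t1 s2 t2 ι ιE Eg a h h' := by
  unfold bdW
  exact mul_nonneg (mul_nonneg (Finset.prod_nonneg fun _ _ => (hw _).le)
    (Finset.prod_nonneg fun _ _ => (hw _).le)) (Finset.prod_nonneg fun _ _ => ha _)

/-- sum over the spectators -/
noncomputable def GS (hι : Function.Injective ι) (r : (V1 → ℤ) → (V2 → ℤ) → ℝ)
    (x : V1 → ℤ × ℤ) : ℝ≥0∞ :=
  ∑' y : {u // u ∉ Set.range ι} → ℤ,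
    ENNReal.ofReal (r (fun v => (x v).1) (glE ι hι (fun v => (x v).2, y)))

/-- the configuration of two copies as a pair -/
def prE (V : Type*) : (V → ℤ × ℤ) ≃ (V → ℤ) × (V → ℤ) where
  toFun x := (fun v => (x v).1, fun v => (x v).2)
  invFun p v := (p.1 v, p.2 v)
  left_inv x := by funext v; rfl
  right_inv p := by rfl

/-- integration of the spectators -/
lemma I0_GS (σ : Sys V1 E1 (ℤ × ℤ)) (hι : Function.Injective ι) (r : (V1 → ℤ) → (V2 → ℤ) → ℝ)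
    (F : (V1 → ℤ × ℤ) → ℝ≥0∞) :
    I0 σ (fun x => GS hι r x * F x) = ∑' h : V1 → ℤ, ∑' h' : V2 → ℤ,
      ENNReal.ofReal (σ.tot fun v => (h v, h' (ι v))) * ENNReal.ofReal (r h h') *
        F fun v => (h v, h' (ι v)) := by
  unfold I0 GS
  rw [← (prE V1).symm.tsum_eq, ENNReal.tsum_prod']
  refine tsum_congr fun h => ?_
  rw [← (glE ι hι).tsum_eq, ENNReal.tsum_prod']
  refine tsum_congr fun k => ?_
  have e1 : ((prE V1).symm (h, k)) = fun v => (h v, k v) := rfl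
  rw [e1, ← mul_assoc, ← ENNReal.tsum_mul_left, ← ENNReal.tsum_mul_right]
  refine tsum_congr fun y => ?_
  have e2 : (fun v => (h v, glE ι hι (k, y) (ι v))) = fun v => (h v, k v) := by
    funext v
    rw [glE_ι hι]
  rw [e2]

variable (W : Wg)

/-- the swap invariant model of the common part -/
noncomputable def sg (s1 t1 : E1 → V1) (Om : Finset E1) (VW : Finset V1) (a : ℤ → ℝ)
    (ha : ∀ n, 0 ≤ a n) : Sys V1 E1 (ℤ × ℤ) :=
  W.twoOm s1 t1 Om (fun v n => if v ∈ VW then 1 else a n) fun v n => by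
    by_cases h : v ∈ VW
    · rw [if_pos h]; exact zero_le_one
    · rw [if_neg h]; exact ha n

lemma tot_sg (Om : Finset E1) (ha : ∀ n, 0 ≤ a n) (h k : V1 → ℤ) :
    (sg W s1 t1 Om VW a ha).tot (fun v => (h v, k v)) =
      (∏ e ∈ Om, W.w (h (t1 e) - h (s1 e)) * W.w (k (t1 e) - k (s1 e))) *
        ∏ v ∈ VWᶜ, a (h v) * a (k v) := by
  have e0 : (sg W s1 t1 Om VW a ha).tot (fun v => (h v, k v)) =
      (∏ e, (if e ∈ Om then W.w (h (t1 e) - h (s1 e)) else 1) *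
        (if e ∈ Om then W.w (k (t1 e) - k (s1 e)) else 1)) *
      ∏ v, (if v ∈ VW then 1 else a (h v)) * (if v ∈ VW then 1 else a (k v)) := rfl
  rw [e0]
  congr 1
  · rw [← Finset.prod_mul_prod_compl Om]
    have e1 : ∏ e ∈ Omᶜ, (if e ∈ Om then W.w (h (t1 e) - h (s1 e)) else 1) *
        (if e ∈ Om then W.w (k (t1 e) - k (s1 e)) else 1) = 1 :=
      Finset.prod_eq_one fun e he => by
        rw [if_neg (Finset.mem_compl.1 he), if_neg (Finset.mem_compl.1 he), mul_one]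
    rw [e1, mul_one]
    exact Finset.prod_congr rfl fun e he => by rw [if_pos he, if_pos he]
  · rw [← Finset.prod_mul_prod_compl VW]
    have e1 : ∏ v ∈ VW, (if v ∈ VW then 1 else a (h v)) * (if v ∈ VW then 1 else a (k v)) = 1 :=
      Finset.prod_eq_one fun v hv => by rw [if_pos hv, if_pos hv, mul_one]
    rw [e1, one_mul]
    exact Finset.prod_congr rfl fun v hv => by
      rw [if_neg (Finset.mem_compl.1 hv), if_neg (Finset.mem_compl.1 hv)]

/-- the swap of a set between the data and the boundary exchanges the two rest weights -/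
lemma GS_flip (σ : Sys V1 E1 (ℤ × ℤ)) (hσ : σ.sw = Prod.swap)
    (G : Geo s1 t1 s2 t2 ι ιE Eg VW VP) (hD : ∀ e ∈ D, s1 e ∈ VW ∧ t1 e ∈ VW)
    (η : E1 → ℤ) (α : V1 → ℤ → ℝ) {A : Finset V1} (hA : VW ⊆ A) (hP : Disjoint A VP)
    (x : V1 → ℤ × ℤ) :
    GS G.inj (fun h h' => bdW w s1 t1 s2 t2 ι ιE Eg a h h' *
        daW w s1 t1 D VW a η α (fun v => h' (ι v)) h) (σ.flip A x) =
      GS G.inj (fun h h' => bdW w s1 t1 s2 t2 ι ιE Eg a h h' *
        daW w s1 t1 D VW a η α h fun v => h' (ι v)) x := by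
  unfold GS
  refine tsum_congr fun y => ?_
  congr 1
  have f1 : ∀ v ∈ A, σ.flip A x v = ((x v).2, (x v).1) := by
    intro v hv
    rw [σ.flip_mem hv, hσ]
    rfl
  have f2 : ∀ v ∉ A, σ.flip A x v = x v := fun v hv => σ.flip_not_mem hv
  have hPA : ∀ v ∈ VP, v ∉ A := fun v h1 h2 => Finset.disjoint_left.1 hP h2 h1
  -- heights of the second copy at the ends of an edge which is not in the box
  have g1 : ∀ u : V2, (∀ v, ι v = u → v ∈ VP) →
      glE ι G.inj (fun v => (σ.flip A x v).2, y) u = glE ι G.inj (fun v => (x v).2, y) u := by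
    intro u hu
    by_cases hr : u ∈ Set.range ι
    · obtain ⟨v, rfl⟩ := hr
      rw [glE_ι, glE_ι, f2 v (hPA v (hu v rfl))]
    · rw [glE_out G.inj _ _ hr, glE_out G.inj _ _ hr]
  have b : bdW w s1 t1 s2 t2 ι ιE Eg a (fun v => (σ.flip A x v).1)
      (glE ι G.inj (fun v => (σ.flip A x v).2, y)) =
      bdW w s1 t1 s2 t2 ι ιE Eg a (fun v => (x v).1) (glE ι G.inj (fun v => (x v).2, y)) := by
    unfold bdW
    congr 1
    · congr 1
      · refine Finset.prod_congr rfl fun e he => ?_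
        have h1 := G.bad1 e (Finset.mem_compl.1 he)
        beta_reduce
        rw [f2 _ (hPA _ h1.1), f2 _ (hPA _ h1.2)]
      · refine Finset.prod_congr rfl fun e' he' => ?_
        have h1 := G.bad2 e' fun e he h2 => (Finset.mem_compl.1 he')
          (Finset.mem_image.2 ⟨e, he, h2⟩)
        rw [g1 _ h1.1, g1 _ h1.2]
    · refine Finset.prod_congr rfl fun u hu => ?_
      have hr : u ∉ Set.range ι := by
        rintro ⟨v, rfl⟩
        exact (Finset.mem_compl.1 hu) (Finset.mem_image_of_mem _ (Finset.mem_univ v))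
      rw [glE_out G.inj _ _ hr, glE_out G.inj _ _ hr]
  beta_reduce
  rw [b]
  congr 1
  unfold daW
  congr 1
  · refine Finset.prod_congr rfl fun e he => ?_
    have h1 := hD e he
    simp only [glE_ι]
    rw [f1 _ (hA h1.1), f1 _ (hA h1.2)]
  · refine Finset.prod_congr rfl fun v hv => ?_
    simp only [glE_ι]
    rw [f1 _ (hA hv)]

/-- product of the two weights, integrated against a functional of the box -/
noncomputable def AF (w : ℤ → ℝ) (s1 t1 : E1 → V1) (s2 t2 : E2 → V2) (ι : V1 → V2)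
    (η1 : E1 → ℤ) (α1 : V1 → ℤ → ℝ) (η2 : E2 → ℤ) (α2 : V2 → ℤ → ℝ)
    (F : (V1 → ℤ × ℤ) → ℝ≥0∞) : ℝ≥0∞ :=
  ∑' h : V1 → ℤ, ∑' h' : V2 → ℤ, ENNReal.ofReal (wX w s1 t1 η1 α1 h) *
    ENNReal.ofReal (wX w s2 t2 η2 α2 h') * F fun v => (h v, h' (ι v))

lemma AF_one (η1 : E1 → ℤ) (α1 : V1 → ℤ → ℝ) (η2 : E2 → ℤ) (α2 : V2 → ℤ → ℝ) :
    AF w s1 t1 s2 t2 ι η1 α1 η2 α2 (fun _ => 1) = ZX w s1 t1 η1 α1 * ZX w s2 t2 η2 α2 := by
  unfold AF ZX
  rw [← ENNReal.tsum_mul_right]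
  refine tsum_congr fun h => ?_
  rw [← ENNReal.tsum_mul_left]
  simp only [mul_one]

/-- **the swap of two copies on different graphs** -/
theorem swap2 (G : Geo s1 t1 s2 t2 ι ιE Eg VW VP) (hDg : D ⊆ Eg)
    (hD : ∀ e ∈ D, s1 e ∈ VW ∧ t1 e ∈ VW) (ha : ∀ n, 0 ≤ a n) {η : E1 → ℤ} {α : V1 → ℤ → ℝ}
    (hαn : ∀ v n, 0 ≤ α v n) (hη : ∀ e, e ∉ D → η e = 0) (hα : ∀ v, v ∉ VW → α v = a)
    {η2 : E2 → ℤ} {α2 : V2 → ℤ → ℝ} (H : Dat2 ι ιE D VW a η α η2 α2) {M : Finset V1}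
    {Λ : V1 → Finset V1} (hΛ : ∀ z ∈ M, ∀ e, s1 e ∈ Λ z ∨ t1 e ∈ Λ z → e ∈ Eg \ D)
    (hM : ∀ om : Finset E1, (∃ u ∈ VW, ∃ v ∈ VP, Conn s1 t1 om u v) →
      ∃ z ∈ M, ∃ z', z' ∉ Λ z ∧ Conn s1 t1 om z z') :
    (ZX W.w s1 t1 η α * ZX W.w s2 t2 0 (fun _ => a) ≤
      ZX W.w s1 t1 0 (fun _ => a) * ZX W.w s2 t2 η2 α2 +
        ∑ z ∈ M, AF W.w s1 t1 s2 t2 ι η α 0 (fun _ => a) (W.arF s1 t1 (Λ z) z)) ∧
    (ZX W.w s1 t1 0 (fun _ => a) * ZX W.w s2 t2 η2 α2 ≤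
      ZX W.w s1 t1 η α * ZX W.w s2 t2 0 (fun _ => a) +
        ∑ z ∈ M, AF W.w s1 t1 s2 t2 ι 0 (fun _ => a) η2 α2 (W.arF s1 t1 (Λ z) z)) := by
  set σ := sg W s1 t1 (Eg \ D) VW a ha with hσ
  set rA : (V1 → ℤ) → (V2 → ℤ) → ℝ := fun h h' => bdW W.w s1 t1 s2 t2 ι ιE Eg a h h' *
    daW W.w s1 t1 D VW a η α h fun v => h' (ι v) with hrA
  set rB : (V1 → ℤ) → (V2 → ℤ) → ℝ := fun h h' => bdW W.w s1 t1 s2 t2 ι ιE Eg a h h' *
    daW W.w s1 t1 D VW a η α (fun v => h' (ι v)) h with hrB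
  have hfl : ∀ e x y, 0 < σ.fl e x y := fun e x y => W.fl_pos _ _ _ _ _ e x y
  have hsw : σ.sw = Prod.swap := rfl
  have cA : ∀ (h : V1 → ℤ) (h' : V2 → ℤ), ENNReal.ofReal (σ.tot fun v => (h v, h' (ι v))) *
      ENNReal.ofReal (rA h h') = ENNReal.ofReal (wX W.w s1 t1 η α h) *
        ENNReal.ofReal (wX W.w s2 t2 0 (fun _ => a) h') := by
    intro h h'
    rw [← ENNReal.ofReal_mul (σ.tot_nonneg _), ← ENNReal.ofReal_mul (wX_nonneg W.w_pos hαn h)]
    congr 1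
    have h1 := tw2_A (w := W.w) (a := a) G hDg hη hα h h'
    unfold tw2 com at h1
    rw [h1, hσ, tot_sg]
  have cB : ∀ (h : V1 → ℤ) (h' : V2 → ℤ), ENNReal.ofReal (σ.tot fun v => (h v, h' (ι v))) *
      ENNReal.ofReal (rB h h') = ENNReal.ofReal (wX W.w s1 t1 0 (fun _ => a) h) *
        ENNReal.ofReal (wX W.w s2 t2 η2 α2 h') := by
    intro h h'
    rw [← ENNReal.ofReal_mul (σ.tot_nonneg _),
      ← ENNReal.ofReal_mul (wX_nonneg W.w_pos (fun _ n => ha n) h)]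
    congr 1
    have h1 := tw2_B (w := W.w) G hDg H h h'
    unfold tw2 com at h1
    rw [h1, hσ, tot_sg]
  have iA : ∀ F, I0 σ (fun x => GS G.inj rA x * F x) =
      AF W.w s1 t1 s2 t2 ι η α 0 (fun _ => a) F := by
    intro F
    rw [I0_GS]
    unfold AF
    simp only [cA]
  have iB : ∀ F, I0 σ (fun x => GS G.inj rB x * F x) =
      AF W.w s1 t1 s2 t2 ι 0 (fun _ => a) η2 α2 F := by
    intro F
    rw [I0_GS]
    unfold AF
    simp only [cB]
  have iA1 : I0 σ (GS G.inj rA) = ZX W.w s1 t1 η α * ZX W.w s2 t2 0 (fun _ => a) := by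
    have h1 := iA fun _ => 1
    rw [AF_one] at h1
    simpa only [mul_one] using h1
  have iB1 : I0 σ (GS G.inj rB) = ZX W.w s1 t1 0 (fun _ => a) * ZX W.w s2 t2 η2 α2 := by
    have h1 := iB fun _ => 1
    rw [AF_one] at h1
    simpa only [mul_one] using h1
  have hflip : ∀ A : Finset V1, VW ⊆ A → Disjoint A VP → ∀ x,
      GS G.inj rB (σ.flip A x) = GS G.inj rA x := fun A h1 h2 x =>
    GS_flip σ hsw G hD η α h1 h2 x
  have hM' : ∀ om : Finset E1, (∃ u ∈ VW, ∃ v ∈ VP, Conn σ.s σ.t om u v) →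
      ∃ z ∈ M, Out σ (Λ z) z om := hM
  have k1 := H764.swap_le σ hflip hfl hM'
  have k2 := H764.swap_ge σ hflip hfl hM'
  have hArm : ∀ z ∈ M, ∀ x, Arm1 σ (Λ z) z x = W.arF s1 t1 (Λ z) z x := fun z hz x =>
    W.arm_eq s1 t1 _ _ (hΛ z hz) z x
  rw [iA1, iB1] at k1 k2
  constructor
  · refine k1.trans (le_of_eq ?_)
    congr 1
    refine Finset.sum_congr rfl fun z hz => ?_
    rw [← iA]
    congr 1
    funext x
    rw [hArm z hz]
  · refine k2.trans (le_of_eq ?_)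
    congr 1
    refine Finset.sum_congr rfl fun z hz => ?_
    rw [← iB]
    congr 1
    funext x
    rw [hArm z hz]

end two

end Vale.Agent.P159.H280.Hs
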