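import Vale.Agent.P159.H280.Hs9
import Vale.Agent.P159.H817.St16

/-!
P159, (H6) / SW2 (helper280), part 10: **the field `tor` of helper817's `ChI` and `RealI`**.

* `core_box` : the cores of a configuration which vanishes off a box lie in the box;
* `tor_KK` : (H6) for the class `KK` from the prices of its elements on both tori = `ChI.tor`;
* `tor_real` : (H6) for one decoration, real base = `RealI.tor`.
-/

set_option linter.unusedSectionVars false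
set_option linter.unusedDecidableInType false

namespace Vale.Agent.P159.H280.Hs

open scoped ENNReal
open Finset
open Vale.Agent.P159.H764 (ArmLe)
open Vale.Agent.P159.H474.Cb (Z0 pt LN Vol GE KL KL_pos)
open Vale.Agent.P159.TM.Spec (V)
open Vale.Agent.P159.H817 (sz eb eF EG EZ prj sz_prj sz_step cu cfg bD dec gr GB Far Dec SuppD)
open Vale.Agent.P159.TM.SpecC (Tor wT)
open Vale.Agent.P159.H612 (om0)
open Vale.Agent.P159.TM

noncomputable section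

section core

variable {K : ℕ} [NeZero K]

/-- the curl of an edge field which vanishes off a box -/
lemma cu_far {β : V K × Bool → ℝ} {L : ℕ} (h0 : ∀ e : V K × Bool, L < sz e.1 → β e = 0) {x : V K}
    (hx : L + 1 < sz x) : cu β x = 0 := by
  have h1 := sz_step x false
  have h2 := sz_step x true
  have e1 : (eb false : V K) = H817.e1 := rfl
  have e2 : (eb true : V K) = H817.e2 := rfl
  rw [e1] at h1
  rw [e2] at h2
  unfold H817.cu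
  rw [h0 (x, false) (by show L < sz x; omega), h0 (x + H817.e1, true) (by
    show L < sz (x + H817.e1); omega), h0 (x + H817.e2, false) (by
    show L < sz (x + H817.e2); omega), h0 (x, true) (by show L < sz x; omega)]
  ring

lemma cu_core (F0 F1 : ℤ → ℤ → ℝ) {p q : V K} (g : V K → ℝ) (h : p ≠ q) :
    cu (cfg F0 F1 p q g) p = 1 ∧ cu (cfg F0 F1 p q g) q = -1 := by
  have key : ∀ x, cu (cfg F0 F1 p q g) x = (if x = p then 1 else 0) - if x = q then 1 else 0 := by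
    intro x
    have e : cfg F0 F1 p q g = fun e => (bD p q e + (gr (dec F0 p) e + gr (dec F1 q) e)) +
        gr g e := rfl
    rw [e, H817.cu_add, H817.cu_add (bD p q), H817.cu_add (gr (dec F0 p)), H817.cu_gr,
      H817.cu_gr, H817.cu_gr, H817.cu_bD]
    ring
  refine ⟨?_, ?_⟩
  · rw [key, if_pos rfl, if_neg h]
    ring
  · rw [key, if_pos rfl, if_neg h.symm]
    ring

/-- the cores of a configuration which vanishes off a box -/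
lemma core_box {F0 F1 : ℤ → ℤ → ℝ} {p q : V K} {g : V K → ℝ} {L : ℕ} (h : p ≠ q)
    (h0 : ∀ e : V K × Bool, L < sz e.1 → cfg F0 F1 p q g e = 0) :
    sz p ≤ L + 1 ∧ sz q ≤ L + 1 := by
  obtain ⟨h1, h2⟩ := cu_core F0 F1 g h
  refine ⟨?_, ?_⟩
  · by_contra hc
    rw [cu_far h0 (by omega)] at h1
    norm_num at h1
  · by_contra hc
    rw [cu_far h0 (by omega)] at h2
    norm_num at h2

lemma far_ne {r : ℕ} (hr : 1 ≤ r) {p q : V K} (h : Far r p q) : p ≠ q := by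
  rintro rfl
  have h1 := h.1
  rw [sub_self] at h1
  have h2 : sz (0 : V K) = 0 := by
    unfold sz
    simp
  omega

end core

section two

variable {N M : ℕ} [NeZero N] [NeZero M]

/-- the extension vanishes off the box -/
lemma ext_zero {β : V N × Bool → ℝ} {L : ℕ} (h0 : ∀ e : V N × Bool, L < sz e.1 → β e = 0)
    {e : V (M * N) × Bool} (he : L < sz e.1) : H817.ext M β e = 0 := by
  unfold H817.ext
  have hN := NeZero.pos N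
  split_ifs with h
  · exact h0 _ (by
      show L < sz (prj M e.1)
      rw [sz_prj (by omega)]
      exact he)
  · rfl

/-- the error of (H6) -/
def eH (N A ξ κ : ℕ) (c C pr ω : ℝ) : ℝ :=
  9 * KL A c C * (N / ξ) * Real.exp (-(c * κ / (4 * ξ))) * Real.exp pr + 8 * ω ^ 2

/-- the geometric inputs of (H6), both tori -/
structure H6G (N M m n1 n2 ξ A K κ l : ℕ) (c : ℝ) : Prop where
  e1 : N = (m + 1) * (n1 + 2)
  e2 : M * N = (m + 1) * (n2 + 2)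
  h8 : 8 ∣ N
  hmN : 8 * (m + 1) ≤ N
  g1 : H474.Cb.Geo m n1 ξ A K κ l c
  g2 : H474.Cb.Geo m n2 ξ A K κ l c

/-- **(H6) for the class `KK`** : the field `tor` of `ChI` -/
theorem tor_KK {b : ℝ} (hb : 0 < b) {ξ A K κ l m n1 n2 : ℕ} [NeZero ((m + 1) * 2)]
    [NeZero ((m + 1) * (n1 + 2))] [NeZero ((m + 1) * (n2 + 2))] {L₀ c C : ℝ} (hL₀ : 0 ≤ L₀)
    (hc : 0 < c) (hC : 0 < C) (G : H6G N M m n1 n2 ξ A K κ l c) (hK : 4 ≤ K)
    (H1 : LN m n1 b hb ξ A L₀ c C) (H2 : LN m n2 b hb ξ A L₀ c C) {ω : ℝ}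
    (hω1 : om0 N b ((1 / (ξ : ℝ) ^ 2) • (1 : Matrix (Tor N) (Tor N) ℝ)) ≤ ω)
    (hω2 : om0 (M * N) b ((1 / (ξ : ℝ) ^ 2) • (1 : Matrix (Tor (M * N)) (Tor (M * N)) ℝ)) ≤ ω)
    (hω : ω ≤ 1 / 4) {l' r' : ℕ} {Λ pr : ℝ} {D0 D1 : Dec} (hr' : 1 ≤ r')
    (p0 : ∀ g : V N → ℝ, GB (Λ / l') g → PRS m n1 κ b (1 / (ξ : ℝ) ^ 2) ∅ (gr g) pr)
    (p1 : ∀ F0 ∈ D0, ∀ F1 ∈ D1, ∀ (p q : V N) (g : V N → ℝ), Far r' p q → GB (Λ / l') g →
      PRS m n1 κ b (1 / (ξ : ℝ) ^ 2) {p, q} (cfg F0 F1 p q g) pr)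
    (q0 : ∀ g : V (M * N) → ℝ, GB (Λ / l') g → PRS m n2 κ b (1 / (ξ : ℝ) ^ 2) ∅ (gr g) pr)
    (q1 : ∀ F0 ∈ D0, ∀ F1 ∈ D1, ∀ (p q : V (M * N)) (g : V (M * N) → ℝ), Far r' p q →
      GB (Λ / l') g → PRS m n2 κ b (1 / (ξ : ℝ) ^ 2) {p, q} (cfg F0 F1 p q g) pr)
    (hε : 9 * KL A c C * (N / ξ) * Real.exp (-(c * κ / (4 * ξ))) * Real.exp pr ≤ 1)
    (β : V N × Bool → ℝ) (hβ : H817.KK l' r' Λ D0 D1 β) (hβ0 : ∀ e, N < 7 * sz e.1 → β e = 0)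
    (hβ' : H817.KK l' r' Λ D0 D1 (H817.ext M β)) :
    |EZ (M * N) b (1 / (ξ : ℝ) ^ 2) (H817.ext M β) - EZ N b (1 / (ξ : ℝ) ^ 2) β| ≤
      eH N A ξ κ c C pr ω := by
  have hmN := G.hmN
  have hκ := G.g1.hκ
  have hAξ := G.g1.hAξ
  have hA := G.g1.hA
  have hKκ := G.g1.hK
  have hκm : 2 * κ < m + 1 := by nlinarith [Nat.zero_le (K * (2 * κ))]
  have b0 : ∀ e : V N × Bool, N / 7 < sz e.1 → β e = 0 := fun e he => hβ0 e (by omega)
  have c0 : ∀ e : V (M * N) × Bool, N / 7 < sz e.1 → H817.ext M β e = 0 :=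
    fun e he => ext_zero b0 he
  -- the price of `β` with its cores
  obtain ⟨Pc1, a1, a2, a3⟩ : ∃ Pc : Finset (V N), Pc.card ≤ 2 ∧
      (∀ p ∈ Pc, sz p ≤ N / 7 + 1) ∧ PRS m n1 κ b (1 / (ξ : ℝ) ^ 2) Pc β pr := by
    rcases hβ with ⟨g, hg, rfl⟩ | ⟨F0, h0, F1, h1, p, q, g, hf, hg, rfl⟩
    · exact ⟨∅, by simp, by simp, p0 g hg⟩
    · obtain ⟨s1, s2⟩ := core_box (far_ne hr' hf) b0
      refine ⟨{p, q}, Finset.card_le_two, ?_, p1 F0 h0 F1 h1 p q g hf hg⟩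
      intro z hz
      rcases Finset.mem_insert.1 hz with rfl | hz
      · exact s1
      · rw [Finset.mem_singleton.1 hz]
        exact s2
  obtain ⟨Pc2, d1, d2, d3⟩ : ∃ Pc : Finset (V (M * N)), Pc.card ≤ 2 ∧
      (∀ p ∈ Pc, sz p ≤ N / 7 + 1) ∧
      PRS m n2 κ b (1 / (ξ : ℝ) ^ 2) Pc (H817.ext M β) pr := by
    rcases hβ' with ⟨g, hg, hE⟩ | ⟨F0, h0, F1, h1, p, q, g, hf, hg, hE⟩
    · rw [hE]
      exact ⟨∅, by simp, by simp, q0 g hg⟩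
    · rw [hE] at c0 ⊢
      obtain ⟨s1, s2⟩ := core_box (far_ne hr' hf) c0
      refine ⟨{p, q}, Finset.card_le_two, ?_, q1 F0 h0 F1 h1 p q g hf hg⟩
      intro z hz
      rcases Finset.mem_insert.1 hz with rfl | hz
      · exact s1
      · rw [Finset.mem_singleton.1 hz]
        exact s2
  exact h6_num (L := N / 7 + 1) hb G.e1 G.e2 G.h8 hmN hL₀ hc hC H1 H2 G.g1 G.g2 hω1 hω2 hω
    (by omega) a2 d2 (by omega) hβ.eg (fun e he => b0 e (by omega)) a3 d3 hε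

/-- **(H6) for a decoration at a real base** -/
theorem tor_real {b : ℝ} (hb : 0 < b) {ξ A K κ l m n1 n2 : ℕ} [NeZero ((m + 1) * 2)]
    [NeZero ((m + 1) * (n1 + 2))] [NeZero ((m + 1) * (n2 + 2))] {L₀ c C : ℝ} (hL₀ : 0 ≤ L₀)
    (hc : 0 < c) (hC : 0 < C) (G : H6G N M m n1 n2 ξ A K κ l c)
    (H1 : LN m n1 b hb ξ A L₀ c C) (H2 : LN m n2 b hb ξ A L₀ c C) {ω : ℝ}
    (hω1 : om0 N b ((1 / (ξ : ℝ) ^ 2) • (1 : Matrix (Tor N) (Tor N) ℝ)) ≤ ω)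
    (hω2 : om0 (M * N) b ((1 / (ξ : ℝ) ^ 2) • (1 : Matrix (Tor (M * N)) (Tor (M * N)) ℝ)) ≤ ω)
    (hω : ω ≤ 1 / 4) {l' : ℕ} {F : ℤ → ℤ → ℝ} (hF : SuppD l' F) (hlN : 8 * l' + 64 ≤ N)
    {Pc1 : Finset (V N)} {Pc2 : Finset (V (M * N))} (hP1 : ∀ p ∈ Pc1, sz p ≤ l')
    (hP2 : ∀ p ∈ Pc2, sz p ≤ l') (hcard : Pc1.card + Pc2.card ≤ K) {pr : ℝ}
    (p0 : PRS m n1 κ b (1 / (ξ : ℝ) ^ 2) Pc1 (gr (dec F (0 : V N))) pr)
    (q0 : PRS m n2 κ b (1 / (ξ : ℝ) ^ 2) Pc2 (gr (dec F (0 : V (M * N)))) pr)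
    (hε : 9 * KL A c C * (N / ξ) * Real.exp (-(c * κ / (4 * ξ))) * Real.exp pr ≤ 1) :
    |EZ (M * N) b (1 / (ξ : ℝ) ^ 2) (gr (dec F 0)) - EZ N b (1 / (ξ : ℝ) ^ 2) (gr (dec F 0))| ≤
      eH N A ξ κ c C pr ω := by
  have hx := H817.ext_dec (M := M) hF hlN
  rw [← hx] at q0 ⊢
  refine h6_num (L := l' + 1) hb G.e1 G.e2 G.h8 G.hmN hL₀ hc hC H1 H2 G.g1 G.g2 hω1 hω2 hω
    (by omega) (fun p hp => (hP1 p hp).trans (Nat.le_succ _))
    (fun p hp => (hP2 p hp).trans (Nat.le_succ _)) hcard (EG.gr _) ?_ p0 q0 hε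
  rintro ⟨x, o⟩ he
  exact H817.gr_dec_zero hF o (by rw [sub_zero]; exact he)

/-- `tor_real` on a torus which is only propositionally `M N` (`N' = sd i (2^(k+1))`) -/
theorem tor_real' {N' : ℕ} [NeZero N'] (hN' : N' = M * N) {b : ℝ} (hb : 0 < b)
    {ξ A K κ l m n1 n2 : ℕ} [NeZero ((m + 1) * 2)]
    [NeZero ((m + 1) * (n1 + 2))] [NeZero ((m + 1) * (n2 + 2))] {L₀ c C : ℝ} (hL₀ : 0 ≤ L₀)
    (hc : 0 < c) (hC : 0 < C) (G : H6G N M m n1 n2 ξ A K κ l c)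
    (H1 : LN m n1 b hb ξ A L₀ c C) (H2 : LN m n2 b hb ξ A L₀ c C) {ω : ℝ}
    (hω1 : om0 N b ((1 / (ξ : ℝ) ^ 2) • (1 : Matrix (Tor N) (Tor N) ℝ)) ≤ ω)
    (hω2 : om0 N' b ((1 / (ξ : ℝ) ^ 2) • (1 : Matrix (Tor N') (Tor N') ℝ)) ≤ ω)
    (hω : ω ≤ 1 / 4) {l' : ℕ} {F : ℤ → ℤ → ℝ} (hF : SuppD l' F) (hlN : 8 * l' + 64 ≤ N)
    {Pc1 : Finset (V N)} {Pc2 : Finset (V N')} (hP1 : ∀ p ∈ Pc1, sz p ≤ l')
    (hP2 : ∀ p ∈ Pc2, sz p ≤ l') (hcard : Pc1.card + Pc2.card ≤ K) {pr : ℝ}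
    (p0 : PRS m n1 κ b (1 / (ξ : ℝ) ^ 2) Pc1 (gr (dec F (0 : V N))) pr)
    (q0 : PRS m n2 κ b (1 / (ξ : ℝ) ^ 2) Pc2 (gr (dec F (0 : V N'))) pr)
    (hε : 9 * KL A c C * (N / ξ) * Real.exp (-(c * κ / (4 * ξ))) * Real.exp pr ≤ 1) :
    |EZ N' b (1 / (ξ : ℝ) ^ 2) (gr (dec F 0)) - EZ N b (1 / (ξ : ℝ) ^ 2) (gr (dec F 0))| ≤
      eH N A ξ κ c C pr ω := by
  subst hN'
  exact tor_real hb hL₀ hc hC G H1 H2 hω1 hω2 hω hF hlN hP1 hP2 hcard p0 q0 hε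

/-- the error of (H6) is at most the error of the locality -/
lemma eH_le {N A ξ κ : ℕ} {c C pr ω : ℝ} (hC : 0 < C) (hξ : 0 < ξ) (hN : 9 * ξ ≤ N) :
    eH N A ξ κ c C pr ω ≤
      KL A c C * (N / ξ) ^ 2 * Real.exp (-(c * κ / (4 * ξ))) * Real.exp pr + 8 * ω ^ 2 := by
  have hξr : (0 : ℝ) < ξ := by exact_mod_cast hξ
  have h9 : (9 : ℝ) ≤ N / ξ := by
    rw [le_div_iff₀ hξr]
    exact_mod_cast hN
  have hK0 := KL_pos A (c := c) hC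
  unfold eH
  have h1 : 9 * KL A c C * (N / ξ) * Real.exp (-(c * κ / (4 * ξ))) * Real.exp pr =
      KL A c C * (9 * (N / ξ)) * Real.exp (-(c * κ / (4 * ξ))) * Real.exp pr := by ring
  rw [h1]
  refine add_le_add (mul_le_mul_of_nonneg_right (mul_le_mul_of_nonneg_right
    (mul_le_mul_of_nonneg_left ?_ hK0.le) (Real.exp_pos _).le) (Real.exp_pos _).le) le_rfl
  nlinarith

end two

end

end Vale.Agent.P159.H280.Hs
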