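import Vale.Agent.P159.H280.Hs10
import Vale.Agent.P159.H612.LocK5
import Vale.Agent.P159.H817.Id8

/-!
P159, (H6) / SW2 (helper280), part 11: **the field `tor` from helper612's `LocI` on the two tori**,
no other input; `chI_K` : helper817's `ChI` from `LocI` on the two tori.
-/

set_option linter.unusedSectionVars false
set_option linter.unusedDecidableInType false

namespace Vale.Agent.P159.H280.Hs

open Finset
open Vale.Agent.P159.H474.Cb (LN KL KL_pos)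
open Vale.Agent.P159.TM.Spec (V)
open Vale.Agent.P159.H817 (sz EZ dec gr GB Dec SuppD CG CG_pos SysI HasId ChI rh Pt kap0 rfl2)
open Vale.Agent.P159.TM.SpecC (Tor wT)
open Vale.Agent.P159.H612 (om0)
open Vale.Agent.P159.H612.LocK (LocI epsL sysI_K)
open Vale.Agent.P159.TM.H764 (EE)
open Vale.Agent.P159.H37 (Rs)
open Vale.Agent.P159.H963 (Pin nwt)

noncomputable section

section

variable {N M : ℕ} [NeZero N] [NeZero M] {b : ℝ} {hb : 0 < b} {ξ A κ l r l0 mb n1 n2 : ℕ}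
  [NeZero ((mb + 1) * 2)] [NeZero ((mb + 1) * (n1 + 2))] [NeZero ((mb + 1) * (n2 + 2))]
  {L₀ c C Λ pr ω : ℝ} {D0 D1 : Dec}

/-- the slope number is nonnegative -/
lemma LocI.L0 (I : LocI N mb n1 b hb ξ A κ l r l0 L₀ c C Λ pr ω D0 D1) : 0 ≤ L₀ := by
  have hξ : 0 < ξ := by
    have := I.geo.hA
    have := I.geo.hAξ
    omega
  have hξr : (0 : ℝ) < ξ := by exact_mod_cast hξ
  have hCG := CG_pos
  have h1 := I.hS
  have h2 := I.hΛ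
  have h3 : 0 ≤ 1 / (N : ℝ) + 4 * CG / (1 + ((l / 100 : ℕ) : ℝ)) + Λ / l := by positivity
  by_contra hc
  push Not at hc
  have := div_neg_of_neg_of_pos hc hξr
  linarith

/-- the geometric inputs of (H6) from helper612's structures on the two tori -/
lemma H6G.of_LocI (I1 : LocI N mb n1 b hb ξ A κ l r l0 L₀ c C Λ pr ω D0 D1)
    (I2 : LocI (M * N) mb n2 b hb ξ A κ l r l0 L₀ c C Λ pr ω D0 D1) (h8 : 8 ∣ N)
    (hlr : 256 * l ≤ r) (hrN : 64 * r ≤ N) :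
    H6G N M mb n1 n2 ξ A 8 κ (4 * (l / 100)) c := by
  refine ⟨I1.hN.symm, I2.hN.symm, h8, ?_, I1.geo, I2.geo⟩
  have h1 := I1.geo.hl
  omega

/-- the numbers: the error of (H6) against the error of the locality -/
lemma epsL_num (I : LocI N mb n1 b hb ξ A κ l r l0 L₀ c C Λ pr ω D0 D1) (hlr : 256 * l ≤ r)
    (hrN : 64 * r ≤ N) (hpr : 0 ≤ pr) :
    9 * KL A c C * (N / ξ) * Real.exp (-(c * κ / (4 * ξ))) * Real.exp pr ≤ 1 ∧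
      eH N A ξ κ c C pr ω ≤ epsL N ξ A κ c C pr ω := by
  have hA := I.geo.hA
  have hAξ := I.geo.hAξ
  have hκ := I.geo.hκ
  have hK := I.geo.hK
  have hl := I.geo.hl
  have hξ : 0 < ξ := by omega
  have hξr : (0 : ℝ) < ξ := by exact_mod_cast hξ
  have h9 : (9 : ℝ) ≤ N / ξ := by
    rw [le_div_iff₀ hξr]
    exact_mod_cast (show 9 * ξ ≤ N by omega)
  have hK0 := KL_pos A (c := c) I.hC
  have e1 : Real.exp pr ≤ Real.exp (2 * (pr + 1)) := Real.exp_le_exp.2 (by linarith)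
  have h1 : 9 * KL A c C * (N / ξ) * Real.exp (-(c * κ / (4 * ξ))) * Real.exp pr ≤
      KL A c C * (N / ξ) ^ 2 * Real.exp (-(c * κ / (4 * ξ))) * Real.exp (2 * (pr + 1)) := by
    have e2 : 9 * KL A c C * (N / ξ) * Real.exp (-(c * κ / (4 * ξ))) * Real.exp pr =
        KL A c C * (9 * (N / ξ)) * Real.exp (-(c * κ / (4 * ξ))) * Real.exp pr := by ring
    rw [e2]
    refine mul_le_mul (mul_le_mul_of_nonneg_right (mul_le_mul_of_nonneg_left ?_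
      hK0.le) (Real.exp_pos _).le) e1 (Real.exp_pos _).le (by positivity)
    nlinarith
  have h2 := I.hη
  refine ⟨by linarith, ?_⟩
  unfold eH epsL
  have h3 : 0 ≤ KL A c C * ((N : ℝ) / ξ) ^ 2 * Real.exp (-(c * κ / (4 * ξ))) *
      Real.exp (2 * (pr + 1)) := by positivity
  linarith

/-- **the field `tor` of `ChI`** from `LocI` on the two tori -/
theorem tor_LocI (I1 : LocI N mb n1 b hb ξ A κ l r l0 L₀ c C Λ pr ω D0 D1)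
    (I2 : LocI (M * N) mb n2 b hb ξ A κ l r l0 L₀ c C Λ pr ω D0 D1) (h8 : 8 ∣ N)
    (hlr : 256 * l ≤ r) (hrN : 64 * r ≤ N) (hpr : 0 ≤ pr) (β : V N × Bool → ℝ)
    (hβ : H817.KK l r Λ D0 D1 β) (hβ0 : ∀ e, N < 7 * sz e.1 → β e = 0)
    (hβ' : H817.KK l r Λ D0 D1 (H817.ext M β)) :
    |EZ (M * N) b (1 / (ξ : ℝ) ^ 2) (H817.ext M β) - EZ N b (1 / (ξ : ℝ) ^ 2) β| ≤
      epsL N ξ A κ c C pr ω := by
  obtain ⟨h1, h2⟩ := epsL_num I1 hlr hrN hpr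
  have hl0 := I1.hl0
  exact (tor_KK hb (LocI.L0 I1) I1.hc I1.hC (H6G.of_LocI I1 I2 h8 hlr hrN) (by norm_num)
    I1.ln I2.ln I1.hω I2.hω I1.hω4 (by omega) I1.pr0 I1.pr1 I2.pr0 I2.pr1 h1 β hβ hβ0 hβ').trans h2

/-- **the field `tor` of `RealI`** from `LocI` on the two tori and the price of the decoration -/
theorem tor_real_LocI {N' : ℕ} [NeZero N'] (hN' : N' = M * N)
    (I1 : LocI N mb n1 b hb ξ A κ l r l0 L₀ c C Λ pr ω D0 D1)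
    (I2 : LocI N' mb n2 b hb ξ A κ l r l0 L₀ c C Λ pr ω D0 D1) (h8 : 8 ∣ N)
    (hlr : 256 * l ≤ r) (hrN : 64 * r ≤ N) (hpr : 0 ≤ pr) {F : ℤ → ℤ → ℝ} (hF : SuppD l0 F)
    {Pc1 : Finset (V N)} {Pc2 : Finset (V N')} (hP1 : ∀ p ∈ Pc1, sz p ≤ l0)
    (hP2 : ∀ p ∈ Pc2, sz p ≤ l0) (hcard : Pc1.card + Pc2.card ≤ 8)
    (p0 : PRS mb n1 κ b (1 / (ξ : ℝ) ^ 2) Pc1 (gr (dec F (0 : V N))) pr)
    (q0 : PRS mb n2 κ b (1 / (ξ : ℝ) ^ 2) Pc2 (gr (dec F (0 : V N'))) pr) :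
    |EZ N' b (1 / (ξ : ℝ) ^ 2) (gr (dec F 0)) - EZ N b (1 / (ξ : ℝ) ^ 2) (gr (dec F 0))| ≤
      epsL N ξ A κ c C pr ω := by
  subst hN'
  obtain ⟨h1, h2⟩ := epsL_num I1 hlr hrN hpr
  have hl0 := I1.hl0
  exact (tor_real hb (LocI.L0 I1) I1.hc I1.hC (H6G.of_LocI I1 I2 h8 hlr hrN) I1.ln I2.ln I1.hω
    I2.hω I1.hω4 hF (by omega) hP1 hP2 hcard p0 q0 h1).trans h2

/-- **`ChI` at the scale `2 ^ k`** from `LocI` on the tori `N` and `N' = 2 N` -/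
theorem chI_K {N' k n : ℕ} [NeZero N'] (hN' : N' = 2 * N)
    (I1 : LocI N mb n1 b hb ξ A κ l (2 ^ k) l0 L₀ c C Λ pr ω D0 D1)
    (I2 : LocI N' mb n2 b hb ξ A κ l (2 ^ k) l0 L₀ c C Λ pr ω D0 D1) (h8 : 8 ∣ N) (hpr : 0 ≤ pr)
    {a η ε₂ ε₃ εR L : ℝ} {b0 : ℤ → ℤ → Bool → ℝ} (ha : 0 < a) (hη : 0 ≤ η)
    (hlr : 4096 * l ≤ 2 ^ k) (hrN : 64 * 2 ^ k ≤ N) (hn : 1 ≤ n) (hnl : n + 3 ≤ l)
    (hn8 : 8 * n + 64 ≤ N)
    (neg01 : ∀ F ∈ D0, (fun i j => -F i j) ∈ D1) (neg10 : ∀ F ∈ D1, (fun i j => -F i j) ∈ D0)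
    (rfl1 : ∀ F ∈ D1, (fun i j => -rfl2 F i j) ∈ D1)
    (hP : ∀ k : V N, k ≠ 0 → |Pin N b (1 / (ξ : ℝ) ^ 2) k - a * EE k| ≤
      η * EE k * (1 + EE k / (1 / (ξ : ℝ) ^ 2)))
    (hP' : ∀ k : V N', k ≠ 0 → |Pin N' b (1 / (ξ : ℝ) ^ 2) k - a * EE k| ≤
      η * EE k * (1 + EE k / (1 / (ξ : ℝ) ^ 2)))
    (hR : ∀ F (w : V N), GB (Λ / l) F → (∀ x, 4 * l ≤ sz (x - w) → F x = 0) →
      Rs (nwt N b (1 / (ξ : ℝ) ^ 2) 0) (Pt (1 / (ξ : ℝ) ^ 2) F) ≤ εR)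
    (hR' : ∀ F (w : V N'), GB (Λ / l) F → (∀ x, 4 * l ≤ sz (x - w) → F x = 0) →
      Rs (nwt N' b (1 / (ξ : ℝ) ^ 2) 0) (Pt (1 / (ξ : ℝ) ^ 2) F) ≤ εR)
    (hεR : 0 ≤ εR) (hε : 3528 * kap0 a (1 / (ξ : ℝ) ^ 2) η n * Λ ^ 2 + εR ≤ ε₂)
    (hε₃ : epsL N ξ A κ c C pr ω ≤ ε₃) (hε₃' : epsL N' ξ A κ c C pr ω ≤ ε₃)
    (hId : HasId N b0 l (2 ^ k) L) (hId' : HasId N' b0 l (2 ^ k) L) :
    ChI b (1 / (ξ : ℝ) ^ 2) a n l Λ ε₂ ε₃ L D0 D1 b0 N N' k := by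
  have hl0 := I1.hl0
  refine ⟨hN', sysI_K I1 ha hη (by omega) (by omega) hrN hn hnl neg01 neg10 rfl1 hP hR hεR hε hε₃,
    sysI_K I2 ha hη (by omega) (by omega) (by omega) hn hnl neg01 neg10 rfl1 hP' hR' hεR hε hε₃',
    hId, hId', ?_, hn8, hlr⟩
  subst hN'
  intro β k1 k2 k3
  exact (tor_LocI I1 I2 h8 (by omega) hrN hpr β k1 k2 k3).trans hε₃

end

end

end Vale.Agent.P159.H280.Hs
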