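import Vale.Agent.P159.H280.Hs1
import Vale.Agent.P159.H770.DisT
import Vale.Agent.P159.H817.St8

/-!
P159, (H6) / SW2 (helper280), part 2: the tori `N` and `M N`, common box `2 (|x| + 1) < N`, data in
`4 |x| <= N` (edges) and `4 |x| <= N + 4` (sites), separating ring `|x| = R`, balls of radius `ρ`.
-/

set_option linter.unusedSectionVars false
set_option linter.unusedDecidableInType false

namespace Vale.Agent.P159.H280.Hs

open scoped ENNReal
open Finset Vale.Agent.P159.TM.H60 Vale.Agent.P159.TM.H576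
open Vale.Agent.P159.TM.Spec (V)
open Vale.Agent.P159.H817 (sz eb prj sz_step sz_add_le sz_neg prj_add prj_eb vma_add prj_inj
  vma_pr1 sz_prj)
open Vale.Agent.P159.H353 (wI)
open Vale.Agent.P159.H37 (ZM qf re)
open Vale.Agent.P159.H770 (eS eT wTD)

noncomputable section

variable {N M : ℕ} [NeZero N] [NeZero M]

lemma eT_eq (e : V N × Bool) : eT N e = e.1 + eb e.2 := by
  obtain ⟨x, b⟩ := e
  cases b <;> rfl

/-! ### the embedding of the box -/

/-- the embedding of the torus `N` into the torus `M N` -/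
def io (N M : ℕ) [NeZero N] [NeZero M] (v : V N) : V (M * N) :=
  ((v.1.valMinAbs : ZMod (M * N)), (v.2.valMinAbs : ZMod (M * N)))

/-- on edges -/
def ioE (N M : ℕ) [NeZero N] [NeZero M] (e : V N × Bool) : V (M * N) × Bool := (io N M e.1, e.2)

lemma vma_io (a : ZMod N) : ((a.valMinAbs : ℤ) : ZMod (M * N)).valMinAbs = a.valMinAbs := by
  refine (ZMod.valMinAbs_spec _ _).2 ⟨rfl, ?_⟩
  have h := a.valMinAbs_mem_Ioc
  have hMN : N ≤ M * N := Nat.le_mul_of_pos_left N (NeZero.pos M)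
  have hMN' : (N : ℤ) ≤ (M * N : ℕ) := by exact_mod_cast hMN
  rw [Set.mem_Ioc] at h ⊢
  constructor <;> linarith [h.1, h.2]

lemma sz_io (v : V N) : sz (io N M v) = sz v := by
  unfold sz io
  rw [vma_io, vma_io]

lemma io_inj : Function.Injective (io N M) := by
  intro v v' h
  have h1 := congrArg (fun x : V (M * N) => x.1.valMinAbs) h
  have h2 := congrArg (fun x : V (M * N) => x.2.valMinAbs) h
  simp only [io, vma_io] at h1 h2
  ext
  · rw [← ZMod.coe_valMinAbs v.1, h1, ZMod.coe_valMinAbs]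
  · rw [← ZMod.coe_valMinAbs v.2, h2, ZMod.coe_valMinAbs]

lemma prj_io (v : V N) : prj M (io N M v) = v := by
  unfold prj io
  ext
  · show H817.pr1 N M _ = v.1
    rw [H817.pr1_eq, vma_io, ZMod.coe_valMinAbs]
  · show H817.pr1 N M _ = v.2
    rw [H817.pr1_eq, vma_io, ZMod.coe_valMinAbs]

lemma io_prj {x : V (M * N)} (h : 2 * sz x < N) : io N M (prj M x) = x := by
  have h1 : sz (prj (N := N) M x) = sz x := sz_prj (by exact h)
  have hp : prj (N := N) M (io N M (prj M x)) = prj M x := prj_io _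
  refine (prj_inj (N := N) (M := M) ?_).1 hp
  have h2 := sz_add_le (io N M (prj M x)) (-x)
  rw [← sub_eq_add_neg, sz_neg, sz_io, h1] at h2
  omega

lemma io_add {v : V N} {b : Bool} (h : 2 * (sz v + 1) < N) :
    io N M v + eb b = io N M (v + eb b) := by
  have hs := sz_step v b
  have e1 : io N M (prj M (io N M v + eb b)) = io N M v + eb b := by
    apply io_prj
    have h2 := (sz_step (io N M v) b).2
    rw [sz_io] at h2
    omega
  rw [prj_add, prj_io, prj_eb] at e1
  exact e1.symm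

/-! ### the geometry -/

/-- good edges -/
def EgN (N : ℕ) [NeZero N] : Finset (V N × Bool) := univ.filter fun e => 2 * (sz e.1 + 1) < N

/-- data edges -/
def DN (N : ℕ) [NeZero N] : Finset (V N × Bool) := univ.filter fun e => 4 * sz e.1 ≤ N

/-- data sites -/
def VWN (N : ℕ) [NeZero N] : Finset (V N) := univ.filter fun v => 4 * sz v ≤ N + 4

/-- boundary sites -/
def VPN (N : ℕ) [NeZero N] : Finset (V N) := univ.filter fun v => N ≤ 2 * (sz v + 2)

/-- the separating ring -/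
def rng (N R : ℕ) [NeZero N] : Finset (V N) := univ.filter fun z => sz z = R

/-- the ball -/
def bal (N ρ : ℕ) [NeZero N] (z : V N) : Finset (V N) := univ.filter fun v => sz (v - z) ≤ ρ

lemma mem_EgN {e : V N × Bool} : e ∈ EgN N ↔ 2 * (sz e.1 + 1) < N := by simp [EgN]
lemma mem_DN {e : V N × Bool} : e ∈ DN N ↔ 4 * sz e.1 ≤ N := by simp [DN]
lemma mem_VWN {v : V N} : v ∈ VWN N ↔ 4 * sz v ≤ N + 4 := by simp [VWN]
lemma mem_VPN {v : V N} : v ∈ VPN N ↔ N ≤ 2 * (sz v + 2) := by simp [VPN]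
lemma mem_rng {R : ℕ} {z : V N} : z ∈ rng N R ↔ sz z = R := by simp [rng]
lemma mem_bal {ρ : ℕ} {z v : V N} : v ∈ bal N ρ z ↔ sz (v - z) ≤ ρ := by simp [bal]

lemma DN_sub (h : 5 ≤ N) : DN N ⊆ EgN N := by
  intro e he
  rw [mem_DN] at he
  rw [mem_EgN]
  omega

lemma DN_VW (e : V N × Bool) (he : e ∈ DN N) : eS N e ∈ VWN N ∧ eT N e ∈ VWN N := by
  rw [mem_DN] at he
  have h := (sz_step e.1 e.2).2
  rw [mem_VWN, mem_VWN, eT_eq]
  exact ⟨by show 4 * sz e.1 ≤ _; omega, by omega⟩

/-- the geometry of the two tori -/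
theorem geoN (hN : 13 ≤ N) : Geo (eS N) (eT N) (eS (M * N)) (eT (M * N)) (io N M) (ioE N M)
    (EgN N) (VWN N) (VPN N) where
  inj := io_inj
  injE e _ e' _ h := by
    have h1 := congrArg Prod.fst h
    have h2 := congrArg Prod.snd h
    exact Prod.ext (io_inj h1) h2
  src e _ := rfl
  tgt e he := by
    rw [mem_EgN] at he
    rw [eT_eq, eT_eq]
    exact io_add he
  disj := by
    rw [Finset.disjoint_left]
    intro v h1 h2
    rw [mem_VWN] at h1
    rw [mem_VPN] at h2
    omega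
  bad1 e he := by
    rw [mem_EgN, not_lt] at he
    have h := (sz_step e.1 e.2).1
    rw [mem_VPN, mem_VPN, eT_eq]
    refine ⟨?_, by omega⟩
    show N ≤ 2 * (sz e.1 + 2)
    omega
  bad2 e' he' := by
    constructor
    · intro v hv
      by_contra hc
      rw [mem_VPN, not_le] at hc
      refine he' (v, e'.2) ?_ (Prod.ext hv rfl)
      rw [mem_EgN]
      show 2 * (sz v + 1) < N
      omega
    · intro v hv
      by_contra hc
      rw [mem_VPN, not_le] at hc
      rw [eT_eq] at hv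
      have h1 := (sz_step (v - eb e'.2) e'.2).1
      rw [sub_add_cancel] at h1
      have h2 : 2 * (sz (v - eb e'.2) + 1) < N := by omega
      refine he' (v - eb e'.2, e'.2) ?_ (Prod.ext ?_ rfl)
      · rw [mem_EgN]; exact h2
      · have h3 := io_add (M := M) (b := e'.2) h2
        rw [sub_add_cancel, hv] at h3
        exact add_right_cancel h3

/-- the separation hypothesis -/
lemma sepN {R ρ : ℕ} (h1 : N + 4 < 4 * (R - ρ)) (h2 : 2 * (R + 2) ≤ N) (hρ : ρ ≤ R)
    (om : Finset (V N × Bool))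
    (h : ∃ u ∈ VWN N, ∃ v ∈ VPN N, Conn (eS N) (eT N) om u v) :
    ∃ z ∈ rng N R, ∃ z', z' ∉ bal N ρ z ∧ Conn (eS N) (eT N) om z z' := by
  obtain ⟨u, hu, v, hv, hc⟩ := h
  rw [mem_VWN] at hu
  rw [mem_VPN] at hv
  have key : ∀ v, R ≤ sz v → Conn (eS N) (eT N) om u v →
      ∃ z, sz z = R ∧ Conn (eS N) (eT N) om u z := by
    intro v hv hc
    induction hc with
    | refl => exact ⟨u, by omega, Conn.refl u⟩
    | @tail y w h2 h3 ih =>
      by_cases hy : R ≤ sz y
      · exact ih hy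
      · obtain ⟨e, he, h4⟩ := h3
        have hs := sz_step e.1 e.2
        have h6 : sz w ≤ sz y + 1 := by
          rcases h4 with ⟨h7, h8⟩ | ⟨h7, h8⟩
          · rw [eT_eq] at h8
            have h7' : e.1 = y := h7
            rw [← h8, ← h7']
            exact hs.2
          · rw [eT_eq] at h8
            have h7' : e.1 = w := h7
            rw [← h7', ← h8]
            exact hs.1
        exact ⟨w, by omega, Relation.ReflTransGen.tail h2 ⟨e, he, h4⟩⟩
  obtain ⟨z, hz, hcz⟩ := key v (by omega) hc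
  refine ⟨z, mem_rng.2 hz, u, ?_, hcz.symm⟩
  rw [mem_bal, not_le]
  have h3 := sz_add_le (u - z) (-u)
  have h4 : u - z + -u = -z := by abel
  rw [h4, sz_neg, sz_neg] at h3
  omega

lemma balN {R ρ : ℕ} (h1 : N + 4 < 4 * (R - ρ)) (h2 : 2 * (R + ρ + 2) < N) (hρ : ρ ≤ R)
    (z : V N) (hz : z ∈ rng N R) (e : V N × Bool)
    (he : eS N e ∈ bal N ρ z ∨ eT N e ∈ bal N ρ z) : e ∈ EgN N \ DN N := by
  rw [mem_rng] at hz
  have hs := sz_step e.1 e.2
  have key : ∀ v, sz (v - z) ≤ ρ → R ≤ sz v + ρ ∧ sz v ≤ R + ρ := by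
    intro v hv
    have h3 := sz_add_le (v - z) z
    rw [sub_add_cancel] at h3
    have h4 := sz_add_le (-(v - z)) v
    have h5 : -(v - z) + v = z := by abel
    rw [h5, sz_neg] at h4
    omega
  rw [Finset.mem_sdiff, mem_EgN, mem_DN]
  rcases he with h | h
  · have h3 := key _ (mem_bal.1 h)
    have h4 : R ≤ sz e.1 + ρ ∧ sz e.1 ≤ R + ρ := h3
    omega
  · rw [eT_eq] at h
    have h3 := key _ (mem_bal.1 h)
    omega

/-! ### the weights -/

/-- the edge weight of the XY model -/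
def WI (b : ℝ) (hb : 0 < b) : Wg where
  w := wI b
  w_pos := H770.wI_pos hb
  w_neg := H353.wI_neg b
  w_log := T1.H897.logC_wI hb.le

/-- site weight with background -/
def aF (t x : ℝ) (n : ℤ) : ℝ := Real.exp (-(t / 2 * ((n : ℝ) - x) ^ 2))

lemma aF_pos (t x : ℝ) (n : ℤ) : 0 < aF t x n := Real.exp_pos _

lemma qf_t1 (t : ℝ) (u : V N → ℝ) :
    qf (t • (1 : Matrix (V N) (V N) ℝ)) u = t * ∑ x, u x ^ 2 := by
  unfold qf
  rw [Finset.mul_sum]
  refine Finset.sum_congr rfl fun x _ => ?_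
  rw [Finset.sum_eq_single x]
  · rw [Matrix.smul_apply, Matrix.one_apply_eq, smul_eq_mul]
    ring
  · intro y _ hy
    rw [Matrix.smul_apply, Matrix.one_apply_ne hy.symm, smul_zero, mul_zero, zero_mul]
  · intro h
    exact absurd (Finset.mem_univ x) h

lemma mt_coer (N : ℕ) [NeZero N] {t : ℝ} (u : V N → ℝ) :
    t * ∑ x, u x ^ 2 ≤ qf (t • (1 : Matrix (V N) (V N) ℝ)) u := by
  rw [qf_t1]

/-- the weight of one copy with data -/
lemma wX_eq (b t : ℝ) (η : V N × Bool → ℤ) (F : V N → ℝ) (h : V N → ℤ) :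
    wX (wI b) (eS N) (eT N) η (fun v => aF t (F v)) h =
      wTD N b η h * Real.exp (-(qf (t • (1 : Matrix (V N) (V N) ℝ)) (re h - F) / 2)) := by
  unfold wX
  have e1 : ∏ e, wI b (h (eT N e) - h (eS N e) + η e) = wTD N b η h := rfl
  rw [e1]
  congr 1
  unfold aF
  rw [← Real.exp_sum, qf_t1]
  congr 1
  rw [Finset.mul_sum, Finset.sum_neg_distrib, Finset.sum_div]
  congr 1
  refine Finset.sum_congr rfl fun v _ => ?_
  show t / 2 * ((h v : ℝ) - F v) ^ 2 = t * ((re h - F) v) ^ 2 / 2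
  have e2 : (re h - F) v = (h v : ℝ) - F v := rfl
  rw [e2]
  ring

/-- partition function with data -/
def ZD (N : ℕ) [NeZero N] (b t : ℝ) (η : V N × Bool → ℤ) (F : V N → ℝ) : ℝ :=
  ZM (wTD N b η) (t • (1 : Matrix (V N) (V N) ℝ)) F

lemma summable_ZD {b t : ℝ} (hb : 0 < b) (ht : 0 < t) (η : V N × Bool → ℤ) (F : V N → ℝ) :
    Summable fun h : V N → ℤ => wTD N b η h *
      Real.exp (-(qf (t • (1 : Matrix (V N) (V N) ℝ)) (re h - F) / 2)) := by
  have h1 := (H770.disF_torus_bg (N := N) hb (M := t • (1 : Matrix (V N) (V N) ℝ))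
    (by rw [Matrix.transpose_smul, Matrix.transpose_one]) ht (mt_coer N)).em (η, F)
  have h2 := h1.sum 0
  simp only [zero_mul, Real.exp_zero, mul_one] at h2
  exact h2

lemma ZD_pos {b t : ℝ} (hb : 0 < b) (ht : 0 < t) (η : V N × Bool → ℤ) (F : V N → ℝ) :
    0 < ZD N b t η F := by
  have h := summable_ZD hb ht η F
  have h1 := h.tsum_pos (fun h => (mul_pos (H770.wTD_pos hb η h) (Real.exp_pos _)).le) 0
    (mul_pos (H770.wTD_pos hb η 0) (Real.exp_pos _))
  exact h1

lemma ZX_eq {b t : ℝ} (hb : 0 < b) (ht : 0 < t) (η : V N × Bool → ℤ) (F : V N → ℝ) :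
    ZX (wI b) (eS N) (eT N) η (fun v => aF t (F v)) = ENNReal.ofReal (ZD N b t η F) := by
  unfold ZX ZD ZM
  rw [ENNReal.ofReal_tsum_of_nonneg (fun h => (mul_pos (H770.wTD_pos hb η h)
    (Real.exp_pos _)).le) (summable_ZD hb ht η F)]
  exact tsum_congr fun h => by rw [wX_eq]

/-- extension of the edge data -/
def eta2 (M : ℕ) [NeZero M] (η : V N × Bool → ℤ) (e : V (M * N) × Bool) : ℤ :=
  if 4 * sz e.1 ≤ N then η (prj M e.1, e.2) else 0

/-- extension of the site data -/
def F2 (M : ℕ) [NeZero M] (F : V N → ℝ) (u : V (M * N)) : ℝ :=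
  if 4 * sz u ≤ N + 4 then F (prj M u) else 0

/-- the arm functional on the torus `N` -/
def armN (N : ℕ) [NeZero N] {b : ℝ} (hb : 0 < b) (ρ : ℕ) (z : V N) : (V N → ℤ × ℤ) → ℝ≥0∞ :=
  (WI b hb).arF (eS N) (eT N) (bal N ρ z) z

lemma dat2N (hN : 13 ≤ N) {t c : ℝ} (η : V N × Bool → ℤ) (F : V N → ℝ) :
    Dat2 (io N M) (ioE N M) (DN N) (VWN N) (aF t c) η (fun v => aF t (F v + c)) (eta2 M η)
      (fun u => aF t (F2 M F u + c)) where
  eta e he := by
    rw [mem_DN] at he
    unfold eta2 ioE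
    rw [sz_io, if_pos he, prj_io]
  eta0 e' he' := by
    unfold eta2
    rw [if_neg]
    intro h
    refine he' (prj M e'.1, e'.2) ?_ ?_
    · rw [mem_DN]
      show 4 * sz (prj (N := N) M e'.1) ≤ N
      rw [sz_prj (by omega)]
      exact h
    · unfold ioE
      exact Prod.ext (io_prj (by show 2 * sz e'.1 < N; omega)) rfl
  al v hv := by
    rw [mem_VWN] at hv
    funext n
    unfold F2
    rw [sz_io, if_pos hv, prj_io]
  al0 u hu := by
    funext n
    have h : ¬ 4 * sz u ≤ N + 4 := by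
      intro h
      refine hu (prj M u) ?_ (io_prj (by omega))
      rw [mem_VWN, sz_prj (by omega)]
      exact h
    unfold F2
    rw [if_neg h, zero_add]

/-- **(SW2)**: the swap for the tori `N` and `M N`, data in the box of side `N / 2` -/
theorem swapNM {b t c : ℝ} (hb : 0 < b) (ht : 0 < t) {R ρ : ℕ} (h1 : N + 4 < 4 * (R - ρ))
    (h2 : 2 * (R + ρ + 2) < N) {η : V N × Bool → ℤ} {F : V N → ℝ}
    (hη : ∀ e : V N × Bool, N < 4 * sz e.1 → η e = 0) (hF : ∀ v, N + 4 < 4 * sz v → F v = 0) :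
    (ENNReal.ofReal (ZD N b t η (fun v => F v + c) * ZD (M * N) b t 0 (fun _ => c)) ≤
      ENNReal.ofReal (ZD N b t 0 (fun _ => c) * ZD (M * N) b t (eta2 M η) (fun u => F2 M F u + c)) +
      ∑ z ∈ rng N R, AF (wI b) (eS N) (eT N) (eS (M * N)) (eT (M * N)) (io N M) η
        (fun v => aF t (F v + c)) 0 (fun _ => aF t c) (armN N hb ρ z)) ∧
    (ENNReal.ofReal (ZD N b t 0 (fun _ => c) * ZD (M * N) b t (eta2 M η) (fun u => F2 M F u + c)) ≤
      ENNReal.ofReal (ZD N b t η (fun v => F v + c) * ZD (M * N) b t 0 (fun _ => c)) +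
      ∑ z ∈ rng N R, AF (wI b) (eS N) (eT N) (eS (M * N)) (eT (M * N)) (io N M) 0
        (fun _ => aF t c) (eta2 M η) (fun u => aF t (F2 M F u + c)) (armN N hb ρ z)) := by
  have hN : 13 ≤ N := by omega
  have hρ : ρ ≤ R := by omega
  have hη' : ∀ e, e ∉ DN N → η e = 0 := fun e he => hη e (by rw [mem_DN] at he; omega)
  have hα : ∀ v, v ∉ VWN N → aF t (F v + c) = aF t c := fun v hv => by
    rw [hF v (by rw [mem_VWN] at hv; omega), zero_add]
  have h := swap2 (WI b hb) (geoN (M := M) hN) (DN_sub (by omega)) DN_VW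
    (a := aF t c) (fun n => (aF_pos t c n).le) (η := η) (α := fun v => aF t (F v + c))
    (fun v n => (aF_pos t _ n).le) hη' hα (dat2N hN η F) (M := rng N R) (Λ := bal N ρ)
    (fun z hz e he => balN h1 h2 hρ z hz e he) (fun om hom => sepN h1 (by omega) hρ om hom)
  have z1 := ZX_eq (N := N) hb ht η fun v => F v + c
  have z2 := ZX_eq (N := M * N) hb ht 0 fun _ => c
  have z3 := ZX_eq (N := N) hb ht 0 fun _ => c
  have z4 := ZX_eq (N := M * N) hb ht (eta2 M η) fun u => F2 M F u + c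
  have hw : (WI b hb).w = wI b := rfl
  rw [hw, z1, z2, z3, z4, ← ENNReal.ofReal_mul (ZD_pos hb ht _ _).le,
    ← ENNReal.ofReal_mul (ZD_pos hb ht _ _).le] at h
  exact h

/-- **(SW2), numbers**: if every arm integral is at most `δ` times the product of the two partition
functions without data, the two ratios agree up to `#rng δ` -/
theorem ratio_NM {b t c : ℝ} (hb : 0 < b) (ht : 0 < t) {R ρ : ℕ} (h1 : N + 4 < 4 * (R - ρ))
    (h2 : 2 * (R + ρ + 2) < N) {η : V N × Bool → ℤ} {F : V N → ℝ}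
    (hη : ∀ e : V N × Bool, N < 4 * sz e.1 → η e = 0) (hF : ∀ v, N + 4 < 4 * sz v → F v = 0)
    {δ : ℝ} (hδ : 0 ≤ δ)
    (hA : ∀ z ∈ rng N R, AF (wI b) (eS N) (eT N) (eS (M * N)) (eT (M * N)) (io N M) η
      (fun v => aF t (F v + c)) 0 (fun _ => aF t c) (armN N hb ρ z) ≤
        ENNReal.ofReal (δ * (ZD N b t 0 (fun _ => c) * ZD (M * N) b t 0 fun _ => c)))
    (hB : ∀ z ∈ rng N R, AF (wI b) (eS N) (eT N) (eS (M * N)) (eT (M * N)) (io N M) 0
      (fun _ => aF t c) (eta2 M η) (fun u => aF t (F2 M F u + c)) (armN N hb ρ z) ≤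
        ENNReal.ofReal (δ * (ZD N b t 0 (fun _ => c) * ZD (M * N) b t 0 fun _ => c))) :
    |ZD N b t η (fun v => F v + c) / ZD N b t 0 (fun _ => c) -
      ZD (M * N) b t (eta2 M η) (fun u => F2 M F u + c) / ZD (M * N) b t 0 (fun _ => c)| ≤
      (rng N R).card * δ := by
  have h := swapNM (N := N) (M := M) (c := c) hb ht h1 h2 hη hF
  have p1 := ZD_pos hb ht η fun v : V N => F v + c
  have p2 := ZD_pos (N := M * N) hb ht 0 fun _ => c
  have p3 := ZD_pos (N := N) hb ht 0 fun _ => c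
  have p4 := ZD_pos hb ht (eta2 M η) fun u : V (M * N) => F2 M F u + c
  set A := ZD N b t η fun v => F v + c
  set B := ZD (M * N) b t 0 fun _ => c
  set C := ZD N b t 0 fun _ => c
  set D := ZD (M * N) b t (eta2 M η) fun u => F2 M F u + c
  have k1 : A * B ≤ C * D + (rng N R).card * (δ * (C * B)) := by
    have h3 := h.1.trans (add_le_add le_rfl (Finset.sum_le_sum hA))
    rw [Finset.sum_const, nsmul_eq_mul, ← ENNReal.ofReal_natCast,
      ← ENNReal.ofReal_mul (Nat.cast_nonneg _), ← ENNReal.ofReal_add (by positivity)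
        (by positivity), ENNReal.ofReal_le_ofReal_iff (by positivity)] at h3
    exact h3
  have k2 : C * D ≤ A * B + (rng N R).card * (δ * (C * B)) := by
    have h3 := h.2.trans (add_le_add le_rfl (Finset.sum_le_sum hB))
    rw [Finset.sum_const, nsmul_eq_mul, ← ENNReal.ofReal_natCast,
      ← ENNReal.ofReal_mul (Nat.cast_nonneg _), ← ENNReal.ofReal_add (by positivity)
        (by positivity), ENNReal.ofReal_le_ofReal_iff (by positivity)] at h3
    exact h3
  have e : A / C - D / B = (A * B - C * D) / (C * B) := by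
    field_simp
  rw [e, abs_div, abs_of_pos (mul_pos p3 p2), div_le_iff₀ (mul_pos p3 p2), abs_le]
  constructor <;> nlinarith

end

end Vale.Agent.P159.H280.Hs
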