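import Vale.Agent.P159.H280.Hs2
import Vale.Agent.P159.H764.Qt2

/-!
P159, (H6) / SW2 (helper280), part 3: the swap of two copies on two different graphs with arms from
BLOCKS (helper764's `swapB_le`, helper474's conditional arm probability `qa`), and the tori `N`,
`M N` with the balls `TM.H459.ball`.
-/

set_option linter.unusedSectionVars false
set_option linter.unusedDecidableInType false

namespace Vale.Agent.P159.H280.Hs

open scoped ENNReal
open Finset Vale.Agent.P159.TM.H60 Vale.Agent.P159.TM.H576 Vale.Agent.P159.H764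
open Vale.Agent.P159.H145.Dz (I0 touch mem_touch)
open Vale.Agent.P159.H474.Cb (qa qa_le_one)

/-! ### generic -/

section gen

variable {V E : Type*} [Fintype V] [DecidableEq V] [Fintype E] [DecidableEq E]

/-- the arm functional of `twoOm` is the one of `two` if every edge touching `Λ` is in `Om` -/
lemma Wg.qa_eq (W : Wg) (s t : E → V) {Om : Finset E} (a : V → ℤ → ℝ)
    (ha : ∀ v n, 0 ≤ a v n) {Λ : Finset V} (hΛ : ∀ e, s e ∈ Λ ∨ t e ∈ Λ → e ∈ Om) (B : Finset V)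
    (x : V → ℤ × ℤ) : qa (W.twoOm s t Om a ha) B Λ x = qa (W.two s t) B Λ x := by
  have T : Tr (W.two s t) (W.twoOm s t Om a ha) id id Λ := by
    refine ⟨Function.injective_id, Function.injective_id, fun _ _ => rfl, fun _ _ => rfl, rfl, rfl,
      ?_, ?_⟩
    · intro e he
      have h1 : e ∈ Om := hΛ e ((mem_touch _).1 he)
      funext u v
      show (if e ∈ Om then W.w (v.1 - u.1) else 1) * (if e ∈ Om then W.w (v.2 - u.2) else 1) =
        W.w (v.1 - u.1) * W.w (v.2 - u.2)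
      rw [if_pos h1, if_pos h1]
    · intro e he
      rw [Finset.image_id] at he
      exact ⟨e, (mem_touch _).2 ((mem_touch _).1 he), rfl⟩
  have h := qa_transport T B x
  rw [Finset.image_id, Finset.image_id] at h
  exact h

end gen

section two

variable {V1 E1 V2 E2 : Type*} [Fintype V1] [DecidableEq V1] [Fintype E1] [DecidableEq E1]
  [Fintype V2] [DecidableEq V2] [Fintype E2] [DecidableEq E2]

variable {s1 t1 : E1 → V1} {s2 t2 : E2 → V2} {ι : V1 → V2} {ιE : E1 → E2}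
  {Eg D : Finset E1} {VW VP : Finset V1} {a : ℤ → ℝ} (W : Wg)

/-- **the swap of two copies on different graphs, arms from blocks** -/
theorem swap2B (G : Geo s1 t1 s2 t2 ι ιE Eg VW VP) (hDg : D ⊆ Eg)
    (hD : ∀ e ∈ D, s1 e ∈ VW ∧ t1 e ∈ VW) (ha : ∀ n, 0 ≤ a n) {η : E1 → ℤ} {α : V1 → ℤ → ℝ}
    (hαn : ∀ v n, 0 ≤ α v n) (hη : ∀ e, e ∉ D → η e = 0) (hα : ∀ v, v ∉ VW → α v = a)
    {η2 : E2 → ℤ} {α2 : V2 → ℤ → ℝ} (H : Dat2 ι ιE D VW a η α η2 α2) {κ : Type*} (J : Finset κ)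
    (B Λ : κ → Finset V1) {δ : V1 → ℕ}
    (hδ : ∀ e, δ (s1 e) ≤ δ (t1 e) + 1 ∧ δ (t1 e) ≤ δ (s1 e) + 1) {k : ℕ}
    (hP : ∀ v ∈ VP, δ v < k) (hW : ∀ v ∈ VW, k ≤ δ v)
    (hB : ∀ z, δ z = k → ∃ i ∈ J, z ∈ B i)
    (hΛ : ∀ i ∈ J, ∀ e, s1 e ∈ Λ i ∨ t1 e ∈ Λ i → e ∈ Eg \ D)
    (hΛP : ∀ i ∈ J, ∀ v ∈ VP, v ∉ Λ i) :
    (ZX W.w s1 t1 η α * ZX W.w s2 t2 0 (fun _ => a) ≤
      ZX W.w s1 t1 0 (fun _ => a) * ZX W.w s2 t2 η2 α2 +
        ∑ i ∈ J, AF W.w s1 t1 s2 t2 ι η α 0 (fun _ => a) (qa (W.two s1 t1) (B i) (Λ i))) ∧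
    (ZX W.w s1 t1 0 (fun _ => a) * ZX W.w s2 t2 η2 α2 ≤
      ZX W.w s1 t1 η α * ZX W.w s2 t2 0 (fun _ => a) +
        ∑ i ∈ J, AF W.w s1 t1 s2 t2 ι 0 (fun _ => a) η2 α2 (qa (W.two s1 t1) (B i) (Λ i))) := by
  set σ := sg W s1 t1 (Eg \ D) VW a ha with hσ
  set rA : (V1 → ℤ) → (V2 → ℤ) → ℝ := fun h h' => bdW W.w s1 t1 s2 t2 ι ιE Eg a h h' *
    daW W.w s1 t1 D VW a η α h fun v => h' (ι v) with hrA
  set rB : (V1 → ℤ) → (V2 → ℤ) → ℝ := fun h h' => bdW W.w s1 t1 s2 t2 ι ιE Eg a h h' *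
    daW W.w s1 t1 D VW a η α (fun v => h' (ι v)) h with hrB
  have hfl : ∀ e x y, 0 < σ.fl e x y := fun e x y => W.fl_pos _ _ _ _ _ e x y
  have hsw : σ.sw = Prod.swap := rfl
  have cA : ∀ (h : V1 → ℤ) (h' : V2 → ℤ), ENNReal.ofReal (σ.tot fun v => (h v, h' (ι v))) *
      ENNReal.ofReal (rA h h') = ENNReal.ofReal (wX W.w s1 t1 η α h) *
        ENNReal.ofReal (wX W.w s2 t2 0 (fun _ => a) h') := by
    intro h h'
    rw [← ENNReal.ofReal_mul (σ.tot_nonneg _), ← ENNReal.ofReal_mul (wX_nonneg W.w_pos hαn h)]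
    congr 1
    have h1 := tw2_A (w := W.w) (a := a) G hDg hη hα h h'
    unfold tw2 com at h1
    rw [h1, hσ, tot_sg]
  have cB : ∀ (h : V1 → ℤ) (h' : V2 → ℤ), ENNReal.ofReal (σ.tot fun v => (h v, h' (ι v))) *
      ENNReal.ofReal (rB h h') = ENNReal.ofReal (wX W.w s1 t1 0 (fun _ => a) h) *
        ENNReal.ofReal (wX W.w s2 t2 η2 α2 h') := by
    intro h h'
    rw [← ENNReal.ofReal_mul (σ.tot_nonneg _),
      ← ENNReal.ofReal_mul (wX_nonneg W.w_pos (fun _ n => ha n) h)]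
    congr 1
    have h1 := tw2_B (w := W.w) G hDg H h h'
    unfold tw2 com at h1
    rw [h1, hσ, tot_sg]
  have iA : ∀ F, I0 σ (fun x => GS G.inj rA x * F x) =
      AF W.w s1 t1 s2 t2 ι η α 0 (fun _ => a) F := by
    intro F
    rw [I0_GS]
    unfold AF
    simp only [cA]
  have iB : ∀ F, I0 σ (fun x => GS G.inj rB x * F x) =
      AF W.w s1 t1 s2 t2 ι 0 (fun _ => a) η2 α2 F := by
    intro F
    rw [I0_GS]
    unfold AF
    simp only [cB]
  have iA1 : I0 σ (GS G.inj rA) = ZX W.w s1 t1 η α * ZX W.w s2 t2 0 (fun _ => a) := by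
    have h1 := iA fun _ => 1
    simp only [mul_one] at h1
    rw [AF_one] at h1
    exact h1
  have iB1 : I0 σ (GS G.inj rB) = ZX W.w s1 t1 0 (fun _ => a) * ZX W.w s2 t2 η2 α2 := by
    have h1 := iB fun _ => 1
    simp only [mul_one] at h1
    rw [AF_one] at h1
    exact h1
  have hflip : ∀ A : Finset V1, VW ⊆ A → Disjoint A VP → ∀ x,
      GS G.inj rB (σ.flip A x) = GS G.inj rA x := fun A hA hP x =>
    GS_flip σ hsw G hD η α hA hP x
  have hq : ∀ i ∈ J, ∀ x, qa σ (B i) (Λ i) x = qa (W.two s1 t1) (B i) (Λ i) x := fun i hi x =>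
    W.qa_eq s1 t1 _ _ (hΛ i hi) (B i) x
  constructor
  · have h := swapB_le σ hflip hfl J B Λ hδ hP hW hB hΛP
    rw [iA1, iB1] at h
    refine h.trans (add_le_add le_rfl (Finset.sum_le_sum fun i hi => ?_))
    simp only [hq i hi]
    exact le_of_eq (iA _)
  · have h := swapB_ge σ hflip hfl J B Λ hδ hP hW hB hΛP
    rw [iA1, iB1] at h
    refine h.trans (add_le_add le_rfl (Finset.sum_le_sum fun i hi => ?_))
    simp only [hq i hi]
    exact le_of_eq (iB _)

end two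

/-! ### the tori -/

open Vale.Agent.P159.TM.Spec (V)
open Vale.Agent.P159.H817 (sz eb prj sz_step sz_add_le sz_neg prj_add prj_eb vma_add prj_inj
  vma_pr1 sz_prj)
open Vale.Agent.P159.H353 (wI)
open Vale.Agent.P159.H37 (ZM qf re)
open Vale.Agent.P159.H770 (eS eT wTD)
open Vale.Agent.P159.TM.H459 (ball mem_ball)

noncomputable section

variable {N M : ℕ} [NeZero N] [NeZero M]

lemma ball_sz {x z : V N} {ρ : ℕ} : z ∈ ball x ρ ↔ sz (z - x) ≤ ρ := mem_ball

lemma ball_bal (x : V N) (ρ : ℕ) : ball x ρ = bal N ρ x := by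
  ext z
  rw [ball_sz, mem_bal]

/-- the arm functional on the torus `N` from the ball of radius `r` to the outside of the ball of
radius `ρ` -/
def qN (N : ℕ) [NeZero N] {b : ℝ} (hb : 0 < b) (r ρ : ℕ) (z : V N) : (V N → ℤ × ℤ) → ℝ≥0∞ :=
  qa ((WI b hb).two (eS N) (eT N)) (ball z r) (ball z ρ)

/-- **(SW2) with blocks**: the swap for the tori `N` and `M N`, data in the box of side `N / 2`,
`J` a set of centres of balls of radius `r` which cover the ring -/
theorem swapNMB {b t c : ℝ} (hb : 0 < b) (ht : 0 < t) {R r ρ : ℕ} (h1 : N + 4 < 4 * (R - ρ))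
    (h2 : 2 * (R + ρ + 2) < N) {η : V N × Bool → ℤ} {F : V N → ℝ}
    (hη : ∀ e : V N × Bool, N < 4 * sz e.1 → η e = 0) (hF : ∀ v, N + 4 < 4 * sz v → F v = 0)
    {J : Finset (V N)} (hJR : ∀ x ∈ J, sz x = R)
    (hJ : ∀ z : V N, sz z = R → ∃ x ∈ J, sz (z - x) ≤ r) :
    (ENNReal.ofReal (ZD N b t η (fun v => F v + c) * ZD (M * N) b t 0 (fun _ => c)) ≤
      ENNReal.ofReal (ZD N b t 0 (fun _ => c) * ZD (M * N) b t (eta2 M η) (fun u => F2 M F u + c)) +
      ∑ z ∈ J, AF (wI b) (eS N) (eT N) (eS (M * N)) (eT (M * N)) (io N M) η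
        (fun v => aF t (F v + c)) 0 (fun _ => aF t c) (qN N hb r ρ z)) ∧
    (ENNReal.ofReal (ZD N b t 0 (fun _ => c) * ZD (M * N) b t (eta2 M η) (fun u => F2 M F u + c)) ≤
      ENNReal.ofReal (ZD N b t η (fun v => F v + c) * ZD (M * N) b t 0 (fun _ => c)) +
      ∑ z ∈ J, AF (wI b) (eS N) (eT N) (eS (M * N)) (eT (M * N)) (io N M) 0
        (fun _ => aF t c) (eta2 M η) (fun u => aF t (F2 M F u + c)) (qN N hb r ρ z)) := by
  have hN : 13 ≤ N := by omega
  have hρ : ρ ≤ R := by omega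
  have hη' : ∀ e, e ∉ DN N → η e = 0 := fun e he => hη e (by rw [mem_DN] at he; omega)
  have hα : ∀ v, v ∉ VWN N → aF t (F v + c) = aF t c := fun v hv => by
    rw [hF v (by rw [mem_VWN] at hv; omega), zero_add]
  have hsz : ∀ v : V N, 2 * sz v ≤ N := by
    intro v
    unfold sz
    have g1 := ZMod.natAbs_valMinAbs_le v.1
    have g2 := ZMod.natAbs_valMinAbs_le v.2
    omega
  have h := swap2B (WI b hb) (geoN (M := M) hN) (DN_sub (by omega)) DN_VW
    (a := aF t c) (fun n => (aF_pos t c n).le) (η := η) (α := fun v => aF t (F v + c))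
    (fun v n => (aF_pos t _ n).le) hη' hα (dat2N hN η F) J (fun x => ball x r) (fun x => ball x ρ)
    (δ := fun v => N - sz v) (k := N - R) (fun e => by
      have h3 := sz_step e.1 e.2
      rw [eT_eq]
      have h4 := hsz e.1
      have h5 := hsz (e.1 + eb e.2)
      show N - sz e.1 ≤ _ ∧ _ ≤ N - sz e.1 + 1
      omega) (fun v hv => by
      rw [mem_VPN] at hv
      have h4 := hsz v
      omega) (fun v hv => by
      rw [mem_VWN] at hv
      omega) (fun z hz => by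
      have h4 := hsz z
      obtain ⟨x, hx, h5⟩ := hJ z (by omega)
      exact ⟨x, hx, ball_sz.2 h5⟩) (fun x hx e he => by
      rw [ball_bal] at he
      exact balN h1 h2 hρ x (mem_rng.2 (hJR x hx)) e he) (fun x hx v hv hvx => by
      rw [mem_VPN] at hv
      rw [ball_sz] at hvx
      have h3 := sz_add_le (v - x) x
      rw [sub_add_cancel, hJR x hx] at h3
      omega)
  have z1 := ZX_eq (N := N) hb ht η fun v => F v + c
  have z2 := ZX_eq (N := M * N) hb ht 0 fun _ => c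
  have z3 := ZX_eq (N := N) hb ht 0 fun _ => c
  have z4 := ZX_eq (N := M * N) hb ht (eta2 M η) fun u => F2 M F u + c
  have hw : (WI b hb).w = wI b := rfl
  rw [hw, z1, z2, z3, z4, ← ENNReal.ofReal_mul (ZD_pos hb ht _ _).le,
    ← ENNReal.ofReal_mul (ZD_pos hb ht _ _).le] at h
  exact h

/-- **(SW2) with blocks, numbers** -/
theorem ratio_NMB {b t c : ℝ} (hb : 0 < b) (ht : 0 < t) {R r ρ : ℕ} (h1 : N + 4 < 4 * (R - ρ))
    (h2 : 2 * (R + ρ + 2) < N) {η : V N × Bool → ℤ} {F : V N → ℝ}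
    (hη : ∀ e : V N × Bool, N < 4 * sz e.1 → η e = 0) (hF : ∀ v, N + 4 < 4 * sz v → F v = 0)
    {J : Finset (V N)} (hJR : ∀ x ∈ J, sz x = R)
    (hJ : ∀ z : V N, sz z = R → ∃ x ∈ J, sz (z - x) ≤ r)
    {δ : ℝ} (hδ : 0 ≤ δ)
    (hA : ∀ z ∈ J, AF (wI b) (eS N) (eT N) (eS (M * N)) (eT (M * N)) (io N M) η
      (fun v => aF t (F v + c)) 0 (fun _ => aF t c) (qN N hb r ρ z) ≤
        ENNReal.ofReal (δ * (ZD N b t 0 (fun _ => c) * ZD (M * N) b t 0 fun _ => c)))
    (hB : ∀ z ∈ J, AF (wI b) (eS N) (eT N) (eS (M * N)) (eT (M * N)) (io N M) 0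
      (fun _ => aF t c) (eta2 M η) (fun u => aF t (F2 M F u + c)) (qN N hb r ρ z) ≤
        ENNReal.ofReal (δ * (ZD N b t 0 (fun _ => c) * ZD (M * N) b t 0 fun _ => c))) :
    |ZD N b t η (fun v => F v + c) / ZD N b t 0 (fun _ => c) -
      ZD (M * N) b t (eta2 M η) (fun u => F2 M F u + c) / ZD (M * N) b t 0 (fun _ => c)| ≤
      J.card * δ := by
  have h := swapNMB (N := N) (M := M) (c := c) hb ht h1 h2 hη hF hJR hJ
  have p1 := ZD_pos hb ht η fun v : V N => F v + c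
  have p2 := ZD_pos (N := M * N) hb ht 0 fun _ => c
  have p3 := ZD_pos (N := N) hb ht 0 fun _ => c
  have p4 := ZD_pos hb ht (eta2 M η) fun u : V (M * N) => F2 M F u + c
  set A := ZD N b t η fun v => F v + c
  set B := ZD (M * N) b t 0 fun _ => c
  set C := ZD N b t 0 fun _ => c
  set D := ZD (M * N) b t (eta2 M η) fun u => F2 M F u + c
  have k1 : A * B ≤ C * D + J.card * (δ * (C * B)) := by
    have h3 := h.1.trans (add_le_add le_rfl (Finset.sum_le_sum hA))
    rw [Finset.sum_const, nsmul_eq_mul, ← ENNReal.ofReal_natCast,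
      ← ENNReal.ofReal_mul (Nat.cast_nonneg _), ← ENNReal.ofReal_add (by positivity)
        (by positivity), ENNReal.ofReal_le_ofReal_iff (by positivity)] at h3
    exact h3
  have k2 : C * D ≤ A * B + J.card * (δ * (C * B)) := by
    have h3 := h.2.trans (add_le_add le_rfl (Finset.sum_le_sum hB))
    rw [Finset.sum_const, nsmul_eq_mul, ← ENNReal.ofReal_natCast,
      ← ENNReal.ofReal_mul (Nat.cast_nonneg _), ← ENNReal.ofReal_add (by positivity)
        (by positivity), ENNReal.ofReal_le_ofReal_iff (by positivity)] at h3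
    exact h3
  have e : A / C - D / B = (A * B - C * D) / (C * B) := by
    field_simp
  rw [e, abs_div, abs_of_pos (mul_pos p3 p2), div_le_iff₀ (mul_pos p3 p2), abs_le]
  constructor <;> nlinarith

/-! ### the cover of the ring -/

/-- the site with integer coordinates -/
def zc (N : ℕ) (i j : ℤ) : V N := ((i : ZMod N), (j : ZMod N))

lemma vma_int {i : ℤ} (h : 2 * i.natAbs < N) : ((i : ZMod N)).valMinAbs = i := by
  refine (ZMod.valMinAbs_spec _ _).2 ⟨rfl, ?_⟩
  rw [Set.mem_Ioc]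
  omega

lemma sz_zc {i j : ℤ} (h : 2 * i.natAbs < N) (h' : 2 * j.natAbs < N) :
    sz (zc N i j) = max i.natAbs j.natAbs := by
  unfold sz zc
  rw [vma_int h, vma_int h']

lemma zc_vma (v : V N) : zc N v.1.valMinAbs v.2.valMinAbs = v := by
  unfold zc
  rw [ZMod.coe_valMinAbs, ZMod.coe_valMinAbs]

lemma zc_sub (i j i' j' : ℤ) : zc N i j - zc N i' j' = zc N (i - i') (j - j') := by
  unfold zc
  ext <;> simp

/-- the sign -/
def sgi (s : Bool) (n : ℕ) : ℤ := if s then n else -n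

/-- the centres -/
def cenF (N R r : ℕ) (p : Bool × Bool × Bool × Fin (R / r + 1)) : V N :=
  if p.1 then zc N (sgi p.2.1 R) (sgi p.2.2.1 (r * p.2.2.2))
  else zc N (sgi p.2.2.1 (r * p.2.2.2)) (sgi p.2.1 R)

/-- the set of centres -/
def cen (N R r : ℕ) [NeZero N] : Finset (V N) := univ.image (cenF N R r)

lemma card_cen (R r : ℕ) : (cen N R r).card ≤ 8 * (R / r + 1) := by
  refine Finset.card_image_le.trans (le_of_eq ?_)
  rw [Finset.card_univ, Fintype.card_prod, Fintype.card_prod, Fintype.card_prod, Fintype.card_bool,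
    Fintype.card_fin]
  ring

lemma sgi_abs (s : Bool) (n : ℕ) : (sgi s n).natAbs = n := by
  unfold sgi
  cases s <;> simp

lemma cen_sz {R r : ℕ} (h : 2 * R < N) (x : V N) (hx : x ∈ cen N R r) : sz x = R := by
  obtain ⟨⟨s, s1, s2, j⟩, -, rfl⟩ := Finset.mem_image.1 hx
  have hj : r * (j : ℕ) ≤ R := by
    have h1 : (j : ℕ) ≤ R / r := Nat.lt_succ_iff.1 j.2
    exact (Nat.mul_le_mul_left r h1).trans (Nat.mul_div_le R r)
  have a1 := sgi_abs s1 R
  have a2 := sgi_abs s2 (r * (j : ℕ))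
  unfold cenF
  cases s
  · simp only [Bool.false_eq_true, if_false]
    rw [sz_zc (by rw [a2]; omega) (by rw [a1]; omega), a1, a2]
    omega
  · simp only [if_true]
    rw [sz_zc (by rw [a1]; omega) (by rw [a2]; omega), a1, a2]
    omega

lemma int_sgi (i : ℤ) : ∃ s, i = sgi s i.natAbs := by
  rcases le_total 0 i with h | h
  · exact ⟨true, by unfold sgi; rw [if_pos rfl]; omega⟩
  · exact ⟨false, by unfold sgi; simp only [Bool.false_eq_true, if_false]; omega⟩

lemma cen_cov {R r : ℕ} (hr : 1 ≤ r) (h : 2 * R < N) (z : V N) (hz : sz z = R) :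
    ∃ x ∈ cen N R r, sz (z - x) ≤ r := by
  obtain ⟨i, hi⟩ : ∃ i, i = z.1.valMinAbs := ⟨_, rfl⟩
  obtain ⟨j, hj⟩ : ∃ j, j = z.2.valMinAbs := ⟨_, rfl⟩
  have hzz : z = zc N i j := by rw [hi, hj, zc_vma]
  have hm : max i.natAbs j.natAbs = R := by
    rw [← hz]
    unfold sz
    rw [hi, hj]
  obtain ⟨si, hsi⟩ := int_sgi i
  obtain ⟨sj, hsj⟩ := int_sgi j
  have key : ∀ k : ℤ, ∀ s, k = sgi s k.natAbs → k.natAbs ≤ R →
      (k - sgi s (r * (k.natAbs / r))).natAbs ≤ r ∧
        (k - sgi s (r * (k.natAbs / r))).natAbs ≤ R := by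
    intro k s hs _
    have h1 := Nat.div_add_mod k.natAbs r
    have h2 := Nat.mod_lt k.natAbs (show 0 < r by omega)
    obtain ⟨p, hp⟩ : ∃ p, p = r * (k.natAbs / r) := ⟨_, rfl⟩
    rw [← hp] at h1 ⊢
    unfold sgi at hs ⊢
    cases s
    · simp only [Bool.false_eq_true, if_false] at hs ⊢
      omega
    · simp only [if_true] at hs ⊢
      omega
  rcases le_total j.natAbs i.natAbs with hij | hij
  · have hiR : i.natAbs = R := by omega
    refine ⟨cenF N R r (true, si, sj, ⟨j.natAbs / r, Nat.lt_succ_of_le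
      (Nat.div_le_div_right (by omega))⟩), Finset.mem_image_of_mem _ (Finset.mem_univ _), ?_⟩
    unfold cenF
    simp only [if_true]
    rw [hzz, zc_sub]
    have h1 := key j sj hsj (by omega)
    have h2 : i - sgi si R = 0 := by rw [← hiR, ← hsi, sub_self]
    rw [h2, sz_zc (by simp; omega) (by omega)]
    simp only [Int.natAbs_zero]
    omega
  · have hiR : j.natAbs = R := by omega
    refine ⟨cenF N R r (false, sj, si, ⟨i.natAbs / r, Nat.lt_succ_of_le
      (Nat.div_le_div_right (by omega))⟩), Finset.mem_image_of_mem _ (Finset.mem_univ _), ?_⟩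
    unfold cenF
    simp only [Bool.false_eq_true, if_false]
    rw [hzz, zc_sub]
    have h1 := key i si hsi (by omega)
    have h2 : j - sgi sj R = 0 := by rw [← hiR, ← hsj, sub_self]
    rw [h2, sz_zc (by omega) (by simp; omega)]
    simp only [Int.natAbs_zero]
    omega

end

end Vale.Agent.P159.H280.Hs
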