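import Vale.Agent.P159.H280.Hs4
import Vale.Agent.P159.H817.St12
import Vale.Agent.P159.H612.OscD2

/-!
P159, (H6) / SW2 (helper280), part 5: **(H6) in the letters of helper817** (`EZ`, `ext`).

* `gauge_box` : an edge field of the group which vanishes outside a box is `eF η F` with `η`, `F`
  vanishing outside the box;
* `ext_eF` : its extension to the torus `M N`;
* `h6` : if the arm integrals are small relative to the product of the partition functions, the
  energies on the two tori agree up to `2 ε + 8 ω²`.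
-/

set_option linter.unusedSectionVars false
set_option linter.unusedDecidableInType false

namespace Vale.Agent.P159.H280.Hs

open scoped ENNReal
open Finset
open Vale.Agent.P159.TM.Spec (V)
open Vale.Agent.P159.H817 (sz eb prj sz_step sz_add_le sz_neg prj_add prj_eb vma_add prj_inj
  vma_pr1 sz_prj eF EG EZ ZE gr gr_eq gi gi_cast ZE_eF)
open Vale.Agent.P159.H353 (wI)
open Vale.Agent.P159.H37 (ZM Zn qf re)
open Vale.Agent.P159.H770 (eS eT wTD Ed)
open Vale.Agent.P159.TM.SpecC (Tor wT)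
open Vale.Agent.P159.H145 (Osc OscZ osc_of cs four)
open Vale.Agent.P159.H612 (om0 oscZ_wTD)

noncomputable section

variable {N M : ℕ} [NeZero N] [NeZero M]

lemma zero_eF : (0 : V N × Bool → ℝ) = eF 0 0 := by
  funext ⟨x, b⟩
  unfold H817.eF
  rw [gr_eq]
  simp

/-! ### the gauge -/

/-- outside a box the fractional part of a field with integer gradient is constant -/
lemma fract_out {L : ℕ} (hL : 2 * (L + 1) ≤ N) {G : V N → ℝ}
    (h : ∀ x b, L < sz x → Int.fract (G (x + eb b)) = Int.fract (G x)) (x : V N) (hx : L < sz x) :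
    Int.fract (G x) = Int.fract (G (((N / 2 : ℕ) : ZMod N), ((N / 2 : ℕ) : ZMod N))) := by
  have hp : (((N / 2 : ℕ) : ZMod N)).valMinAbs.natAbs = N / 2 := by
    rw [ZMod.valMinAbs_natCast_of_le_half le_rfl]
    rfl
  have row : ∀ (y : ZMod N), L < y.valMinAbs.natAbs → ∀ (a : ZMod N) (k : ℕ),
      Int.fract (G (a + k, y)) = Int.fract (G (a, y)) := by
    intro y hy a k
    induction k with
    | zero => simp
    | succ k ih =>
      rw [← ih]
      have h1 := h (a + (k : ZMod N), y) false (by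
        unfold sz
        exact lt_of_lt_of_le hy (le_max_right _ _))
      rw [← h1]
      congr 2
      show _ = (a + (k : ZMod N) + 1, y + 0)
      push_cast
      ext
      · simp [add_assoc]
      · simp
  have col : ∀ (y : ZMod N), L < y.valMinAbs.natAbs → ∀ (a : ZMod N) (k : ℕ),
      Int.fract (G (y, a + k)) = Int.fract (G (y, a)) := by
    intro y hy a k
    induction k with
    | zero => simp
    | succ k ih =>
      rw [← ih]
      have h1 := h (y, a + (k : ZMod N)) true (by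
        unfold sz
        exact lt_of_lt_of_le hy (le_max_left _ _))
      rw [← h1]
      congr 2
      show _ = (y + 0, a + (k : ZMod N) + 1)
      push_cast
      ext
      · simp
      · simp [add_assoc]
  have row' : ∀ (y : ZMod N), L < y.valMinAbs.natAbs → ∀ a a' : ZMod N,
      Int.fract (G (a', y)) = Int.fract (G (a, y)) := by
    intro y hy a a'
    have h1 := row y hy a (a' - a).val
    rw [ZMod.natCast_zmod_val, add_sub_cancel] at h1
    exact h1
  have col' : ∀ (y : ZMod N), L < y.valMinAbs.natAbs → ∀ a a' : ZMod N,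
      Int.fract (G (y, a')) = Int.fract (G (y, a)) := by
    intro y hy a a'
    have h1 := col y hy a (a' - a).val
    rw [ZMod.natCast_zmod_val, add_sub_cancel] at h1
    exact h1
  have hpL : L < (((N / 2 : ℕ) : ZMod N)).valMinAbs.natAbs := by rw [hp]; omega
  unfold sz at hx
  obtain ⟨a, c⟩ := x
  rcases lt_max_iff.1 hx with h1 | h1
  · rw [col' a h1 ((N / 2 : ℕ) : ZMod N) c]
    exact row' _ hpL _ _
  · rw [row' c h1 ((N / 2 : ℕ) : ZMod N) a]
    exact col' _ hpL _ _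

/-- **the gauge**: an edge field of the group which vanishes outside a box -/
theorem gauge_box {L : ℕ} (hL : 2 * (L + 1) ≤ N) {β : V N × Bool → ℝ} (hβ : EG β)
    (h0 : ∀ e : V N × Bool, L < sz e.1 → β e = 0) : ∃ (η : V N × Bool → ℤ) (F : V N → ℝ),
      β = eF η F ∧ (∀ e : V N × Bool, L < sz e.1 → η e = 0) ∧ (∀ v, L < sz v → F v = 0) ∧
      ∀ x b, L < sz x → F (x + eb b) = 0 := by
  classical
  obtain ⟨η, F, rfl⟩ := hβ
  have hstep : ∀ x b, L < sz x → F (x + eb b) = F x - η (x, b) := by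
    intro x b hx
    have h1 := h0 (x, b) hx
    unfold H817.eF at h1
    rw [gr_eq] at h1
    linarith
  set c : ℝ := Int.fract (F (((N / 2 : ℕ) : ZMod N), ((N / 2 : ℕ) : ZMod N))) with hc
  have hfr : ∀ x, L < sz x → Int.fract (F x) = c := fract_out hL fun x b hx => by
    rw [hstep x b hx]
    have e : F x - (η (x, b) : ℝ) = F x + ((-η (x, b) : ℤ) : ℝ) := by push_cast; ring
    rw [e, Int.fract_add_intCast]
  have hfr' : ∀ x b, L < sz x → Int.fract (F (x + eb b)) = c := by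
    intro x b hx
    rw [hstep x b hx, ← hfr x hx]
    have e : F x - (η (x, b) : ℝ) = F x + ((-η (x, b) : ℤ) : ℝ) := by push_cast; ring
    rw [e, Int.fract_add_intCast]
  set S : V N → Prop := fun x => L < sz x ∨ ∃ b, L < sz (x - eb b) with hS
  have hSc : ∀ x, S x → Int.fract (F x) = c := by
    rintro x (h | ⟨b, h⟩)
    · exact hfr x h
    · have h1 := hfr' (x - eb b) b h
      rwa [sub_add_cancel] at h1
  set k : V N → ℤ := fun x => if S x then ⌊F x⌋ else 0 with hk
  set F' : V N → ℝ := fun x => F x - c - re k x with hF'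
  have hz : ∀ x, S x → F' x = 0 := by
    intro x hx
    have h1 := Int.floor_add_fract (F x)
    rw [hSc x hx] at h1
    show F x - c - ((k x : ℤ) : ℝ) = 0
    rw [hk]
    simp only [if_pos hx]
    linarith
  have he : H817.eF η F = H817.eF (η + gi k) F' := by
    funext e
    obtain ⟨x, b⟩ := e
    unfold H817.eF
    have h1 := gi_cast k (x, b)
    rw [gr_eq] at h1
    rw [gr_eq, gr_eq]
    have h2 : (((η + gi k) (x, b) : ℤ) : ℝ) = (η (x, b) : ℝ) + ((gi k (x, b) : ℤ) : ℝ) := by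
      rw [Pi.add_apply]
      push_cast
      ring
    rw [h2, h1, hF']
    ring
  refine ⟨η + gi k, F', he, ?_, fun v hv => hz v (Or.inl hv), fun x b hx => hz _ (Or.inr ⟨b, by
    rwa [add_sub_cancel_right]⟩)⟩
  intro e hx
  obtain ⟨x, b⟩ := e
  have h1 := h0 (x, b) hx
  rw [he] at h1
  unfold H817.eF at h1
  rw [gr_eq, hz x (Or.inl hx), hz (x + eb b) (Or.inr ⟨b, by rwa [add_sub_cancel_right]⟩)] at h1
  have h2 : (((η + gi k) (x, b) : ℤ) : ℝ) = 0 := by linarith
  exact_mod_cast h2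

/-- **the extension** -/
theorem ext_eF {L : ℕ} (hL : 4 * L ≤ N) (hN : 9 ≤ N) {η : V N × Bool → ℤ} {F : V N → ℝ}
    (hF : ∀ v, L < sz v → F v = 0) (hF' : ∀ x b, L < sz x → F (x + eb b) = 0) :
    H817.ext M (eF η F) = eF (eta2 M η) (F2 M F) := by
  funext e
  obtain ⟨x, b⟩ := e
  have hst := sz_step x b
  unfold H817.ext H817.eF
  rw [gr_eq]
  unfold eta2 F2
  by_cases hx : 4 * sz x ≤ N
  · simp only [if_pos hx]
    rw [gr_eq, if_pos (by omega), if_pos (by omega), prj_add, prj_eb]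
  · simp only [if_neg hx]
    have h1 : (if 4 * sz x ≤ N + 4 then F (prj M x) else 0) = 0 := by
      split_ifs with h
      · refine hF _ ?_
        rw [sz_prj (by omega)]
        omega
      · rfl
    have h2 : (if 4 * sz (x + eb b) ≤ N + 4 then F (prj M (x + eb b)) else 0) = 0 := by
      split_ifs with h
      · rw [prj_add, prj_eb]
        refine hF' _ _ ?_
        rw [sz_prj (by omega)]
        omega
      · rfl
    rw [gr_eq, h1, h2]
    simp

/-! ### scalar -/

lemma log_rel2 {a b ε : ℝ} (ha : 0 < a) (hb : 0 < b) (h0 : 0 ≤ ε) (h2 : ε ≤ 1 / 2)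
    (h : a ≤ b + ε * a) (h' : b ≤ a + ε * b) : |Real.log a - Real.log b| ≤ 2 * ε := by
  have key : ∀ x y : ℝ, 0 < x → 0 < y → x ≤ y + ε * x → Real.log x - Real.log y ≤ 2 * ε := by
    intro x y hx hy hxy
    rw [← Real.log_div hx.ne' hy.ne']
    have h3 : x / y ≤ 1 + 2 * ε := by
      rw [div_le_iff₀ hy]
      have h5 : x * (1 - ε) ≤ y := by linarith
      have h6 : x * (1 - ε) * (1 + 2 * ε) ≤ y * (1 + 2 * ε) :=
        mul_le_mul_of_nonneg_right h5 (by linarith)
      have h7 : 0 ≤ x * (ε * (1 - 2 * ε)) :=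
        mul_nonneg hx.le (mul_nonneg h0 (by linarith))
      nlinarith
    have h4 : Real.log (x / y) ≤ x / y - 1 := Real.log_le_sub_one_of_pos (div_pos hx hy)
    linarith
  have h3 := key a b ha hb h
  have h4 := key b a hb ha h'
  rw [abs_le]
  constructor <;> linarith

/-! ### (H6) -/

/-- partition function in the background `F + c` -/
lemma ZD_cs (b t : ℝ) (η : V N × Bool → ℤ) (F : V N → ℝ) (c : ℝ) :
    ZD N b t η (fun v => F v + c) =
      ZM (wTD N b η) (t • (1 : Matrix (V N) (V N) ℝ)) (cs F c) := rfl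

/-- the oscillation of one model -/
lemma osc_ZD {b t ω : ℝ} (hb : 0 < b) (ht : 0 < t)
    (hω : om0 N b (t • (1 : Matrix (Tor N) (Tor N) ℝ)) ≤ ω) (η : V N × Bool → ℤ) (F : V N → ℝ) :
    Osc ω fun c => ZD N b t η fun v => F v + c := by
  have hMt : (t • (1 : Matrix (Tor N) (Tor N) ℝ)).transpose = t • 1 := by
    rw [Matrix.transpose_smul, Matrix.transpose_one]
  have hE := H770.em_wTD (N := N) hb (M := t • (1 : Matrix (Tor N) (Tor N) ℝ)) η ht (mt_coer N)
  have h1 := oscZ_wTD hb hMt ht (mt_coer N) η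
  have h2 : OscZ (wTD N b η) (t • (1 : Matrix (Tor N) (Tor N) ℝ)) ω := by
    intro F c hc
    refine (h1 F c hc).trans (mul_le_mul_of_nonneg_right hω ?_)
    exact (H145.Zn_pos hMt hE F).le
  exact osc_of hMt hE h2 F

/-- **(H6), group elements**: from the relative bounds of the arm integrals -/
theorem h6_X {b t : ℝ} (hb : 0 < b) (ht : 0 < t) {R r ρ : ℕ} (h1 : N + 4 < 4 * (R - ρ))
    (h2 : 2 * (R + ρ + 2) < N) {η : V N × Bool → ℤ} {F : V N → ℝ}
    (hη : ∀ e : V N × Bool, N < 4 * sz e.1 → η e = 0) (hF : ∀ v, N + 4 < 4 * sz v → F v = 0)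
    {J : Finset (V N)} (hJR : ∀ x ∈ J, sz x = R)
    (hJ : ∀ z : V N, sz z = R → ∃ x ∈ J, sz (z - x) ≤ r)
    {ω : ℝ} (hω1 : om0 N b (t • (1 : Matrix (Tor N) (Tor N) ℝ)) ≤ ω)
    (hω2 : om0 (M * N) b (t • (1 : Matrix (Tor (M * N)) (Tor (M * N)) ℝ)) ≤ ω) (hω : ω ≤ 1 / 2)
    {ε : V N → ℝ} (hε0 : ∀ x ∈ J, 0 ≤ ε x) (hε : ∑ x ∈ J, ε x ≤ 1 / 2)
    (hA : ∀ c ∈ Set.Icc (0 : ℝ) 1, ∀ x ∈ J,
      AF (wI b) (eS N) (eT N) (eS (M * N)) (eT (M * N)) (io N M) η
        (fun v => aF t (F v + c)) 0 (fun _ => aF t c) (qN N hb r ρ x) ≤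
      ENNReal.ofReal (ε x * (ZD N b t η (fun v => F v + c) * ZD (M * N) b t 0 fun _ => c)))
    (hB : ∀ c ∈ Set.Icc (0 : ℝ) 1, ∀ x ∈ J,
      AF (wI b) (eS N) (eT N) (eS (M * N)) (eT (M * N)) (io N M) 0
        (fun _ => aF t c) (eta2 M η) (fun u => aF t (F2 M F u + c)) (qN N hb r ρ x) ≤
      ENNReal.ofReal (ε x * (ZD N b t 0 (fun _ => c) *
        ZD (M * N) b t (eta2 M η) fun u => F2 M F u + c))) :
    |EZ (M * N) b t (eF (eta2 M η) (F2 M F)) - EZ N b t (eF η F)| ≤
      2 * ∑ x ∈ J, ε x + 8 * ω ^ 2 := by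
  have o1 := osc_ZD (N := N) hb ht hω1 η F
  have o2 := osc_ZD (N := N) hb ht hω1 0 0
  have o3 := osc_ZD (N := M * N) hb ht hω2 (eta2 M η) (F2 M F)
  have o4 := osc_ZD (N := M * N) hb ht hω2 0 0
  have hsum0 : 0 ≤ ∑ x ∈ J, ε x := Finset.sum_nonneg hε0
  have m1 : 0 < Zn (wTD N b η) (t • (1 : Matrix (V N) (V N) ℝ)) F := o1.mean_pos
  have m2 : 0 < Zn (wTD N b 0) (t • (1 : Matrix (V N) (V N) ℝ)) 0 := o2.mean_pos
  have m3 : 0 < Zn (wTD (M * N) b (eta2 M η)) (t • (1 : Matrix (V (M * N)) (V (M * N)) ℝ))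
    (F2 M F) := o3.mean_pos
  have m4 : 0 < Zn (wTD (M * N) b 0) (t • (1 : Matrix (V (M * N)) (V (M * N)) ℝ)) 0 :=
    o4.mean_pos
  have h := four (ε := 2 * ∑ x ∈ J, ε x) o1 o2 o3 o4 hω ?_
  · have e1 : EZ N b t (eF η F) = -Real.log (Zn (wTD N b η) (t • 1) F) +
        Real.log (Zn (wTD N b 0) (t • 1) 0) := by
      unfold EZ
      rw [zero_eF, ZE_eF hb, ZE_eF hb, Real.log_div m1.ne' m2.ne']
      ring
    have e2 : EZ (M * N) b t (eF (eta2 M η) (F2 M F)) =
        -Real.log (Zn (wTD (M * N) b (eta2 M η)) (t • 1) (F2 M F)) +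
        Real.log (Zn (wTD (M * N) b 0) (t • 1) 0) := by
      unfold EZ
      rw [zero_eF, ZE_eF hb, ZE_eF hb, Real.log_div m3.ne' m4.ne']
      ring
    rw [e1, e2]
    refine le_trans (le_of_eq ?_) h
    congr 1
    have d1 : ∫ c in (0 : ℝ)..1, ZD N b t η (fun v => F v + c) =
        Zn (wTD N b η) (t • 1) F := rfl
    have d2 : ∫ c in (0 : ℝ)..1, ZD N b t 0 (fun v => (0 : V N → ℝ) v + c) =
        Zn (wTD N b 0) (t • 1) 0 := rfl
    have d3 : ∫ c in (0 : ℝ)..1, ZD (M * N) b t (eta2 M η) (fun v => F2 M F v + c) =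
        Zn (wTD (M * N) b (eta2 M η)) (t • 1) (F2 M F) := rfl
    have d4 : ∫ c in (0 : ℝ)..1, ZD (M * N) b t 0 (fun v => (0 : V (M * N) → ℝ) v + c) =
        Zn (wTD (M * N) b 0) (t • 1) 0 := rfl
    rw [d1, d2, d3, d4]
    ring
  · intro c hc
    have hz : ∀ (K : ℕ) [NeZero K], (fun v : V K => (0 : V K → ℝ) v + c) = fun _ => c := by
      intro K _
      funext v
      simp
    have hsw := swapNMB (N := N) (M := M) (c := c) hb ht h1 h2 hη hF hJR hJ
    have p1 : 0 < ZD N b t η fun v => F v + c := ZD_pos hb ht _ _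
    have p2 : 0 < ZD (M * N) b t 0 fun _ => c := ZD_pos hb ht _ _
    have p3 : 0 < ZD N b t 0 fun _ => c := ZD_pos hb ht _ _
    have p4 : 0 < ZD (M * N) b t (eta2 M η) fun u => F2 M F u + c := ZD_pos hb ht _ _
    rw [hz N, hz (M * N)]
    set A := ZD N b t η fun v => F v + c
    set B := ZD (M * N) b t 0 fun _ => c
    set C := ZD N b t 0 fun _ => c
    set D := ZD (M * N) b t (eta2 M η) fun u => F2 M F u + c
    have k1 : A * B ≤ C * D + (∑ x ∈ J, ε x) * (A * B) := by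
      have h3 := hsw.1.trans (add_le_add le_rfl (Finset.sum_le_sum (hA c hc)))
      rw [← ENNReal.ofReal_sum_of_nonneg (fun x hx => mul_nonneg (hε0 x hx) (by positivity)),
        ← Finset.sum_mul, ← ENNReal.ofReal_add (by positivity) (by positivity),
        ENNReal.ofReal_le_ofReal_iff (by positivity)] at h3
      exact h3
    have k2 : C * D ≤ A * B + (∑ x ∈ J, ε x) * (C * D) := by
      have h3 := hsw.2.trans (add_le_add le_rfl (Finset.sum_le_sum (hB c hc)))
      rw [← ENNReal.ofReal_sum_of_nonneg (fun x hx => mul_nonneg (hε0 x hx) (by positivity)),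
        ← Finset.sum_mul, ← ENNReal.ofReal_add (by positivity) (by positivity),
        ENNReal.ofReal_le_ofReal_iff (by positivity)] at h3
      exact h3
    have h4 := log_rel2 (mul_pos p1 p2) (mul_pos p3 p4) hsum0 hε k1 k2
    rw [Real.log_mul p1.ne' p2.ne', Real.log_mul p3.ne' p4.ne'] at h4
    refine le_trans (le_of_eq ?_) h4
    congr 1
    ring

/-- **(H6)** in the letters of helper817: an edge field `β` of the group which vanishes outside the
box of radius `L ≤ N / 4` -/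
theorem h6 {b t : ℝ} (hb : 0 < b) (ht : 0 < t) {L R r ρ : ℕ} (hL : 4 * L ≤ N)
    (h1 : N + 4 < 4 * (R - ρ)) (h2 : 2 * (R + ρ + 2) < N)
    {J : Finset (V N)} (hJR : ∀ x ∈ J, sz x = R)
    (hJ : ∀ z : V N, sz z = R → ∃ x ∈ J, sz (z - x) ≤ r)
    {ω : ℝ} (hω1 : om0 N b (t • (1 : Matrix (Tor N) (Tor N) ℝ)) ≤ ω)
    (hω2 : om0 (M * N) b (t • (1 : Matrix (Tor (M * N)) (Tor (M * N)) ℝ)) ≤ ω) (hω : ω ≤ 1 / 2)
    {ε : V N → ℝ} (hε0 : ∀ x ∈ J, 0 ≤ ε x) (hε : ∑ x ∈ J, ε x ≤ 1 / 2)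
    {β : V N × Bool → ℝ} (hβ : EG β) (hβ0 : ∀ e : V N × Bool, L < sz e.1 → β e = 0)
    (hAB : ∀ (η : V N × Bool → ℤ) (F : V N → ℝ), β = eF η F →
      H817.ext M β = eF (eta2 M η) (F2 M F) →
      (∀ e : V N × Bool, L < sz e.1 → η e = 0) → (∀ v, L < sz v → F v = 0) →
      ∀ c ∈ Set.Icc (0 : ℝ) 1, ∀ x ∈ J,
      AF (wI b) (eS N) (eT N) (eS (M * N)) (eT (M * N)) (io N M) η
        (fun v => aF t (F v + c)) 0 (fun _ => aF t c) (qN N hb r ρ x) ≤
      ENNReal.ofReal (ε x * (ZD N b t η (fun v => F v + c) * ZD (M * N) b t 0 fun _ => c)) ∧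
      AF (wI b) (eS N) (eT N) (eS (M * N)) (eT (M * N)) (io N M) 0
        (fun _ => aF t c) (eta2 M η) (fun u => aF t (F2 M F u + c)) (qN N hb r ρ x) ≤
      ENNReal.ofReal (ε x * (ZD N b t 0 (fun _ => c) *
        ZD (M * N) b t (eta2 M η) fun u => F2 M F u + c))) :
    |EZ (M * N) b t (H817.ext M β) - EZ N b t β| ≤ 2 * ∑ x ∈ J, ε x + 8 * ω ^ 2 := by
  obtain ⟨η, F, hE, hη, hF, hF'⟩ := gauge_box (by omega : 2 * (L + 1) ≤ N) hβ hβ0
  have hX : H817.ext M β = eF (eta2 M η) (F2 M F) := by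
    rw [hE]
    exact ext_eF hL (by omega) hF hF'
  have h := hAB η F hE hX hη hF
  rw [hX, hE]
  exact h6_X hb ht h1 h2 (fun e he => hη e (by omega)) (fun v hv => hF v (by omega)) hJR hJ hω1 hω2
    hω hε0 hε (fun c hc x hx => (h c hc x hx).1) (fun c hc x hx => (h c hc x hx).2)

end

end Vale.Agent.P159.H280.Hs
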