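import Vale.Agent.P159.H280.Hs5
import Vale.Agent.P159.H612.Rfl3
import Vale.Agent.P159.H474.Cb11

/-!
P159, (H6) / SW2 (helper280), part 6: the relative bounds of the arm integrals, for data with any
roughness: one reflection (helper612, `rfl_loc`) + the entangled chessboard at zero data
(helper474, `arm_vol`).

* `arm_const` : the arm integral of two tori in the same constant background;
* `lnZ`, `lf_box`, `blk_right` : the lines of the reflection;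
* `arm_rel` : **the relative bound of the arm integral**;
* `h6_gen` : **(H6)**, the only quantity of the edge field is the mixed difference with its mirror image.
-/

set_option linter.unusedSectionVars false
set_option linter.unusedDecidableInType false

namespace Vale.Agent.P159.H280.Hs

open scoped ENNReal
open Finset Vale.Agent.P159.TM.H60 Vale.Agent.P159.TM.H576
open Vale.Agent.P159.H764 (VB sB Gb Dp ArmLe ev_arm Inn)
open Vale.Agent.P159.T1.H897 (LogC logC_wI)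
open Vale.Agent.P159.H474.Cb (qa qa_le_one wDC Z0 pt foE foF trD trF arm_vol Z0_pos ZM_wTD_le GE)
open Vale.Agent.P159.TM.Spec (V)
open Vale.Agent.P159.H817 (sz eb prj sz_step sz_add_le sz_neg prj_add prj_eb vma_add prj_inj
  vma_pr1 sz_prj eF EG EZ ZE_eF)
open Vale.Agent.P159.H353 (wI)
open Vale.Agent.P159.H37 (ZM Zn qf re)
open Vale.Agent.P159.H770 (eS eT wTD Ed wI_pos)
open Vale.Agent.P159.TM.SpecC (Tor wT)
open Vale.Agent.P159.TM.H459 (ball mem_ball)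
open Vale.Agent.P159.H612 (om0 oscZ_wTD)
open Vale.Agent.P159.H612.Rfl

noncomputable section

/-! ### the constant background -/

section const

variable {m : ℕ} {b : ℝ} {c : ℕ × ℕ} {ρ : ℕ}

/-- the centre as a point of the block -/
def pc (hc : InC m c ρ) : VB m m :=
  (⟨c.1, by have := hc.u1; omega⟩, ⟨c.2, by have := hc.u2; omega⟩)

lemma bal_pc (hc : InC m c ρ) (r : ℕ) : H764.bal (pc hc) r = bl0 m c r := by
  ext v
  rw [H764.mem_bal, mem_bl0]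
  show ((v.1 : ℕ) ≤ c.1 + r ∧ c.1 ≤ (v.1 : ℕ) + r) ∧ ((v.2 : ℕ) ≤ c.2 + r ∧ c.2 ≤ (v.2 : ℕ) + r) ↔ _
  omega

lemma dp_pc (hc : InC m c ρ) : Dp (pc hc) ρ := ⟨hc.l1, hc.u1, hc.l2, hc.u2⟩

lemma G0_Gb (hb : 0 < b) (hc : InC m c ρ) (r ρ' : ℕ) (τ τ' : Fin (m + 2) → Fin (m + 2) → ℤ) :
    G0 m hb c r ρ' τ τ' = Gb m m (wI_pos hb) (logC_wI hb.le) (pc hc) r ρ' τ τ' := by
  unfold G0 Gb
  rw [bal_pc, bal_pc]
  rfl

/-- **the arm integral of two tori in the same constant background** -/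
theorem arm_const {n1 n2 : ℕ} [NeZero ((m + 1) * (n1 + 2))] [NeZero ((m + 1) * (n2 + 2))]
    [NeZero ((m + 1) * 2)] (hb : 0 < b) {ξ : ℕ} (hξ : 0 < ξ) (κ : ℝ)
    (s1 : Tor ((m + 1) * (n1 + 2))) (s2 : Tor ((m + 1) * (n2 + 2))) (hc : InC m c ρ) {r : ℕ}
    (hr : r ≤ ρ) {ea : ℝ} (hea : 0 ≤ ea)
    (h : ArmLe ((m + 1) * 2) b hb.le ξ (fun _ => κ) (pt 0 c.1 c.2) r ρ ea) {δ1 δ2 : ℝ}
    (hδ1 : ((n1 : ℝ) + 2) ^ 2 / 4 * Real.log (Z0 ((m + 1) * 2) b (1 / (ξ : ℝ) ^ 2)) -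
      Real.log (Z0 ((m + 1) * (n1 + 2)) b (1 / (ξ : ℝ) ^ 2)) ≤ δ1)
    (hδ2 : ((n2 : ℝ) + 2) ^ 2 / 4 * Real.log (Z0 ((m + 1) * 2) b (1 / (ξ : ℝ) ^ 2)) -
      Real.log (Z0 ((m + 1) * (n2 + 2)) b (1 / (ξ : ℝ) ^ 2)) ≤ δ2) :
    ∑' h1 : Tor ((m + 1) * (n1 + 2)) → ℤ, ∑' h2 : Tor ((m + 1) * (n2 + 2)) → ℤ,
      ENNReal.ofReal (wDC _ b (1 / (ξ : ℝ) ^ 2) 0 (fun _ => κ) h1) *
        ENNReal.ofReal (wDC _ b (1 / (ξ : ℝ) ^ 2) 0 (fun _ => κ) h2) *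
        G0 m hb c r ρ (fun a d => h1 (pt s1 a d)) (fun a d => h2 (pt s2 a d)) ≤
      ENNReal.ofReal (ea ^ (1 / 4 : ℝ) * Real.exp (δ1 + δ2) *
        (Z0 ((m + 1) * (n1 + 2)) b (1 / (ξ : ℝ) ^ 2) *
          Z0 ((m + 1) * (n2 + 2)) b (1 / (ξ : ℝ) ^ 2))) := by
  have ht : 0 < 1 / (ξ : ℝ) ^ 2 := by positivity
  have q : ∀ (η : Ed ((m + 1) * 2) → ℤ) (F : Tor ((m + 1) * 2) → ℝ),
      ZM (wTD ((m + 1) * 2) b η) ((1 / (ξ : ℝ) ^ 2) • (1 : Matrix _ _ ℝ)) F ≤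
        (1 : ℝ) * Z0 ((m + 1) * 2) b (1 / (ξ : ℝ) ^ 2) := by
    intro η F
    rw [one_mul]
    exact ZM_wTD_le hb (by rw [Matrix.transpose_smul, Matrix.transpose_one]) ht
      (H789.coer_smul _) _ _
  have f0 : foE (n := 2) m (0 : Ed ((m + 1) * 2) → ℤ) 0 0 = 0 := by
    funext e
    unfold foE
    simp
  have key := arm_vol (m := m) hb ht (0 : Ed ((m + 1) * (n1 + 2)) → ℤ) (fun _ => κ)
    (0 : Ed ((m + 1) * (n2 + 2)) → ℤ) (fun _ => κ) s1 s2 (G0 m hb c r ρ) (G0_le_one m hb c r ρ)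
    (fun _ => 1) (fun _ => 1) (fun _ => zero_le_one) (fun _ => zero_le_one)
    (fun p _ => q _ _) (fun p _ => q _ _) hea ?_ hδ1 hδ2
  · simpa using key
  · have h3 := ev_arm (M := (m + 1) * 2) (m := m) (by omega) hb hξ (fun _ => κ) 0 (p := pc hc) hr
      (dp_pc hc) hea h
    have e1 : foE m (trD s1 (0 : Ed ((m + 1) * (n1 + 2)) → ℤ)) 0 0 = 0 := by
      funext e
      unfold foE trD
      simp
    have e2 : foE m (trD s2 (0 : Ed ((m + 1) * (n2 + 2)) → ℤ)) 0 0 = 0 := by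
      funext e
      unfold foE trD
      simp
    have e3 : foF m (trF s1 fun _ : Tor ((m + 1) * (n1 + 2)) => κ) 0 0 = fun _ => κ := rfl
    have e4 : foF m (trF s2 fun _ : Tor ((m + 1) * (n2 + 2)) => κ) 0 0 = fun _ => κ := rfl
    rw [e1, e2, e3, e4]
    simp only [G0_Gb hb hc]
    exact h3

end const

/-! ### general sides -/

/-- `Z` at background `0` against `Z` at a constant background -/
lemma Z0_le_two {N : ℕ} [NeZero N] {b t ω : ℝ} (hb : 0 < b) (ht : 0 < t)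
    (hω : om0 N b (t • (1 : Matrix (Tor N) (Tor N) ℝ)) ≤ ω) (hω4 : ω ≤ 1 / 4) {κ : ℝ}
    (hκ : κ ∈ Set.Icc (0 : ℝ) 1) :
    Z0 N b t ≤ 2 * ZM (wT b N) (t • (1 : Matrix (Tor N) (Tor N) ℝ)) fun _ => κ := by
  have hMt : (t • (1 : Matrix (Tor N) (Tor N) ℝ)).transpose = t • 1 := by
    rw [Matrix.transpose_smul, Matrix.transpose_one]
  have hE := H770.em_wTD (N := N) hb (M := t • (1 : Matrix (Tor N) (Tor N) ℝ)) 0 ht (mt_coer N)
  have h1 := oscZ_wTD hb hMt ht (mt_coer N) (0 : Ed N → ℤ)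
  have hp := H145.Zn_pos hMt hE (0 : Tor N → ℝ)
  have h2 := h1 0 κ hκ
  have h3 := h1 0 0 ⟨le_rfl, zero_le_one⟩
  have e1 : H145.cs (0 : Tor N → ℝ) κ = fun _ => κ := by
    funext x
    show (0 : ℝ) + κ = κ
    rw [zero_add]
  have e2 : H145.cs (0 : Tor N → ℝ) 0 = 0 := by
    funext x
    show (0 : ℝ) + 0 = 0
    rw [zero_add]
  rw [e1, H770.wTD_zero] at h2
  rw [e2, H770.wTD_zero] at h3
  rw [H770.wTD_zero] at hp
  have h4 := abs_le.1 h2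
  have h5 := abs_le.1 h3
  have h6 : om0 N b (t • (1 : Matrix (Tor N) (Tor N) ℝ)) *
      Zn (wT b N) (t • (1 : Matrix (Tor N) (Tor N) ℝ)) 0 ≤
      1 / 4 * Zn (wT b N) (t • (1 : Matrix (Tor N) (Tor N) ℝ)) 0 :=
    mul_le_mul_of_nonneg_right (hω.trans hω4) hp.le
  unfold Z0
  linarith [h4.1, h5.2]

/-- **the arm integral of two tori of sides `N1`, `N2` in the same constant background**, relative
form -/
theorem ag_const {m : ℕ} {b : ℝ} {c : ℕ × ℕ} {ρ : ℕ} {N1 N2 n1 n2 : ℕ} [NeZero N1] [NeZero N2]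
    [NeZero ((m + 1) * 2)] (e1 : N1 = (m + 1) * (n1 + 2)) (e2 : N2 = (m + 1) * (n2 + 2))
    (hb : 0 < b) {ξ : ℕ} (hξ : 0 < ξ) {κ ω : ℝ} (hκ : κ ∈ Set.Icc (0 : ℝ) 1)
    (hω1 : om0 N1 b ((1 / (ξ : ℝ) ^ 2) • (1 : Matrix (Tor N1) (Tor N1) ℝ)) ≤ ω)
    (hω2 : om0 N2 b ((1 / (ξ : ℝ) ^ 2) • (1 : Matrix (Tor N2) (Tor N2) ℝ)) ≤ ω)
    (hω : ω ≤ 1 / 4) (s1 : Tor N1) (s2 : Tor N2) (hc : InC m c ρ) {r : ℕ}
    (hr : r ≤ ρ) {ea : ℝ} (hea : 0 ≤ ea)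
    (h : ArmLe ((m + 1) * 2) b hb.le ξ (fun _ => κ) (pt 0 c.1 c.2) r ρ ea) {δ1 δ2 : ℝ}
    (hδ1 : ((n1 : ℝ) + 2) ^ 2 / 4 * Real.log (Z0 ((m + 1) * 2) b (1 / (ξ : ℝ) ^ 2)) -
      Real.log (Z0 N1 b (1 / (ξ : ℝ) ^ 2)) ≤ δ1)
    (hδ2 : ((n2 : ℝ) + 2) ^ 2 / 4 * Real.log (Z0 ((m + 1) * 2) b (1 / (ξ : ℝ) ^ 2)) -
      Real.log (Z0 N2 b (1 / (ξ : ℝ) ^ 2)) ≤ δ2) :
    AG (eS N1) (eT N1) (eS N2) (eT N2) (fun _ => wI b) (fun _ => wI b) (1 / (ξ : ℝ) ^ 2)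
      (1 / (ξ : ℝ) ^ 2) (0, fun _ => κ) (0, fun _ => κ)
      (fun h1 h2 => G0 m hb c r ρ (fun a d => h1 (pt s1 a d)) fun a d => h2 (pt s2 a d)) ≤
      ENNReal.ofReal (4 * (ea ^ (1 / 4 : ℝ) * Real.exp (δ1 + δ2)) *
        (ZM (wT b N1) ((1 / (ξ : ℝ) ^ 2) • (1 : Matrix _ _ ℝ)) (fun _ => κ) *
          ZM (wT b N2) ((1 / (ξ : ℝ) ^ 2) • (1 : Matrix _ _ ℝ)) fun _ => κ)) := by
  subst e1 e2
  have ht : 0 < 1 / (ξ : ℝ) ^ 2 := by positivity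
  refine (arm_const hb hξ κ s1 s2 hc hr hea h hδ1 hδ2).trans (ENNReal.ofReal_le_ofReal ?_)
  have z1 := Z0_le_two hb ht hω1 hω hκ
  have z2 := Z0_le_two hb ht hω2 hω hκ
  have p1 := Z0_pos (N := (m + 1) * (n1 + 2)) hb ht
  have p2 := Z0_pos (N := (m + 1) * (n2 + 2)) hb ht
  have h3 := mul_le_mul z1 z2 p2.le (p1.le.trans z1)
  have h4 : 0 ≤ ea ^ (1 / 4 : ℝ) * Real.exp (δ1 + δ2) :=
    mul_nonneg (Real.rpow_nonneg hea _) (Real.exp_pos _).le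
  calc _ ≤ _ := mul_le_mul_of_nonneg_left h3 h4
    _ = _ := by ring

/-! ### the lines of the reflection -/

section line

variable {K : ℕ} [NeZero K] {L' : ℕ}

/-- the reflection line: the other one is `x = q` (`σ = true`), `x = - (q + L')` (`σ = false`) -/
def lnZ (K L' q : ℕ) (σ : Bool) : ZMod K := ((if σ then (q : ℤ) - L' else -(q : ℤ) : ℤ) : ZMod K)

lemma lfZ_int (j : ℤ) : lfZ L' ((j : ℤ) : ZMod K) ↔ 0 < j % K ∧ j % K < L' := by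
  have h := ZMod.val_intCast (n := K) j
  unfold lfZ
  omega

lemma lf_box (hK : K = 2 * L') {L q : ℕ} (h1 : L < q) (h2 : q + L < L') {z : ZMod K}
    (hz : z.valMinAbs.natAbs ≤ L) (σ : Bool) : lfZ L' (z - lnZ K L' q σ) := by
  have e : z - lnZ K L' q σ =
      ((z.valMinAbs - (if σ then (q : ℤ) - L' else -(q : ℤ)) : ℤ) : ZMod K) := by
    unfold lnZ
    push_cast
    rfl
  rw [e, lfZ_int]
  cases σ
  · simp only [Bool.false_eq_true, if_false]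
    rw [Int.emod_eq_of_lt (by omega) (by omega)]
    omega
  · simp only [if_true]
    rw [Int.emod_eq_of_lt (by omega) (by omega)]
    omega

lemma not_lf (hK : K = 2 * L') {j : ℤ} (h : (-(L' : ℤ) ≤ j ∧ j ≤ 0) ∨
    ((L' : ℤ) ≤ j ∧ j ≤ 2 * (L' : ℤ))) : ¬ lfZ L' ((j : ℤ) : ZMod K) := by
  have hKp : 0 < K := NeZero.pos K
  rw [lfZ_int]
  rcases h with h | h
  · rcases eq_or_lt_of_le h.2 with h0 | h0
    · rw [h0]
      simp
    · have e : j % (K : ℤ) = j + K := by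
        rw [← Int.add_emod_right, Int.emod_eq_of_lt (by omega) (by omega)]
      rw [e]
      omega
  · rcases eq_or_lt_of_le h.2 with h0 | h0
    · have e : j = (K : ℤ) := by rw [h0, hK]; push_cast; ring
      rw [e, Int.emod_self]
      simp
    · rw [Int.emod_eq_of_lt (by omega) (by omega)]
      omega

lemma co_pt (c : Bool) (x : V K) (c0 : ℕ × ℕ) (a d : ℕ) : co c (pt (og x c0) a d) =
    (((co c x).valMinAbs + (if c then (d : ℤ) - c0.2 else (a : ℤ) - c0.1) : ℤ) : ZMod K) := by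
  unfold co pt og
  cases c
  · simp only [Bool.false_eq_true, if_false]
    push_cast
    simp only [Prod.fst_add, Prod.fst_sub]
    ring
  · simp only [if_true]
    push_cast
    simp only [Prod.snd_add, Prod.snd_sub]
    ring

/-- **the block is on the right side** -/
lemma blk_right (hK : K = 2 * L') {x : V K} {c σ : Bool} {R q m : ℕ} {c0 : ℕ × ℕ}
    (hx : (co c x).valMinAbs = sgi σ R) (hc1 : c0.1 ≤ m + 1) (hc2 : c0.2 ≤ m + 1)
    (h1 : q + m + 1 ≤ R) (h2 : R + m + 1 ≤ q + L') {a d : ℕ} (ha : a ≤ m + 1) (hd : d ≤ m + 1) :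
    ¬ lfZ L' (co c (pt (og x c0) a d) - lnZ K L' q σ) := by
  rw [co_pt, hx]
  have e : ∀ j i : ℤ, ((j : ℤ) : ZMod K) - ((i : ℤ) : ZMod K) = ((j - i : ℤ) : ZMod K) := by
    intro j i
    push_cast
    rfl
  unfold lnZ sgi
  rw [e]
  refine not_lf hK ?_
  cases σ <;> cases c <;> simp only [Bool.false_eq_true, if_false, if_true] <;> omega

lemma co_sz (c : Bool) (x : V K) : (co c x).valMinAbs.natAbs ≤ sz x := by
  unfold co sz
  cases c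
  · exact le_max_left _ _
  · exact le_max_right _ _

/-- data in the box are on the left side -/
lemma onL_box (hK : K = 2 * L') {L q : ℕ} (h1 : L < q) (h2 : q + L < L') (c σ : Bool)
    {X : GE K} (hη : ∀ e : V K × Bool, L < sz e.1 → X.1 e = 0) (hF : ∀ v, L < sz v → X.2 v = 0) :
    OnL (RgT hK c (lnZ K L' q σ)) X := by
  constructor
  · intro x hx
    by_contra h
    have h3 : ¬ L < sz x := fun h4 => h (hF x h4)
    exact hx (lf_box hK h1 h2 ((co_sz c x).trans (not_lt.1 h3)) σ)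
  · intro e he
    by_contra h
    have h3 : ¬ L < sz e.1 := fun h4 => h (hη e h4)
    exact he (Or.inl (lf_box hK h1 h2 ((co_sz c e.1).trans (not_lt.1 h3)) σ))

/-- the coordinate which is extremal -/
lemma co_ex {x : V K} {R : ℕ} (h : sz x = R) : ∃ c σ : Bool, (co c x).valMinAbs = sgi σ R := by
  unfold sz at h
  rcases max_choice x.1.valMinAbs.natAbs x.2.valMinAbs.natAbs with h1 | h1
  · obtain ⟨s, hs⟩ := int_sgi x.1.valMinAbs
    refine ⟨false, s, ?_⟩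
    show x.1.valMinAbs = _
    rw [hs, ← h1, h]
  · obtain ⟨s, hs⟩ := int_sgi x.2.valMinAbs
    refine ⟨true, s, ?_⟩
    show x.2.valMinAbs = _
    rw [hs, ← h1, h]

end line

/-! ### the relative bound -/

/-- **the relative bound of the arm integral** : data `X1`, `X2` on the left sides, the block on the
right sides -/
theorem arm_rel {m n1 n2 N1 N2 L1 L2 q R r ρ : ℕ} [NeZero N1] [NeZero N2] [NeZero ((m + 1) * 2)]
    (hN1 : N1 = 2 * L1) (hN2 : N2 = 2 * L2) (e1 : N1 = (m + 1) * (n1 + 2))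
    (e2 : N2 = (m + 1) * (n2 + 2)) {b : ℝ} (hb : 0 < b) {ξ : ℕ} (hξ : 0 < ξ) {κ ω : ℝ}
    (hκ : κ ∈ Set.Icc (0 : ℝ) 1)
    (hω1 : om0 N1 b ((1 / (ξ : ℝ) ^ 2) • (1 : Matrix (Tor N1) (Tor N1) ℝ)) ≤ ω)
    (hω2 : om0 N2 b ((1 / (ξ : ℝ) ^ 2) • (1 : Matrix (Tor N2) (Tor N2) ℝ)) ≤ ω)
    (hω : ω ≤ 1 / 4) {x1 : V N1} {x2 : V N2} {c σ : Bool}
    (hx1 : (co c x1).valMinAbs = sgi σ R) (hx2 : (co c x2).valMinAbs = sgi σ R)
    (hq1 : q + m + 1 ≤ R) (hq2 : R + m + 1 ≤ q + L1) (hq3 : R + m + 1 ≤ q + L2) {c0 : ℕ × ℕ}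
    (hc : InC m c0 ρ) (hr : r ≤ ρ) {ea : ℝ} (hea : 0 ≤ ea)
    (h : ArmLe ((m + 1) * 2) b hb.le ξ (fun _ => κ) (pt 0 c0.1 c0.2) r ρ ea) {δ1 δ2 : ℝ}
    (hδ1 : ((n1 : ℝ) + 2) ^ 2 / 4 * Real.log (Z0 ((m + 1) * 2) b (1 / (ξ : ℝ) ^ 2)) -
      Real.log (Z0 N1 b (1 / (ξ : ℝ) ^ 2)) ≤ δ1)
    (hδ2 : ((n2 : ℝ) + 2) ^ 2 / 4 * Real.log (Z0 ((m + 1) * 2) b (1 / (ξ : ℝ) ^ 2)) -
      Real.log (Z0 N2 b (1 / (ξ : ℝ) ^ 2)) ≤ δ2)
    {X1 : GE N1} {X2 : GE N2} (hX1 : OnL (RgT hN1 c (lnZ N1 L1 q σ)) X1)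
    (hX2 : OnL (RgT hN2 c (lnZ N2 L2 q σ)) X2) {m1 m2 : ℝ}
    (hm1 : ZM (wTD N1 b (cmb (RgT hN1 c (lnZ N1 L1 q σ)) (fun _ => κ) X1 X1).1)
      ((1 / (ξ : ℝ) ^ 2) • (1 : Matrix _ _ ℝ))
      (cmb (RgT hN1 c (lnZ N1 L1 q σ)) (fun _ => κ) X1 X1).2 *
      ZM (wT b N1) ((1 / (ξ : ℝ) ^ 2) • (1 : Matrix _ _ ℝ)) (fun _ => κ) ≤
      Real.exp m1 * ZM (wTD N1 b X1.1) ((1 / (ξ : ℝ) ^ 2) • (1 : Matrix _ _ ℝ))
        (X1.2 + fun _ => κ) ^ 2)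
    (hm2 : ZM (wTD N2 b (cmb (RgT hN2 c (lnZ N2 L2 q σ)) (fun _ => κ) X2 X2).1)
      ((1 / (ξ : ℝ) ^ 2) • (1 : Matrix _ _ ℝ))
      (cmb (RgT hN2 c (lnZ N2 L2 q σ)) (fun _ => κ) X2 X2).2 *
      ZM (wT b N2) ((1 / (ξ : ℝ) ^ 2) • (1 : Matrix _ _ ℝ)) (fun _ => κ) ≤
      Real.exp m2 * ZM (wTD N2 b X2.1) ((1 / (ξ : ℝ) ^ 2) • (1 : Matrix _ _ ℝ))
        (X2.2 + fun _ => κ) ^ 2) :
    AG (eS N1) (eT N1) (eS N2) (eT N2) (fun _ => wI b) (fun _ => wI b) (1 / (ξ : ℝ) ^ 2)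
      (1 / (ξ : ℝ) ^ 2) (X1 + (0, fun _ => κ)) (X2 + (0, fun _ => κ))
      (fun h1 h2 => G0 m hb c0 r ρ (fun a d => h1 (pt (og x1 c0) a d))
        fun a d => h2 (pt (og x2 c0) a d)) ≤
      ENNReal.ofReal (√(4 * (ea ^ (1 / 4 : ℝ) * Real.exp (δ1 + δ2))) * Real.exp ((m1 + m2) / 2) *
        (ZM (wTD N1 b X1.1) ((1 / (ξ : ℝ) ^ 2) • (1 : Matrix _ _ ℝ)) (X1.2 + fun _ => κ) *
          ZM (wTD N2 b X2.1) ((1 / (ξ : ℝ) ^ 2) • (1 : Matrix _ _ ℝ)) (X2.2 + fun _ => κ))) := by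
  have ht : 0 < 1 / (ξ : ℝ) ^ 2 := by positivity
  have hcm1 : c0.1 ≤ m + 1 := by have := hc.u1; omega
  have hcm2 : c0.2 ≤ m + 1 := by have := hc.u2; omega
  refine rfl_loc hb ht hN1 hN2 c c (lnZ N1 L1 q σ) (lnZ N2 L2 q σ) (κ1 := fun _ => κ)
    (κ2 := fun _ => κ) (fun _ => rfl) (fun _ => rfl) hX1 hX2 _ ?_
    (fun h1 h2 => G0_le_one m hb c0 r ρ _ _)
    (mul_nonneg (by norm_num) (mul_nonneg (Real.rpow_nonneg hea _) (Real.exp_pos _).le))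
    (ag_const e1 e2 hb hξ hκ hω1 hω2 hω (og x1 c0) (og x2 c0) hc hr hea h hδ1 hδ2) hm1 hm2
  intro h1 h1' h2 h2' k1 k2
  have g1 : (fun a d : Fin (m + 2) => h1 (pt (og x1 c0) a d)) =
      fun a d : Fin (m + 2) => h1' (pt (og x1 c0) a d) := by
    funext a d
    exact k1 _ (blk_right hN1 hx1 hcm1 hcm2 hq1 hq2 (by omega) (by omega))
  have g2 : (fun a d : Fin (m + 2) => h2 (pt (og x2 c0) a d)) =
      fun a d : Fin (m + 2) => h2' (pt (og x2 c0) a d) := by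
    funext a d
    exact k2 _ (blk_right hN2 hx2 hcm1 hcm2 hq1 hq3 (by omega) (by omega))
  show G0 m hb c0 r ρ _ _ = G0 m hb c0 r ρ _ _
  rw [g1, g2]

/-! ### mirror images in the letters of helper817 -/

section mirror

variable {K : ℕ} [NeZero K] {L' : ℕ} {b t : ℝ}

/-- the mirror image of an edge field -/
def thB (c : Bool) (a : ZMod K) (β : V K × Bool → ℝ) (e : V K × Bool) : ℝ :=
  if e.2 = c then -β (thE c a e) else β (thE c a e)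

lemma gr_ST (F : V K → ℝ) (e : V K × Bool) : H817.gr F e = F (eT K e) - F (eS K e) := by
  obtain ⟨x, d⟩ := e
  rw [H817.gr_eq, eT_eq]
  rfl

lemma eF_cmb (hK : K = 2 * L') (c : Bool) (a : ZMod K) (X : GE K) :
    eF (cmb (RgT hK c a) 0 X X).1 (cmb (RgT hK c a) 0 X X).2 =
      fun e => eF X.1 X.2 e + thB c a (eF X.1 X.2) e := by
  funext e
  unfold thB H817.eF
  rw [gr_ST, gr_ST, gr_ST]
  show (((X.1 e + sgn ((RgT hK c a).sg e) * X.1 (thE c a e) : ℤ) : ℝ)) +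
    (0 + X.2 (eT K e) + X.2 (thT c a (eT K e)) - (0 + X.2 (eS K e) + X.2 (thT c a (eS K e)))) = _
  by_cases h : e.2 = c
  · have hs : (RgT hK c a).sg e = false := by
      show (if e.2 = c then false else true) = false
      rw [if_pos h]
    have h1 := (RgT hK c a).or2 e hs
    have h2 : eS K (thE c a e) = thT c a (eT K e) := h1.1
    have h3 : eT K (thE c a e) = thT c a (eS K e) := h1.2
    have h4 : sgn false = -1 := rfl
    rw [if_pos h, hs, h2, h3, h4]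
    push_cast
    ring
  · have hs : (RgT hK c a).sg e = true := by
      show (if e.2 = c then false else true) = true
      rw [if_neg h]
    have h1 := (RgT hK c a).or1 e hs
    have h2 : eS K (thE c a e) = thT c a (eS K e) := h1.1
    have h3 : eT K (thE c a e) = thT c a (eT K e) := h1.2
    have h4 : sgn true = 1 := rfl
    rw [if_neg h, hs, h2, h3, h4]
    push_cast
    ring

/-- **the four point number in the letters of helper817** -/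
lemma mir_of_EZ (hb : 0 < b) (ht : 0 < t) {ω : ℝ}
    (hω1 : om0 K b (t • (1 : Matrix (Tor K) (Tor K) ℝ)) ≤ ω) (hω : ω ≤ 1 / 4) {κ : ℝ}
    (hκ : κ ∈ Set.Icc (0 : ℝ) 1) (hK : K = 2 * L') (c : Bool) (a : ZMod K) (X : GE K) {mm : ℝ}
    (h : 2 * EZ K b t (eF X.1 X.2) -
      EZ K b t (fun e => eF X.1 X.2 e + thB c a (eF X.1 X.2) e) ≤ mm) :
    ZM (wTD K b (cmb (RgT hK c a) (fun _ => κ) X X).1) (t • (1 : Matrix _ _ ℝ))
      (cmb (RgT hK c a) (fun _ => κ) X X).2 *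
      ZM (wT b K) (t • (1 : Matrix _ _ ℝ)) (fun _ => κ) ≤
      Real.exp (mm + 2) * ZM (wTD K b X.1) (t • (1 : Matrix _ _ ℝ)) (X.2 + fun _ => κ) ^ 2 := by
  have hMt : (t • (1 : Matrix (Tor K) (Tor K) ℝ)).transpose = t • 1 := by
    rw [Matrix.transpose_smul, Matrix.transpose_one]
  set Y := cmb (RgT hK c a) 0 X X with hY
  have hEY := H770.em_wTD (N := K) hb (M := t • (1 : Matrix (Tor K) (Tor K) ℝ)) Y.1 ht (mt_coer K)
  have hEX := H770.em_wTD (N := K) hb (M := t • (1 : Matrix (Tor K) (Tor K) ℝ)) X.1 ht (mt_coer K)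
  have hE0 := H770.em_wTD (N := K) hb (M := t • (1 : Matrix (Tor K) (Tor K) ℝ)) 0 ht (mt_coer K)
  have pY := H145.Zn_pos hMt hEY Y.2
  have pX := H145.Zn_pos hMt hEX X.2
  have p0 := H145.Zn_pos hMt hE0 (0 : Tor K → ℝ)
  have oY := oscZ_wTD hb hMt ht (mt_coer K) Y.1 Y.2 κ hκ
  have oX := oscZ_wTD hb hMt ht (mt_coer K) X.1 X.2 κ hκ
  have o0 := oscZ_wTD hb hMt ht (mt_coer K) (0 : Ed K → ℤ) 0 κ hκ
  have e0 : H145.cs (0 : Tor K → ℝ) κ = fun _ => κ := by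
    funext x
    show (0 : ℝ) + κ = κ
    rw [zero_add]
  have eY1 : (cmb (RgT hK c a) (fun _ => κ) X X).1 = Y.1 := rfl
  have eY2 : (cmb (RgT hK c a) (fun _ => κ) X X).2 = H145.cs Y.2 κ := by
    funext x
    show κ + X.2 x + X.2 (thT c a x) = 0 + X.2 x + X.2 (thT c a x) + κ
    ring
  have eX : (X.2 + fun _ => κ) = H145.cs X.2 κ := rfl
  rw [eY1, eY2, eX]
  rw [e0, H770.wTD_zero] at o0
  rw [H770.wTD_zero] at p0
  -- the neutral inequality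
  have key : Zn (wTD K b Y.1) (t • (1 : Matrix _ _ ℝ)) Y.2 *
      Zn (wT b K) (t • (1 : Matrix _ _ ℝ)) 0 ≤
      Real.exp mm * Zn (wTD K b X.1) (t • (1 : Matrix _ _ ℝ)) X.2 ^ 2 := by
    rw [← eF_cmb hK] at h
    unfold H817.EZ at h
    rw [zero_eF, ZE_eF hb, ZE_eF hb, ZE_eF hb, H770.wTD_zero, ← hY,
      Real.log_div pX.ne' p0.ne', Real.log_div pY.ne' p0.ne'] at h
    have h1 : Real.log (Zn (wTD K b Y.1) (t • (1 : Matrix _ _ ℝ)) Y.2 *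
        Zn (wT b K) (t • (1 : Matrix _ _ ℝ)) 0) ≤
        Real.log (Real.exp mm * Zn (wTD K b X.1) (t • (1 : Matrix _ _ ℝ)) X.2 ^ 2) := by
      rw [Real.log_mul pY.ne' p0.ne', Real.log_mul (Real.exp_pos _).ne' (pow_pos pX 2).ne',
        Real.log_exp, Real.log_pow]
      push_cast
      linarith
    exact (Real.log_le_log_iff (mul_pos pY p0) (by positivity)).1 h1
  set zY := Zn (wTD K b Y.1) (t • (1 : Matrix (V K) (V K) ℝ)) Y.2
  set zX := Zn (wTD K b X.1) (t • (1 : Matrix (V K) (V K) ℝ)) X.2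
  set z0 := Zn (wT b K) (t • (1 : Matrix (V K) (V K) ℝ)) 0
  have hω4 : om0 K b (t • (1 : Matrix (Tor K) (Tor K) ℝ)) ≤ 1 / 4 := hω1.trans hω
  have a1 : ZM (wTD K b Y.1) (t • (1 : Matrix _ _ ℝ)) (H145.cs Y.2 κ) ≤ 5 / 4 * zY := by
    have h1 := (abs_le.1 oY).2
    have h2 := mul_le_mul_of_nonneg_right hω4 pY.le
    linarith
  have a2 : ZM (wT b K) (t • (1 : Matrix _ _ ℝ)) (fun _ => κ) ≤ 5 / 4 * z0 := by
    have h1 := (abs_le.1 o0).2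
    have h2 := mul_le_mul_of_nonneg_right hω4 p0.le
    linarith
  have a3 : 3 / 4 * zX ≤ ZM (wTD K b X.1) (t • (1 : Matrix _ _ ℝ)) (H145.cs X.2 κ) := by
    have h1 := (abs_le.1 oX).1
    have h2 := mul_le_mul_of_nonneg_right hω4 pX.le
    linarith
  have q2 : 0 ≤ ZM (wT b K) (t • (1 : Matrix (V K) (V K) ℝ)) (fun _ => κ) :=
    (H37.ZM_pos hMt (H789.em_wM_wT hb.le ht (H789.coer_smul t)) _).le
  have h3 : (3 : ℝ) ≤ Real.exp 2 := by
    have := Real.add_one_le_exp (2 : ℝ)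
    linarith
  calc _ ≤ 5 / 4 * zY * (5 / 4 * z0) := mul_le_mul a1 a2 q2 (by positivity)
    _ = 25 / 16 * (zY * z0) := by ring
    _ ≤ 25 / 16 * (Real.exp mm * zX ^ 2) := by gcongr
    _ ≤ 3 * Real.exp mm * (3 / 4 * zX) ^ 2 := by
        have : 0 ≤ Real.exp mm * zX ^ 2 := by positivity
        nlinarith
    _ ≤ Real.exp (mm + 2) * (3 / 4 * zX) ^ 2 := by
        rw [Real.exp_add, mul_comm (Real.exp mm) (Real.exp 2)]
        gcongr
    _ ≤ _ := by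
        gcongr

/-- zero data -/
lemma mir_zero (hK : K = 2 * L') (κ : ℝ) (c : Bool) (a : ZMod K) :
    ZM (wTD K b (cmb (RgT hK c a) (fun _ => κ) (0 : GE K) (0 : GE K)).1)
      (t • (1 : Matrix _ _ ℝ)) (cmb (RgT hK c a) (fun _ => κ) (0 : GE K) (0 : GE K)).2 *
      ZM (wT b K) (t • (1 : Matrix _ _ ℝ)) (fun _ => κ) ≤
      Real.exp 0 * ZM (wTD K b (0 : GE K).1) (t • (1 : Matrix _ _ ℝ))
        ((0 : GE K).2 + fun _ => κ) ^ 2 := by
  rw [cmb_zero, Real.exp_zero, one_mul, zero_add, pow_two]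
  have e : ((0 : GE K).2 + fun _ : V K => κ) = fun _ => κ := by
    funext x
    show (0 : ℝ) + κ = κ
    rw [zero_add]
  have e2 : wTD K b (0 : GE K).1 = wT b K := H770.wTD_zero b
  have e3 : wTD K b ((0 : Ed K → ℤ), fun _ : V K => κ).1 = wT b K := H770.wTD_zero b
  rw [e, e2, e3]

end mirror

/-! ### (H6) with the chessboard numbers -/

/-- **(H6), rough data allowed** : `β` in the box of radius `L`, arms of radius `r`–`ρ` around the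
points of the square `sz = R`, blocks of side `m + 1`, lines at distance `q`; the only quantity of
`β` is the mixed difference `mm` of `β` and its mirror image -/
theorem h6_gen {N M : ℕ} [NeZero N] [NeZero M] {b : ℝ} (hb : 0 < b) {ξ : ℕ} (hξ : 0 < ξ)
    {L L' m n1 n2 q R r ρ : ℕ} [NeZero ((m + 1) * 2)] (hN : N = 2 * L')
    (e1 : N = (m + 1) * (n1 + 2)) (e2 : M * N = (m + 1) * (n2 + 2)) {c0 : ℕ × ℕ}
    (hc : InC m c0 ρ) (hr : r ≤ ρ) (hL : 4 * L ≤ N) (h1 : N + 4 < 4 * (R - ρ))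
    (h2 : 2 * (R + ρ + 2) < N) (hLq : L < q) (hqL : q + L < L') (hq1 : q + m + 1 ≤ R)
    (hq2 : R + m + 1 ≤ q + L') {J : Finset (V N)} (hJR : ∀ x ∈ J, sz x = R)
    (hJ : ∀ z : V N, sz z = R → ∃ x ∈ J, sz (z - x) ≤ r) {ω : ℝ}
    (hω1 : om0 N b ((1 / (ξ : ℝ) ^ 2) • (1 : Matrix (Tor N) (Tor N) ℝ)) ≤ ω)
    (hω2 : om0 (M * N) b ((1 / (ξ : ℝ) ^ 2) • (1 : Matrix (Tor (M * N)) (Tor (M * N)) ℝ)) ≤ ω)
    (hω : ω ≤ 1 / 4) {ea : ℝ} (hea : 0 ≤ ea)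
    (harm : ∀ κ ∈ Set.Icc (0 : ℝ) 1,
      ArmLe ((m + 1) * 2) b hb.le ξ (fun _ => κ) (pt 0 c0.1 c0.2) r ρ ea) {δ1 δ2 : ℝ}
    (hδ1 : ((n1 : ℝ) + 2) ^ 2 / 4 * Real.log (Z0 ((m + 1) * 2) b (1 / (ξ : ℝ) ^ 2)) -
      Real.log (Z0 N b (1 / (ξ : ℝ) ^ 2)) ≤ δ1)
    (hδ2 : ((n2 : ℝ) + 2) ^ 2 / 4 * Real.log (Z0 ((m + 1) * 2) b (1 / (ξ : ℝ) ^ 2)) -
      Real.log (Z0 (M * N) b (1 / (ξ : ℝ) ^ 2)) ≤ δ2)
    {β : V N × Bool → ℝ} (hβ : EG β) (hβ0 : ∀ e : V N × Bool, L < sz e.1 → β e = 0) {mm : ℝ}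
    (hm1 : ∀ c σ : Bool, 2 * EZ N b (1 / (ξ : ℝ) ^ 2) β -
      EZ N b (1 / (ξ : ℝ) ^ 2) (fun e => β e + thB c (lnZ N L' q σ) β e) ≤ mm)
    (hm2 : ∀ c σ : Bool, 2 * EZ (M * N) b (1 / (ξ : ℝ) ^ 2) (H817.ext M β) -
      EZ (M * N) b (1 / (ξ : ℝ) ^ 2)
        (fun e => H817.ext M β e + thB c (lnZ (M * N) (M * L') q σ) (H817.ext M β) e) ≤ mm)
    (hε : J.card * (√(4 * (ea ^ (1 / 4 : ℝ) * Real.exp (δ1 + δ2))) * Real.exp (mm / 2 + 1)) ≤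
      1 / 2) :
    |EZ (M * N) b (1 / (ξ : ℝ) ^ 2) (H817.ext M β) - EZ N b (1 / (ξ : ℝ) ^ 2) β| ≤
      2 * (J.card * (√(4 * (ea ^ (1 / 4 : ℝ) * Real.exp (δ1 + δ2))) *
        Real.exp (mm / 2 + 1))) + 8 * ω ^ 2 := by
  have ht : 0 < 1 / (ξ : ℝ) ^ 2 := by positivity
  set t : ℝ := 1 / (ξ : ℝ) ^ 2 with htd
  set E : ℝ := √(4 * (ea ^ (1 / 4 : ℝ) * Real.exp (δ1 + δ2))) * Real.exp (mm / 2 + 1) with hE
  have hE0 : 0 ≤ E := by positivity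
  have hM1 : 1 ≤ M := NeZero.one_le
  have hL'M : L' ≤ M * L' := Nat.le_mul_of_pos_left _ hM1
  have hN2 : M * N = 2 * (M * L') := by rw [hN]; ring
  have hsum : ∑ _x ∈ J, E = J.card * E := by rw [Finset.sum_const, nsmul_eq_mul]
  have key := h6 (ε := fun _ => E) hb ht hL h1 h2 hJR hJ hω1 hω2 (by linarith)
    (fun _ _ => hE0) (by rw [hsum]; exact hε) hβ hβ0 ?_
  · rwa [hsum] at key
  intro η F hβE hβX hη hF κ hκ x hx
  have hxR := hJR x hx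
  obtain ⟨c, σ, hcσ⟩ := co_ex hxR
  have hcσ2 : (co c (io N M x)).valMinAbs = sgi σ R := by
    rw [← hcσ]
    cases c
    · exact vma_io x.1
    · exact vma_io x.2
  have hη2 : ∀ e : V (M * N) × Bool, L < sz e.1 → eta2 M η e = 0 := by
    intro e he
    unfold eta2
    split_ifs with h
    · exact hη _ (by
        show L < sz (prj M e.1)
        rw [sz_prj (by omega)]
        exact he)
    · rfl
  have hF2 : ∀ v : V (M * N), L < sz v → F2 M F v = 0 := by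
    intro v hv
    unfold F2
    split_ifs with h
    · exact hF _ (by
        rw [sz_prj (by omega)]
        exact hv)
    · rfl
  have o1 : OnL (RgT hN c (lnZ N L' q σ)) ((η, F) : GE N) := onL_box hN hLq hqL c σ hη hF
  have o2 : OnL (RgT hN2 c (lnZ (M * N) (M * L') q σ)) ((eta2 M η, F2 M F) : GE (M * N)) :=
    onL_box hN2 hLq (by omega) c σ hη2 hF2
  have z1 : OnL (RgT hN c (lnZ N L' q σ)) (0 : GE N) := OnL.zero _
  have z2 : OnL (RgT hN2 c (lnZ (M * N) (M * L') q σ)) (0 : GE (M * N)) := OnL.zero _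
  have mA := mir_of_EZ (mm := mm) hb ht hω1 hω hκ hN c (lnZ N L' q σ) ((η, F) : GE N)
    (by rw [← hβE]; exact hm1 c σ)
  have mB := mir_of_EZ (mm := mm) hb ht hω2 hω hκ hN2 c (lnZ (M * N) (M * L') q σ)
    ((eta2 M η, F2 M F) : GE (M * N)) (by rw [← hβX]; exact hm2 c σ)
  have cA := mir_zero (b := b) (t := t) hN κ c (lnZ N L' q σ)
  have cB := mir_zero (b := b) (t := t) hN2 κ c (lnZ (M * N) (M * L') q σ)
  have eA : Real.exp ((mm + 2 + 0) / 2) = Real.exp (mm / 2 + 1) := by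
    congr 1
    ring
  have eB : Real.exp ((0 + (mm + 2)) / 2) = Real.exp (mm / 2 + 1) := by
    congr 1
    ring
  have hs : 2 * (sz x + ρ + 1) < N := by omega
  have hmN : m + 2 ≤ N := by omega
  have w1 : ∀ (K : ℕ) [NeZero K] (η : Ed K → ℤ) (F : Tor K → ℝ),
      ((η, F) : GE K) + (0, fun _ => κ) = (η, fun v => F v + κ) := fun K _ η F =>
    Prod.ext (add_zero _) rfl
  have w0 : ∀ (K : ℕ) [NeZero K], (0 : GE K) + (0, fun _ => κ) = (0, fun _ => κ) := fun K _ =>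
    zero_add _
  have v0 : ∀ (K : ℕ) [NeZero K], ((0 : GE K).2 + fun _ : V K => κ) = fun _ => κ := by
    intro K _
    funext x
    show (0 : ℝ) + κ = κ
    rw [zero_add]
  constructor
  · have hA := arm_rel hN hN2 e1 e2 hb hξ hκ hω1 hω2 hω hcσ hcσ2 hq1 hq2 (by omega) hc hr hea
      (harm κ hκ) hδ1 hδ2 o1 z2 mA cB
    rw [w1, w0, v0, eA] at hA
    rw [AF_G0 hb hmN hc hr hs η (fun v => F v + κ) 0 fun _ => κ]
    exact hA
  · have hA := arm_rel hN hN2 e1 e2 hb hξ hκ hω1 hω2 hω hcσ hcσ2 hq1 hq2 (by omega) hc hr hea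
      (harm κ hκ) hδ1 hδ2 z1 o2 cA mB
    rw [w0, w1, v0, eB] at hA
    rw [AF_G0 hb hmN hc hr hs 0 (fun _ => κ) (eta2 M η) fun u => F2 M F u + κ]
    exact hA

end

end Vale.Agent.P159.H280.Hs
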