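import Vale.Agent.P159.H280.Hs6

/-!
P159, (H6) / SW2 (helper280), part 7: the numbers.

Side `N = 8 B`, `B = m + 1` the side of the blocks, torus `M N`, `M = 2 ^ j`; square of radius
`R = 3 B`, lines at distance `q = 2 B = N / 4`.

* `h6_LN` : from helper474's structure `LN` on the two tori;
* `h6_T` : from Theorem A.
-/

set_option linter.unusedSectionVars false
set_option linter.unusedDecidableInType false

namespace Vale.Agent.P159.H280.Hs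

open scoped ENNReal
open Finset
open Vale.Agent.P159.H764 (ArmLe)
open Vale.Agent.P159.H474.Cb (Z0 pt LN ln_T Vol GE)
open Vale.Agent.P159.TM.Spec (V)
open Vale.Agent.P159.H817 (sz eb eF EG EZ)
open Vale.Agent.P159.TM.SpecC (Tor wT)
open Vale.Agent.P159.H612 (om0)
open Vale.Agent.P159.TM

noncomputable section

lemma Z0_congr {K K' : ℕ} (h : K = K') [NeZero K] [NeZero K'] (b t : ℝ) :
    Z0 K b t = Z0 K' b t := by
  subst h
  rfl

/-- the number of centres -/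
lemma card_num {N m ξ A : ℕ} [NeZero N] (hN : N = (m + 1) * 8) (hA : 1 ≤ A) (hAξ : A ≤ ξ)
    (hξB : ξ ≤ m + 1) :
    ((cen N (3 * (m + 1)) (ξ / A)).card : ℝ) ≤ 7 * A * (N / ξ) := by
  have h1 : ((cen N (3 * (m + 1)) (ξ / A)).card : ℝ) ≤
      ((8 * (3 * (m + 1) / (ξ / A) + 1) : ℕ) : ℝ) := by
    exact_mod_cast card_cen _ _
  have hξ : 0 < ξ := by omega
  have hξr : (0 : ℝ) < ξ := by exact_mod_cast hξ
  have hAr : (0 : ℝ) < A := by exact_mod_cast hA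
  have hr : 1 ≤ ξ / A := (Nat.one_le_div_iff (by omega)).2 hAξ
  have h2 : (ξ : ℝ) ≤ 2 * A * ((ξ / A : ℕ) : ℝ) := by
    have h3 : ξ < A * (ξ / A + 1) := Nat.lt_mul_div_succ ξ hA
    have h4 : ξ ≤ 2 * A * (ξ / A) := by nlinarith
    exact_mod_cast h4
  have hrr : (0 : ℝ) < ((ξ / A : ℕ) : ℝ) := by exact_mod_cast hr
  have h5 : ((3 * (m + 1) / (ξ / A) : ℕ) : ℝ) ≤ 6 * A * (((m : ℝ) + 1) / ξ) := by
    refine Nat.cast_div_le.trans ?_
    rw [div_le_iff₀ hrr]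
    have h6 : 6 * (A : ℝ) * (((m : ℝ) + 1) / ξ) * ((ξ / A : ℕ) : ℝ) =
        3 * ((m : ℝ) + 1) * ((2 * A * ((ξ / A : ℕ) : ℝ)) / ξ) := by
      field_simp
      ring
    rw [h6]
    have h7 : 1 ≤ (2 * A * ((ξ / A : ℕ) : ℝ)) / ξ := by rwa [one_le_div hξr]
    push_cast
    nlinarith
  have h8 : (1 : ℝ) ≤ ((m : ℝ) + 1) / ξ := by
    rw [one_le_div hξr]
    exact_mod_cast hξB
  have h9 : (1 : ℝ) ≤ A := by exact_mod_cast hA
  have hNr : (N : ℝ) = ((m : ℝ) + 1) * 8 := by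
    rw [hN]
    push_cast
    ring
  rw [hNr]
  push_cast at h1 ⊢
  have h10 : (0 : ℝ) ≤ ((m : ℝ) + 1) / ξ := by positivity
  have h11 : 7 * (A : ℝ) * (((m : ℝ) + 1) * 8 / ξ) = 56 * A * (((m : ℝ) + 1) / ξ) := by ring
  rw [h11]
  nlinarith

/-- **(H6) from the numbers of helper474** -/
theorem h6_LN {N M : ℕ} [NeZero N] [NeZero M] {b : ℝ} (hb : 0 < b) {ξ : ℕ} {m n2 : ℕ}
    [NeZero ((m + 1) * 2)] [NeZero ((m + 1) * (6 + 2))] [NeZero ((m + 1) * (n2 + 2))]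
    (hN : N = (m + 1) * 8) (hM : n2 + 2 = 8 * M) {A : ℕ} (hA : 1 ≤ A) (hAξ : A ≤ ξ)
    (hξB : 4 * ξ ≤ m + 1) (hξ2 : 2 ≤ ξ) {L₀ c C : ℝ} (hL₀ : 0 < L₀) (hc : 0 < c) (hC : 0 < C)
    (H1 : LN m 6 b hb ξ A L₀ c C) (H2 : LN m n2 b hb ξ A L₀ c C)
    (hMc : (M : ℝ) ^ 2 ≤ Real.exp (c * N / (4 * ξ))) {ω : ℝ}
    (hω1 : om0 N b ((1 / (ξ : ℝ) ^ 2) • (1 : Matrix (Tor N) (Tor N) ℝ)) ≤ ω)
    (hω2 : om0 (M * N) b ((1 / (ξ : ℝ) ^ 2) • (1 : Matrix (Tor (M * N)) (Tor (M * N)) ℝ)) ≤ ω)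
    (hω : ω ≤ 1 / 4) {L : ℕ} (hL : 7 * L ≤ N) {β : V N × Bool → ℝ} (hβ : EG β)
    (hβ0 : ∀ e : V N × Bool, L < sz e.1 → β e = 0) {mm : ℝ}
    (hm1 : ∀ c σ : Bool, 2 * EZ N b (1 / (ξ : ℝ) ^ 2) β -
      EZ N b (1 / (ξ : ℝ) ^ 2) (fun e => β e + thB c (lnZ N (N / 2) (N / 4) σ) β e) ≤ mm)
    (hm2 : ∀ c σ : Bool, 2 * EZ (M * N) b (1 / (ξ : ℝ) ^ 2) (H817.ext M β) -
      EZ (M * N) b (1 / (ξ : ℝ) ^ 2)
        (fun e => H817.ext M β e + thB c (lnZ (M * N) (M * (N / 2)) (N / 4) σ)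
          (H817.ext M β) e) ≤ mm)
    (hε : 28 * A * (1 + C) * Real.exp (16 * C + 1) * (N / ξ) * Real.exp (-(c * N / (256 * ξ))) *
      Real.exp (mm / 2) ≤ 1) :
    |EZ (M * N) b (1 / (ξ : ℝ) ^ 2) (H817.ext M β) - EZ N b (1 / (ξ : ℝ) ^ 2) β| ≤
      28 * A * (1 + C) * Real.exp (16 * C + 1) * (N / ξ) * Real.exp (-(c * N / (256 * ξ))) *
        Real.exp (mm / 2) + 8 * ω ^ 2 := by
  have hξ : 0 < ξ := by omega
  have hξr : (0 : ℝ) < ξ := by exact_mod_cast hξ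
  have hNr : (N : ℝ) = ((m : ℝ) + 1) * 8 := by
    rw [hN]
    push_cast
    ring
  have hN2 : N / 2 = 4 * (m + 1) := by omega
  have hN4 : N / 4 = 2 * (m + 1) := by omega
  have hMr : (n2 : ℝ) + 2 = 8 * M := by exact_mod_cast hM
  -- the arm number
  set ρ : ℕ := (m + 1) / 2 - 1 with hρ
  have hρ4 : ((m : ℝ) + 1) / 4 ≤ ρ := by
    have h1 : m + 1 ≤ 4 * ρ := by omega
    have h2 : ((m : ℝ) + 1) ≤ 4 * ρ := by exact_mod_cast h1
    linarith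
  set ea : ℝ := C * Real.exp (-(c * ρ / ξ)) with hea
  have hea0 : 0 ≤ ea := by positivity
  set D : ℝ := C * Real.exp (-(c * (2 * ((m : ℝ) + 1)) / ξ)) with hD
  have hD0 : 0 ≤ D := by positivity
  have v1 := H1.vol
  have v2 := H2.vol
  unfold Vol at v1 v2
  rw [← Z0_congr (K := N) (K' := (m + 1) * (6 + 2)) hN b _, ← hD] at v1
  rw [← Z0_congr (K := M * N) (K' := (m + 1) * (n2 + 2)) (by rw [hN, hM]; ring) b _, ← hD] at v2
  have hsmall : ((6 : ℕ) + 2 : ℝ) ^ 2 / 4 * D + ((n2 : ℝ) + 2) ^ 2 / 4 * D ≤ 32 * C := by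
    have h1 : D ≤ C := by
      rw [hD]
      refine mul_le_of_le_one_right hC.le (Real.exp_le_one_iff.2 ?_)
      have : 0 ≤ c * (2 * ((m : ℝ) + 1)) / ξ := by positivity
      linarith
    have h2 : (M : ℝ) ^ 2 * D ≤ C := by
      calc (M : ℝ) ^ 2 * D ≤ Real.exp (c * N / (4 * ξ)) * D :=
            mul_le_mul_of_nonneg_right hMc hD0
        _ = C * Real.exp (c * N / (4 * ξ) + -(c * (2 * ((m : ℝ) + 1)) / ξ)) := by
            rw [Real.exp_add, hD]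
            ring
        _ = C := by
            rw [hNr]
            have : c * (((m : ℝ) + 1) * 8) / (4 * ξ) + -(c * (2 * ((m : ℝ) + 1)) / ξ) = 0 := by
              field_simp
              ring
            rw [this, Real.exp_zero, mul_one]
    rw [hMr]
    push_cast
    nlinarith
  -- the error
  have hbig : (cen N (3 * (m + 1)) (ξ / A)).card * (√(4 * (ea ^ (1 / 4 : ℝ) *
      Real.exp (((6 : ℕ) + 2 : ℝ) ^ 2 / 4 * D + ((n2 : ℝ) + 2) ^ 2 / 4 * D))) *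
      Real.exp (mm / 2 + 1)) ≤ 14 * A * (1 + C) * Real.exp (16 * C + 1) * (N / ξ) *
        Real.exp (-(c * N / (256 * ξ))) * Real.exp (mm / 2) := by
    have hcard := card_num (A := A) hN hA hAξ (by omega : ξ ≤ m + 1)
    have h1 : ea ^ (1 / 4 : ℝ) ≤ (1 + C) * Real.exp (-(c * N / (128 * ξ))) := by
      rw [hea, Real.mul_rpow hC.le (Real.exp_pos _).le, ← Real.exp_mul]
      have h2 : C ^ (1 / 4 : ℝ) ≤ 1 + C := by
        calc C ^ (1 / 4 : ℝ) ≤ (1 + C) ^ (1 / 4 : ℝ) :=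
              Real.rpow_le_rpow hC.le (by linarith) (by norm_num)
          _ ≤ (1 + C) ^ (1 : ℝ) :=
              Real.rpow_le_rpow_of_exponent_le (by linarith) (by norm_num)
          _ = 1 + C := Real.rpow_one _
      refine mul_le_mul h2 (Real.exp_le_exp.2 ?_) (Real.exp_pos _).le (by linarith)
      rw [hNr]
      have h3 : c * (((m : ℝ) + 1) * 8) / (128 * ξ) = c * (((m : ℝ) + 1) / 4) / ξ * (1 / 4) := by
        field_simp
        ring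
      rw [h3, neg_mul]
      refine neg_le_neg (mul_le_mul_of_nonneg_right ?_ (by norm_num))
      gcongr
    have h4 : √(4 * (ea ^ (1 / 4 : ℝ) *
        Real.exp (((6 : ℕ) + 2 : ℝ) ^ 2 / 4 * D + ((n2 : ℝ) + 2) ^ 2 / 4 * D))) ≤
        2 * (1 + C) * Real.exp (16 * C) * Real.exp (-(c * N / (256 * ξ))) := by
      refine Real.sqrt_le_iff.2 ⟨by positivity, ?_⟩
      have h5 : (2 * (1 + C) * Real.exp (16 * C) * Real.exp (-(c * N / (256 * ξ)))) ^ 2 =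
          4 * (((1 + C) * ((1 + C) * Real.exp (-(c * N / (128 * ξ))))) * Real.exp (32 * C)) := by
        have e1 : Real.exp (16 * C) ^ 2 = Real.exp (32 * C) := by
          rw [← Real.exp_nat_mul]
          congr 1
          push_cast
          ring
        have e2 : Real.exp (-(c * N / (256 * ξ))) ^ 2 = Real.exp (-(c * N / (128 * ξ))) := by
          rw [← Real.exp_nat_mul]
          congr 1
          push_cast
          field_simp
          ring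
        rw [mul_pow, mul_pow, mul_pow, e1, e2]
        ring
      rw [h5]
      refine mul_le_mul_of_nonneg_left (mul_le_mul ?_ (Real.exp_le_exp.2 hsmall)
        (Real.exp_pos _).le (by positivity)) (by norm_num)
      refine h1.trans ?_
      have h6 : 0 ≤ (1 + C) * Real.exp (-(c * N / (128 * ξ))) := by positivity
      nlinarith
    have h7 : Real.exp (mm / 2 + 1) = Real.exp (mm / 2) * Real.exp 1 := Real.exp_add _ _
    have h8 : Real.exp (16 * C + 1) = Real.exp (16 * C) * Real.exp 1 := Real.exp_add _ _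
    rw [h7, h8]
    calc _ ≤ 7 * A * (N / ξ) * (2 * (1 + C) * Real.exp (16 * C) *
          Real.exp (-(c * N / (256 * ξ))) * (Real.exp (mm / 2) * Real.exp 1)) := by
          refine mul_le_mul hcard (mul_le_mul_of_nonneg_right h4 (by positivity))
            (by positivity) (by positivity)
      _ = _ := by ring
  -- the geometry
  have hM0 : 1 ≤ M := NeZero.one_le
  have key := h6_gen (N := N) (M := M) (L := L) (L' := N / 2) (m := m) (n1 := 6) (n2 := n2)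
    (q := N / 4) (R := 3 * (m + 1)) (r := ξ / A) (ρ := ρ) hb hξ (by omega) (by omega)
    (by rw [hN, hM]; ring) (c0 := ((m + 1) / 2, (m + 1) / 2))
    ⟨by show ρ + 1 ≤ (m + 1) / 2; omega, by show ρ + 1 ≤ (m + 1) / 2; omega,
      by show (m + 1) / 2 + ρ ≤ m; omega, by show (m + 1) / 2 + ρ ≤ m; omega⟩
    ((Nat.div_le_self _ _).trans (by omega)) (by omega) (by omega) (by omega) (by omega)
    (by omega) (by omega) (by omega) (J := cen N (3 * (m + 1)) (ξ / A))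
    (cen_sz (by omega)) (cen_cov ((Nat.one_le_div_iff (by omega)).2 hAξ) (by omega)) hω1 hω2 hω
    (ea := ea) hea0 (fun κ _ => H1.arm _ (fun x y => by
      rw [sub_self, abs_zero]
      positivity) _ _) v1 v2 hβ hβ0 hm1 hm2 ?_
  · refine key.trans (add_le_add ?_ le_rfl)
    linarith
  · linarith

/-- **(H6) from Theorem A** : `N = 8 (m + 1)`, `M = 2 ^ j`; the tori of sides `2 ^ k N / 4`,
`k ≤ j + 2`, are in the range of Theorem A -/
theorem h6_T {b1 b2 a : ℝ} (hb1 : 0 < b1) (hA6 : Spec.ThmA6 b1 b2 a) : ∃ W₀ : ℝ, ∀ W : ℝ,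
    W₀ ≤ W → ∃ c K η ys : ℝ, ∃ X : ℕ, 0 < c ∧ 0 < K ∧ 0 < η ∧ 0 < ys ∧ 8 ≤ X ∧
    ∀ (N M j m : ℕ) [NeZero N] [NeZero M] (b : ℝ) (_ : 0 < b) (ξ : ℕ), N = (m + 1) * 8 →
      M = 2 ^ j → 32 * ξ ≤ N → (M : ℝ) ^ 2 ≤ Real.exp (c * N / ξ) →
      (∀ k ≤ j + 2, ∃ y : ℝ, Spec.Rng b1 b2 a W ys X (2 ^ k * (2 * (m + 1))) b ξ y ∧
        ((2 ^ k * (2 * (m + 1)) : ℕ) : ℝ) ^ 2 * y ≤ η * (ξ : ℝ) ^ 2) →
      ∀ (ω : ℝ), om0 N b ((1 / (ξ : ℝ) ^ 2) • (1 : Matrix (Tor N) (Tor N) ℝ)) ≤ ω →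
      om0 (M * N) b ((1 / (ξ : ℝ) ^ 2) • (1 : Matrix (Tor (M * N)) (Tor (M * N)) ℝ)) ≤ ω →
      ω ≤ 1 / 4 → ∀ (L : ℕ), 7 * L ≤ N → ∀ (β : V N × Bool → ℝ), EG β →
      (∀ e : V N × Bool, L < sz e.1 → β e = 0) → ∀ (mm : ℝ),
      (∀ c σ : Bool, 2 * EZ N b (1 / (ξ : ℝ) ^ 2) β -
        EZ N b (1 / (ξ : ℝ) ^ 2) (fun e => β e + thB c (lnZ N (N / 2) (N / 4) σ) β e) ≤ mm) →
      (∀ c σ : Bool, 2 * EZ (M * N) b (1 / (ξ : ℝ) ^ 2) (H817.ext M β) -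
        EZ (M * N) b (1 / (ξ : ℝ) ^ 2)
          (fun e => H817.ext M β e + thB c (lnZ (M * N) (M * (N / 2)) (N / 4) σ)
            (H817.ext M β) e) ≤ mm) →
      K * (N / ξ) * Real.exp (-(c * N / ξ)) * Real.exp (mm / 2) ≤ 1 →
      |EZ (M * N) b (1 / (ξ : ℝ) ^ 2) (H817.ext M β) - EZ N b (1 / (ξ : ℝ) ^ 2) β| ≤
        K * (N / ξ) * Real.exp (-(c * N / ξ)) * Real.exp (mm / 2) + 8 * ω ^ 2 := by
  obtain ⟨W₀, h⟩ := ln_T (b2 := b2) (a := a) hb1 hA6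
  refine ⟨W₀, fun W hW => ?_⟩
  obtain ⟨L₀, c, C, η, ys, A, X, hL₀, hc, hC, hη, hys, hA, hAX, h⟩ := h W hW
  refine ⟨c / 256, 28 * A * (1 + C) * Real.exp (16 * C + 1), η, ys, X, by positivity,
    by positivity, hη, hys, hA.trans hAX, ?_⟩
  intro N M j m _ _ b hb ξ hN hM hξN hMc hR ω hω1 hω2 hω L hL β hβ hβ0 mm hm1 hm2 hε
  have hXξ : X ≤ ξ := by
    obtain ⟨y, hy, _⟩ := hR 0 (Nat.zero_le _)
    exact hy.hX
  have hξ : 0 < ξ := by omega
  have hξr : (0 : ℝ) < ξ := by exact_mod_cast hξ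
  have h2j : 1 ≤ 2 ^ j := Nat.one_le_two_pow
  obtain ⟨n2, hn2⟩ : ∃ n2, n2 + 2 = 8 * 2 ^ j := ⟨8 * 2 ^ j - 2, by omega⟩
  have i1 : NeZero ((m + 1) * 2) := ⟨by positivity⟩
  have i2 : NeZero ((m + 1) * (6 + 2)) := ⟨by positivity⟩
  have i3 : NeZero ((m + 1) * (n2 + 2)) := ⟨by positivity⟩
  have H1 := h m 6 2 b hb ξ (by norm_num) fun k hk => hR k (by omega)
  have H2 := h m n2 (j + 2) b hb ξ (by rw [hn2, pow_add, pow_add]; ring) hR
  have e1 : c / 256 * N / ξ = c * N / (256 * ξ) := by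
    rw [div_mul_eq_mul_div, div_div]
  rw [e1] at hε ⊢
  refine h6_LN hb hN (by rw [hn2, hM]) (by omega) (hAX.trans hXξ) (by omega) (by omega) hL₀ hc hC
    H1 H2 (hMc.trans (Real.exp_le_exp.2 ?_)) hω1 hω2 hω hL hβ hβ0 hm1 hm2 hε
  have e2 : c / 256 * N / ξ = c * N / (4 * ξ) / 64 := by
    rw [div_mul_eq_mul_div, div_div, div_div]
    congr 1
    ring
  rw [e2]
  have h3 : 0 ≤ c * N / (4 * ξ) := by positivity
  linarith

end

end Vale.Agent.P159.H280.Hs
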