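import Vale.Agent.P159.H474.Cb13
import Vale.Agent.P159.H817.St12
import Vale.Agent.P159.H612.OscD2

/-!
P159 / S (helper280): the price of a group element in the blocks of a grid, ONE text for a torus of
any side `K` (in the applications `K = (m+1)(n+2)`, also for `K = M * N`).

* `bk m s X` : folded data of the closed block with the corner `s` (helper474's `foE`, `foF`);
* `GOKK`, `QBK` : helper474's `GOK`, `QB` (`gokK_iff`, `qbK_iff`);
* `PRK` : **the price**: on every good grid the blocks cost `Q` with `Q Z0 ≤ e^pr Z(X)`;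
* `bk_gauge`, `same_eF`, `PRK.eF` : gauge covariance: the price sees the edge field and the constant;
* `PRS` : the price of an EDGE FIELD, neutral letters (row 7559 (2) of helper612), `PRS.of_one` : one
  representative is enough, `PRS.pt` : the pointwise form.
-/

set_option linter.unusedSectionVars false

namespace Vale.Agent.P159.H280.Hs

open Finset
open Vale.Agent.P159.H37 (ZM Zn qf re)
open Vale.Agent.P159.H770 (Ed eS eT wTD grd)
open Vale.Agent.P159.TM.SpecC (Tor wT)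
open Vale.Agent.P159.H353 (wI)
open Vale.Agent.P159.H474.Cb (GE ZG Z0 pt fo fc foE foF trD trF QB GOK foG fo_succ fo_eq)
open Vale.Agent.P159.H817 (eF gi eF_inj)

noncomputable section

/-- the folded background of the closed block with the corner `s` -/
def bkF (m : ℕ) {K : ℕ} (s : Tor K) (F : Tor K → ℝ) (x : Tor ((m + 1) * 2)) : ℝ :=
  F (pt s (fo m x.1) (fo m x.2))

/-- the folded dislocation of the closed block with the corner `s` -/
def bkE (m : ℕ) {K : ℕ} (s : Tor K) (η : Ed K → ℤ) (e : Ed ((m + 1) * 2)) : ℤ :=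
  if e.2 then
    (if e.1.2.val < m + 1 then η (pt s (fo m e.1.1) e.1.2.val, true)
    else -η (pt s (fo m e.1.1) ((m + 1) * 2 - 1 - e.1.2.val), true))
  else
    (if e.1.1.val < m + 1 then η (pt s e.1.1.val (fo m e.1.2), false)
    else -η (pt s ((m + 1) * 2 - 1 - e.1.1.val) (fo m e.1.2), false))

/-- the folded group element of the closed block with the corner `s` -/
def bk (m : ℕ) {K : ℕ} (s : Tor K) (X : GE K) : GE ((m + 1) * 2) := (bkE m s X.1, bkF m s X.2)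

/-- the corner of the block `(i, j)` of the grid with the origin `s` -/
def cnr (m : ℕ) {K : ℕ} (s : Tor K) (i j : ℕ) : Tor K := pt s ((m + 1) * i) ((m + 1) * j)

lemma pt_cnr (m : ℕ) {K : ℕ} (s : Tor K) (i j a c : ℕ) :
    pt (cnr m s i j) a c =
      ((((m + 1) * i + a : ℕ) : ZMod K), (((m + 1) * j + c : ℕ) : ZMod K)) + s := by
  unfold cnr pt
  refine Prod.ext ?_ ?_
  · push_cast
    show (a : ZMod K) + (((m : ZMod K) + 1) * i + s.1) = ((m : ZMod K) + 1) * i + a + s.1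
    ring
  · push_cast
    show (c : ZMod K) + (((m : ZMod K) + 1) * j + s.2) = ((m : ZMod K) + 1) * j + c + s.2
    ring

lemma foF_bk {n m : ℕ} (s : Tor ((m + 1) * n)) (F : Tor ((m + 1) * n) → ℝ) (i j : ℕ) :
    foF m (trF s F) i j = bkF m (cnr m s i j) F := by
  funext x
  unfold foF bkF trF
  rw [pt_cnr]

lemma foE_bk {n m : ℕ} (s : Tor ((m + 1) * n)) (η : Ed ((m + 1) * n) → ℤ) (i j : ℕ) :
    foE m (trD s η) i j = bkE m (cnr m s i j) η := by
  funext e
  unfold foE bkE trD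
  simp only [pt_cnr]

lemma cnr_zero (m : ℕ) {K : ℕ} (s : Tor K) : cnr m s 0 0 = s := by
  unfold cnr pt
  simp

section defs

variable {K : ℕ}

/-- the grid with origin `s` has the points `Pc` at distance at least `κ` from its lines and not in
the block `(0, 0)` (helper474's `GOK`) -/
def GOKK (m κ : ℕ) (Pc : Finset (Tor K)) (s : Tor K) : Prop :=
  ∀ p ∈ Pc, ((κ ≤ (p - s).1.val % (m + 1) ∧ (p - s).1.val % (m + 1) + κ + 1 ≤ m + 1) ∧
    (κ ≤ (p - s).2.val % (m + 1) ∧ (p - s).2.val % (m + 1) + κ + 1 ≤ m + 1)) ∧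
    ¬ ((p - s).1.val < m + 1 ∧ (p - s).2.val < m + 1)

/-- the blocks other than `(0, 0)` of the grid with origin `s` cost together at most `Q`
(helper474's `QB`) -/
def QBK (m n : ℕ) [NeZero ((m + 1) * 2)] (b t : ℝ) (X : GE K) (s : Tor K) (Q : ℝ) : Prop :=
  ∃ q : Fin (n + 2) × Fin (n + 2) → ℝ, (∀ p, 0 ≤ q p) ∧
    (∀ p : Fin (n + 2) × Fin (n + 2), p ≠ (0, 0) →
      ZG ((m + 1) * 2) b t (bk m (cnr m s p.1 p.2) X) ≤ q p * Z0 ((m + 1) * 2) b t) ∧
    ∏ p ∈ univ.erase (0, 0), q p ^ (1 / 4 : ℝ) ≤ Q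

/-- **the price** : on every good grid the blocks cost `Q` with `Q Z0 ≤ e^pr Z(X)` -/
def PRK (m n κ : ℕ) [NeZero K] [NeZero ((m + 1) * 2)] (b t : ℝ) (Pc : Finset (Tor K)) (X : GE K)
    (pr : ℝ) : Prop :=
  ∀ s : Tor K, GOKK m κ Pc s → ∃ Q : ℝ, 0 ≤ Q ∧ QBK m n b t X s Q ∧
    Q * Z0 K b t ≤ Real.exp pr * ZG K b t X

end defs

lemma gokK_iff {m n κ : ℕ} {Pc : Finset (Tor ((m + 1) * (n + 2)))}
    {s : Tor ((m + 1) * (n + 2))} : GOKK m κ Pc s ↔ GOK m n κ Pc s := Iff.rfl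

lemma qbK_iff {m n : ℕ} [NeZero ((m + 1) * (n + 2))] [NeZero ((m + 1) * 2)] {b t : ℝ}
    {X : GE ((m + 1) * (n + 2))} {s : Tor ((m + 1) * (n + 2))} {Q : ℝ} :
    QBK m n b t X s Q ↔ QB m n b t X s Q := by
  unfold QBK QB
  have e : ∀ p : Fin (n + 2) × Fin (n + 2),
      ZM (wTD ((m + 1) * 2) b (foE m (trD s X.1) p.1 p.2)) (t • (1 : Matrix _ _ ℝ))
        (foF m (trF s X.2) p.1 p.2) = ZG ((m + 1) * 2) b t (bk m (cnr m s p.1 p.2) X) := by
    intro p
    rw [foE_bk, foF_bk]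
    rfl
  simp only [e]

/-! ### gauge covariance -/

section gauge

variable {K : ℕ} {m : ℕ} [NeZero ((m + 1) * 2)]

lemma bkF_add (s : Tor K) (F G : Tor K → ℝ) : bkF m s (F + G) = bkF m s F + bkF m s G := rfl

lemma bkF_re (s : Tor K) (k : Tor K → ℤ) : bkF m s (re k) = re (foG m s k) := rfl

lemma bkE_add (s : Tor K) (η η' : Ed K → ℤ) : bkE m s (η + η') = bkE m s η + bkE m s η' := by
  funext e
  unfold bkE
  simp only [Pi.add_apply]
  split_ifs <;> ring

lemma eT_pt_false' (s : Tor K) (a c : ℕ) : eT K (pt s a c, false) = pt s (a + 1) c := by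
  unfold eT pt
  simp only [Bool.false_eq_true, if_false]
  refine Prod.ext ?_ ?_
  · push_cast
    show (a : ZMod K) + s.1 + 1 = (a : ZMod K) + 1 + s.1
    ring
  · push_cast
    show (c : ZMod K) + s.2 + 0 = (c : ZMod K) + s.2
    ring

lemma eT_pt_true' (s : Tor K) (a c : ℕ) : eT K (pt s a c, true) = pt s a (c + 1) := by
  unfold eT pt
  simp only [if_true]
  refine Prod.ext ?_ ?_
  · push_cast
    show (a : ZMod K) + s.1 + 0 = (a : ZMod K) + s.1
    ring
  · push_cast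
    show (c : ZMod K) + s.2 + 1 = (c : ZMod K) + 1 + s.2
    ring

/-- the folded gradient is the gradient of the folded function -/
lemma bkE_gi (s : Tor K) (k : Tor K → ℤ) :
    bkE m s (grd (eS K) (eT K) k) = grd (eS ((m + 1) * 2)) (eT ((m + 1) * 2)) (foG m s k) := by
  funext e
  obtain ⟨⟨x1, x2⟩, o⟩ := e
  show bkE m s (grd (eS K) (eT K) k) ((x1, x2), o) =
    foG m s k (eT _ ((x1, x2), o)) - foG m s k (eS _ ((x1, x2), o))
  have g1 : ∀ a c, grd (eS K) (eT K) k (pt s a c, false) = k (pt s (a + 1) c) - k (pt s a c) := by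
    intro a c
    show k (eT K (pt s a c, false)) - k (pt s a c) = _
    rw [eT_pt_false']
  have g2 : ∀ a c, grd (eS K) (eT K) k (pt s a c, true) = k (pt s a (c + 1)) - k (pt s a c) := by
    intro a c
    show k (eT K (pt s a c, true)) - k (pt s a c) = _
    rw [eT_pt_true']
  have hs1 := fo_succ m x1
  have hs2 := fo_succ m x2
  have hf1 := fo_eq m x1
  have hf2 := fo_eq m x2
  have hc1 : fc m x1 = if x1.val < m + 1 then x1.val else (m + 1) * 2 - 1 - x1.val := rfl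
  have hc2 : fc m x2 = if x2.val < m + 1 then x2.val else (m + 1) * 2 - 1 - x2.val := rfl
  cases o
  · have a1 : eT ((m + 1) * 2) ((x1, x2), false) = (x1 + 1, x2) := by simp [eT]
    have a2 : eS ((m + 1) * 2) ((x1, x2), false) = (x1, x2) := rfl
    rw [a1, a2]
    unfold foG bkE
    simp only [Bool.false_eq_true, if_false]
    by_cases c1 : x1.val < m + 1
    · simp only [c1, if_true] at hc1 hs1 hf1 ⊢
      rw [hs1, hf1, hc1, g1]
    · simp only [c1, if_false] at hc1 hs1 hf1 ⊢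
      rw [hs1, hf1, hc1, g1]
      ring
  · have a1 : eT ((m + 1) * 2) ((x1, x2), true) = (x1, x2 + 1) := by simp [eT]
    have a2 : eS ((m + 1) * 2) ((x1, x2), true) = (x1, x2) := rfl
    rw [a1, a2]
    unfold foG bkE
    simp only [if_true]
    by_cases c1 : x2.val < m + 1
    · simp only [c1, if_true] at hc2 hs2 hf2 ⊢
      rw [hs2, hf2, hc2, g2]
    · simp only [c1, if_false] at hc2 hs2 hf2 ⊢
      rw [hs2, hf2, hc2, g2]
      ring

/-- gauge invariance of the partition function of a group element -/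
lemma ZG_gauge [NeZero K] (b t : ℝ) (η : Ed K → ℤ) (k : Tor K → ℤ) (F : Tor K → ℝ) :
    ZG K b t (η + grd (eS K) (eT K) k, F) = ZG K b t (η, F + re k) :=
  H770.ZM_gauge (s := eS K) (t := eT K) (I := fun _ => wI b) (t • (1 : Matrix (Tor K) (Tor K) ℝ))
    η k F

/-- **gauge covariance of the folded data** -/
lemma bk_gauge (b t : ℝ) (s : Tor K) (η : Ed K → ℤ) (k : Tor K → ℤ) (F : Tor K → ℝ) :
    ZG ((m + 1) * 2) b t (bk m s (η + grd (eS K) (eT K) k, F)) =
      ZG ((m + 1) * 2) b t (bk m s (η, F + re k)) := by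
  unfold bk
  show ZG ((m + 1) * 2) b t (bkE m s (η + grd (eS K) (eT K) k), bkF m s F) =
    ZG ((m + 1) * 2) b t (bkE m s η, bkF m s (F + re k))
  rw [bkE_add, bkE_gi, bkF_add, bkF_re, ZG_gauge]

/-- two group elements with the same edge field -/
lemma eF_gauge [NeZero K] {X Y : GE K} (h : eF X.1 X.2 = eF Y.1 Y.2) :
    ∃ (k : Tor K → ℤ) (c : ℝ), Y.1 = X.1 + grd (eS K) (eT K) k ∧
      X.2 = (Y.2 + fun _ => c) + re k := by
  obtain ⟨k, c, h1, h2⟩ := eF_inj h
  refine ⟨k, c, h1, ?_⟩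
  funext x
  rw [h2 x]
  simp only [Pi.add_apply]
  ring

/-- the constant background (the same text as helper474's `cst`) -/
def cstK (K : ℕ) (c : ℝ) : GE K := (0, fun _ => c)

/-- the partition function and the block numbers see the edge field and the constant -/
theorem same_eF [NeZero K] {X Y : GE K} (h : eF X.1 X.2 = eF Y.1 Y.2) (b t : ℝ) : ∃ c : ℝ,
    ZG K b t X = ZG K b t (Y + cstK K c) ∧ ∀ s : Tor K,
      ZG ((m + 1) * 2) b t (bk m s X) = ZG ((m + 1) * 2) b t (bk m s (Y + cstK K c)) := by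
  obtain ⟨k, c, h1, h2⟩ := eF_gauge h
  have e1 : X = (X.1, (Y.2 + fun _ => c) + re k) := Prod.ext rfl h2
  have e2 : Y + cstK K c = (X.1 + grd (eS K) (eT K) k, Y.2 + fun _ => c) := by
    refine Prod.ext ?_ rfl
    show Y.1 + 0 = _
    rw [add_zero, h1]
  refine ⟨c, ?_, fun s => ?_⟩
  · rw [e2, ZG_gauge]
    exact congrArg _ e1
  · rw [e2, bk_gauge]
    exact congrArg (fun Z => ZG ((m + 1) * 2) b t (bk m s Z)) e1

/-- **the price sees the edge field only** (if it holds at all constants) -/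
theorem PRK.eF [NeZero K] {n κ : ℕ} {b t pr : ℝ} {Pc : Finset (Tor K)} {Y : GE K}
    (h : ∀ c : ℝ, PRK m n κ b t Pc (Y + cstK K c) pr) {X : GE K}
    (hX : H817.eF X.1 X.2 = H817.eF Y.1 Y.2) : PRK m n κ b t Pc X pr := by
  obtain ⟨c, h1, h2⟩ := same_eF (m := m) hX b t
  intro s hs
  obtain ⟨Q, q0, ⟨q, a1, a2, a3⟩, q2⟩ := h c s hs
  refine ⟨Q, q0, ⟨q, a1, fun p hp => ?_, a3⟩, ?_⟩
  · rw [h2]
    exact a2 p hp
  · rw [h1]
    exact q2

end gauge

/-! ### the price of an edge field -/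

section edge

variable {K : ℕ} [NeZero K] {m n κ : ℕ} [NeZero ((m + 1) * 2)] {b t pr : ℝ}

/-- **the price of the edge field `β`** at mass `t`, points `Pc` -/
def PRS (m n κ : ℕ) [NeZero ((m + 1) * 2)] (b t : ℝ) (Pc : Finset (Tor K)) (β : Ed K → ℝ)
    (pr : ℝ) : Prop :=
  ∀ Y : GE K, eF Y.1 Y.2 = β → ∃ Q : ℝ, 0 ≤ Q ∧
    (∀ (c : ℝ) (s : Tor K), GOKK m κ Pc s → QBK m n b t (Y + cstK K c) s Q) ∧
    Q * Zn (wTD K b 0) (t • (1 : Matrix (Tor K) (Tor K) ℝ)) 0 ≤
      Real.exp pr * Zn (wTD K b Y.1) (t • (1 : Matrix (Tor K) (Tor K) ℝ)) Y.2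

lemma cstK_add (c c' : ℝ) : cstK K c + cstK K c' = cstK K (c + c') := by
  refine Prod.ext ?_ ?_
  · show (0 : Ed K → ℤ) + 0 = 0
    rw [add_zero]
  · rfl

/-- one representative is enough -/
theorem PRS.of_one (hb : 0 < b) {Pc : Finset (Tor K)} {β : Ed K → ℝ} {Y : GE K}
    (hY : eF Y.1 Y.2 = β) {Q : ℝ} (hQ : 0 ≤ Q)
    (h1 : ∀ (c : ℝ) (s : Tor K), GOKK m κ Pc s → QBK m n b t (Y + cstK K c) s Q)
    (h2 : Q * Zn (wTD K b 0) (t • (1 : Matrix (Tor K) (Tor K) ℝ)) 0 ≤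
      Real.exp pr * Zn (wTD K b Y.1) (t • (1 : Matrix (Tor K) (Tor K) ℝ)) Y.2) :
    PRS m n κ b t Pc β pr := by
  intro X hX
  have hXY : H817.eF X.1 X.2 = H817.eF Y.1 Y.2 := hX.trans hY.symm
  refine ⟨Q, hQ, fun c s hs => ?_, ?_⟩
  · have e1 : ∀ Z : GE K, H817.eF (Z + cstK K c).1 (Z + cstK K c).2 = H817.eF Z.1 Z.2 := by
      intro Z
      have e2 : (Z + cstK K c).1 = Z.1 := by
        show Z.1 + 0 = Z.1
        rw [add_zero]
      rw [e2]
      funext e
      obtain ⟨x, o⟩ := e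
      unfold H817.eF
      rw [H817.gr_eq, H817.gr_eq]
      show _ + ((Z.2 (x + H817.eb o) + c) - (Z.2 x + c)) = _
      ring
    obtain ⟨c', _, h4⟩ := same_eF (m := m) (((e1 X).trans hXY).trans rfl) b t
    obtain ⟨q, a1, a2, a3⟩ := h1 c' s hs
    refine ⟨q, a1, fun p hp => ?_, a3⟩
    rw [h4]
    exact a2 p hp
  · rw [H817.Zn_eF hb hXY]
    exact h2

/-- **the pointwise form** -/
theorem PRS.pt (hb : 0 < b) (ht : 0 < t) {Pc : Finset (Tor K)} {β : Ed K → ℝ}
    (h : PRS m n κ b t Pc β pr)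
    (hω : H612.om0 K b (t • (1 : Matrix (Tor K) (Tor K) ℝ)) ≤ 1 / 4) {X : GE K}
    (hX : eF X.1 X.2 = β) : ∃ Q : ℝ, 0 ≤ Q ∧
    (∀ (c : ℝ) (s : Tor K), GOKK m κ Pc s → QBK m n b t (X + cstK K c) s Q) ∧
    ∀ c ∈ Set.Icc (0 : ℝ) 1, Q * Z0 K b t ≤ Real.exp (pr + 1) * ZG K b t (X + cstK K c) := by
  obtain ⟨Q, q0, q1, q2⟩ := h X hX
  refine ⟨Q, q0, q1, fun c hc => ?_⟩
  have hMt : (t • (1 : Matrix (Tor K) (Tor K) ℝ)).transpose = t • 1 := by
    rw [Matrix.transpose_smul, Matrix.transpose_one]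
  have hM : ∀ u : Tor K → ℝ, t * ∑ x, u x ^ 2 ≤ qf (t • (1 : Matrix (Tor K) (Tor K) ℝ)) u :=
    H789.coer_smul t
  have hEX := H770.em_wTD (N := K) hb (M := t • (1 : Matrix (Tor K) (Tor K) ℝ)) X.1 ht hM
  have hE0 := H770.em_wTD (N := K) hb (M := t • (1 : Matrix (Tor K) (Tor K) ℝ)) 0 ht hM
  have pX := H145.Zn_pos hMt hEX X.2
  have p0 := H145.Zn_pos hMt hE0 (0 : Tor K → ℝ)
  have oX := H612.oscZ_wTD hb hMt ht hM X.1 X.2 c hc
  have o0 := H612.oscZ_wTD hb hMt ht hM (0 : Ed K → ℤ) 0 0 ⟨le_rfl, zero_le_one⟩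
  rw [H145.cs_zero] at o0
  have eX : ZG K b t (X + cstK K c) =
      ZM (wTD K b X.1) (t • (1 : Matrix (Tor K) (Tor K) ℝ)) (H145.cs X.2 c) := by
    unfold ZG
    have e2 : (X + cstK K c).1 = X.1 := by
      show X.1 + 0 = X.1
      rw [add_zero]
    rw [e2]
    rfl
  have e0 : Z0 K b t = ZM (wTD K b 0) (t • (1 : Matrix (Tor K) (Tor K) ℝ)) 0 := by
    unfold Z0
    rw [H770.wTD_zero]
  rw [eX, e0]
  set zX := Zn (wTD K b X.1) (t • (1 : Matrix (Tor K) (Tor K) ℝ)) X.2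
  set z0 := Zn (wTD K b 0) (t • (1 : Matrix (Tor K) (Tor K) ℝ)) 0
  have a1 : ZM (wTD K b 0) (t • (1 : Matrix (Tor K) (Tor K) ℝ)) 0 ≤ 5 / 4 * z0 := by
    have h1 := (abs_le.1 o0).2
    have h2 := mul_le_mul_of_nonneg_right hω p0.le
    linarith
  have a2 : 3 / 4 * zX ≤ ZM (wTD K b X.1) (t • (1 : Matrix (Tor K) (Tor K) ℝ))
      (H145.cs X.2 c) := by
    have h1 := (abs_le.1 oX).1
    have h2 := mul_le_mul_of_nonneg_right hω pX.le
    linarith
  have h3 : (2 : ℝ) ≤ Real.exp 1 := by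
    have := Real.add_one_le_exp (1 : ℝ)
    linarith
  have h4 : 0 < Real.exp pr * zX := by positivity
  calc Q * ZM (wTD K b 0) (t • (1 : Matrix (Tor K) (Tor K) ℝ)) 0 ≤ Q * (5 / 4 * z0) :=
        mul_le_mul_of_nonneg_left a1 q0
    _ = 5 / 4 * (Q * z0) := by ring
    _ ≤ 5 / 4 * (Real.exp pr * zX) := by linarith
    _ ≤ 2 * (3 / 4 * (Real.exp pr * zX)) := by linarith
    _ ≤ Real.exp 1 * (3 / 4 * (Real.exp pr * zX)) :=
        mul_le_mul_of_nonneg_right h3 (by positivity)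
    _ = Real.exp (pr + 1) * (3 / 4 * zX) := by
        rw [Real.exp_add]
        ring
    _ ≤ _ := mul_le_mul_of_nonneg_left a2 (Real.exp_pos _).le

end edge

end

end Vale.Agent.P159.H280.Hs
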