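import Vale.Agent.P159.H280.Hs7
import Vale.Agent.P159.H280.Prk

/-!
P159, (H6) / SW2 (helper280), part 8: **(H6) from the price of the edge field**.

* `ag_Q` : the arm integral of two tori, any data, with block numbers;
* `grid_K` : the grid around a point of the ring, for the points of both tori;
* `h6_PR` : (H6) from `PRS` of `β` on the torus `N` and of `ext M β` on the torus `M N`.
-/

set_option linter.unusedSectionVars false
set_option linter.unusedDecidableInType false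

namespace Vale.Agent.P159.H280.Hs

open scoped ENNReal
open Finset
open Vale.Agent.P159.H764 (VB ArmLe ev_arm Dp)
open Vale.Agent.P159.H474.Cb (wDC Z0 pt foE foF fo trD trF arm_vol Z0_pos GE ZG grid_choice)
open Vale.Agent.P159.TM.Spec (V)
open Vale.Agent.P159.H817 (sz eb prj sz_step sz_add_le sz_neg prj_add prj_eb vma_add prj_inj
  vma_pr1 sz_prj prj_sub pr1 eF EG EZ)
open Vale.Agent.P159.H353 (wI)
open Vale.Agent.P159.H37 (ZM Zn qf re)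
open Vale.Agent.P159.H770 (eS eT wTD Ed wI_pos)
open Vale.Agent.P159.TM.SpecC (Tor wT)
open Vale.Agent.P159.TM.H459 (ball mem_ball sd)
open Vale.Agent.P159.H612 (om0 oscZ_wTD)

noncomputable section

/-! ### the arm integral with block numbers -/

/-- **the arm integral of two tori, any data** which are dislocation free and constant on the
block `(0, 0)` -/
theorem ag_Q {m : ℕ} {b : ℝ} {c0 : ℕ × ℕ} {ρ N1 N2 n1 n2 : ℕ} [NeZero N1] [NeZero N2]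
    [NeZero ((m + 1) * 2)] (e1 : N1 = (m + 1) * (n1 + 2)) (e2 : N2 = (m + 1) * (n2 + 2))
    (hb : 0 < b) {ξ : ℕ} (hξ : 0 < ξ) {κ : ℝ} (s1 : Tor N1) (s2 : Tor N2) {X1 : GE N1}
    {X2 : GE N2} (f1 : bkE m s1 X1.1 = 0) (g1 : bkF m s1 X1.2 = fun _ => κ)
    (f2 : bkE m s2 X2.1 = 0) (g2 : bkF m s2 X2.2 = fun _ => κ) (hc : InC m c0 ρ) {r : ℕ}
    (hr : r ≤ ρ) {ea : ℝ} (hea : 0 ≤ ea)
    (h : ArmLe ((m + 1) * 2) b hb.le ξ (fun _ => κ) (pt 0 c0.1 c0.2) r ρ ea) {Q1 Q2 : ℝ}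
    (hQ1 : QBK m n1 b (1 / (ξ : ℝ) ^ 2) X1 s1 Q1) (hQ2 : QBK m n2 b (1 / (ξ : ℝ) ^ 2) X2 s2 Q2)
    {δ1 δ2 : ℝ}
    (hδ1 : ((n1 : ℝ) + 2) ^ 2 / 4 * Real.log (Z0 ((m + 1) * 2) b (1 / (ξ : ℝ) ^ 2)) -
      Real.log (Z0 N1 b (1 / (ξ : ℝ) ^ 2)) ≤ δ1)
    (hδ2 : ((n2 : ℝ) + 2) ^ 2 / 4 * Real.log (Z0 ((m + 1) * 2) b (1 / (ξ : ℝ) ^ 2)) -
      Real.log (Z0 N2 b (1 / (ξ : ℝ) ^ 2)) ≤ δ2) :
    ∑' h1 : Tor N1 → ℤ, ∑' h2 : Tor N2 → ℤ,
      ENNReal.ofReal (wDC N1 b (1 / (ξ : ℝ) ^ 2) X1.1 X1.2 h1) *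
        ENNReal.ofReal (wDC N2 b (1 / (ξ : ℝ) ^ 2) X2.1 X2.2 h2) *
        G0 m hb c0 r ρ (fun a d => h1 (pt s1 a d)) (fun a d => h2 (pt s2 a d)) ≤
      ENNReal.ofReal (ea ^ (1 / 4 : ℝ) * Real.exp (δ1 + δ2) *
        (Q1 * Z0 N1 b (1 / (ξ : ℝ) ^ 2) * (Q2 * Z0 N2 b (1 / (ξ : ℝ) ^ 2)))) := by
  subst e1 e2
  have ht : 0 < 1 / (ξ : ℝ) ^ 2 := by positivity
  obtain ⟨q1, a1, a2, a3⟩ := hQ1
  obtain ⟨q2, c1, c2, c3⟩ := hQ2
  have key := arm_vol (m := m) hb ht X1.1 X1.2 X2.1 X2.2 s1 s2 (G0 m hb c0 r ρ)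
    (G0_le_one m hb c0 r ρ) q1 q2 a1 c1
    (fun p hp => by
      rw [foE_bk, foF_bk]
      exact a2 p hp)
    (fun p hp => by
      rw [foE_bk, foF_bk]
      exact c2 p hp) hea ?_ hδ1 hδ2
  · refine key.trans (ENNReal.ofReal_le_ofReal ?_)
    have p1 : 0 ≤ ∏ p ∈ (univ : Finset (Fin (n1 + 2) × Fin (n1 + 2))).erase (0, 0),
        q1 p ^ (1 / 4 : ℝ) := Finset.prod_nonneg fun p _ => Real.rpow_nonneg (a1 p) _
    have p2 : 0 ≤ ∏ p ∈ (univ : Finset (Fin (n2 + 2) × Fin (n2 + 2))).erase (0, 0),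
        q2 p ^ (1 / 4 : ℝ) := Finset.prod_nonneg fun p _ => Real.rpow_nonneg (c1 p) _
    have z1 := Z0_pos (N := (m + 1) * (n1 + 2)) hb ht
    have z2 := Z0_pos (N := (m + 1) * (n2 + 2)) hb ht
    have h3 := mul_le_mul a3 c3 p2 (p1.trans a3)
    have h4 : 0 ≤ ea ^ (1 / 4 : ℝ) * Real.exp (δ1 + δ2) *
        (Z0 ((m + 1) * (n1 + 2)) b (1 / (ξ : ℝ) ^ 2) *
          Z0 ((m + 1) * (n2 + 2)) b (1 / (ξ : ℝ) ^ 2)) := by
      have := Real.rpow_nonneg hea (1 / 4)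
      positivity
    calc _ = ea ^ (1 / 4 : ℝ) * Real.exp (δ1 + δ2) *
          (Z0 ((m + 1) * (n1 + 2)) b (1 / (ξ : ℝ) ^ 2) *
            Z0 ((m + 1) * (n2 + 2)) b (1 / (ξ : ℝ) ^ 2)) *
          ((∏ p ∈ univ.erase (0, 0), q1 p ^ (1 / 4 : ℝ)) *
            ∏ p ∈ univ.erase (0, 0), q2 p ^ (1 / 4 : ℝ)) := by ring
      _ ≤ _ := mul_le_mul_of_nonneg_left h3 h4
      _ = _ := by ring
  · have h3 := ev_arm (M := (m + 1) * 2) (m := m) (by omega) hb hξ (fun _ => κ) 0 (p := pc hc) hr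
      (dp_pc hc) hea h
    rw [foE_bk, foE_bk, foF_bk, foF_bk, cnr_zero, cnr_zero, f1, f2, g1, g2]
    simp only [G0_Gb hb hc]
    exact h3

/-! ### the block around a point of the ring -/

section blk

variable {K : ℕ} [NeZero K]

lemma pt_og (x : V K) (c0 : ℕ × ℕ) (a d : ℕ) :
    pt (og x c0) a d = x + zc K ((a : ℤ) - c0.1) ((d : ℤ) - c0.2) := by
  unfold pt og zc
  ext <;> · simp; ring

lemma far_blk {x : V K} {c0 : ℕ × ℕ} {m L : ℕ} (h1 : c0.1 ≤ m + 1) (h2 : c0.2 ≤ m + 1)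
    (hx : L + m + 1 < sz x) {a d : ℕ} (ha : a ≤ m + 1) (hd : d ≤ m + 1) :
    L < sz (pt (og x c0) a d) := by
  rw [pt_og]
  have h3 := sz_add_le (x + zc K ((a : ℤ) - c0.1) ((d : ℤ) - c0.2))
    (-zc K ((a : ℤ) - c0.1) ((d : ℤ) - c0.2))
  rw [add_neg_cancel_right, sz_neg] at h3
  have h4 := zc_small (N := K) (i := (a : ℤ) - c0.1) (j := (d : ℤ) - c0.2)
  omega

lemma fo_le' (m : ℕ) (x : ZMod ((m + 1) * 2)) : fo m x ≤ m + 1 := by
  unfold fo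
  omega

/-- box data vanish on the block -/
lemma bkE_far {m L : ℕ} [NeZero ((m + 1) * 2)] {x : V K} {c0 : ℕ × ℕ} (h1 : c0.1 ≤ m + 1)
    (h2 : c0.2 ≤ m + 1) (hx : L + m + 1 < sz x) {η : V K × Bool → ℤ}
    (hη : ∀ e : V K × Bool, L < sz e.1 → η e = 0) : bkE m (og x c0) η = 0 := by
  funext e
  have q1 := ZMod.val_lt e.1.1
  have q2 := ZMod.val_lt e.1.2
  have r1 := fo_le' m e.1.1
  have r2 := fo_le' m e.1.2
  unfold bkE
  show _ = (0 : ℤ)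
  split_ifs with k1 k2 k3
  · exact hη _ (far_blk h1 h2 hx r1 k2.le)
  · rw [hη _ (far_blk h1 h2 hx r1 (by omega)), neg_zero]
  · exact hη _ (far_blk h1 h2 hx k3.le r2)
  · rw [hη _ (far_blk h1 h2 hx (by omega) r2), neg_zero]

lemma bkF_far {m L : ℕ} {x : V K} {c0 : ℕ × ℕ} (h1 : c0.1 ≤ m + 1) (h2 : c0.2 ≤ m + 1)
    (hx : L + m + 1 < sz x) {F : V K → ℝ} (hF : ∀ v, L < sz v → F v = 0) (κ : ℝ) :
    bkF m (og x c0) (fun v => F v + κ) = fun _ => κ := by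
  funext y
  show F (pt (og x c0) (fo m y.1) (fo m y.2)) + κ = κ
  rw [hF _ (far_blk h1 h2 hx (fo_le' m _) (fo_le' m _)), zero_add]

/-- the grid around a point -/
lemma grid_K {m n κ ρ : ℕ} (e : K = (m + 1) * (n + 2)) (hκ : ρ + 1 ≤ κ) (Pc : Finset (V K))
    (hPc : (Pc.card + 1) * (2 * κ) < m + 1) (c : V K) (hc : ∀ p ∈ Pc, m + 1 < sz (c - p)) :
    ∃ c0 : ℕ × ℕ, InC m c0 ρ ∧ GOKK m κ Pc (og c c0) := by
  subst e
  obtain ⟨s, v1, v2, h1, h2, h3, h4⟩ :=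
    grid_choice (M := m + 1) (n := n + 2) (κ := κ) c Pc hPc
  have hs : og c (v1, v2) = s := by
    unfold og
    rw [← h1]
    exact add_sub_cancel_left _ _
  refine ⟨(v1, v2), ⟨by show ρ + 1 ≤ v1; omega, by show ρ + 1 ≤ v2; omega,
    by show v1 + ρ ≤ m; omega, by show v2 + ρ ≤ m; omega⟩, ?_⟩
  rw [hs]
  intro p hp
  refine ⟨h4 p hp, fun hcon => ?_⟩
  have h5 := hc p hp
  have e5 : c - p = zc ((m + 1) * (n + 2)) ((v1 : ℤ) - ((p - s).1.val : ℕ))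
      ((v2 : ℤ) - ((p - s).2.val : ℕ)) := by
    have e6 : c - p = (((v1 : ZMod ((m + 1) * (n + 2))), (v2 : ZMod ((m + 1) * (n + 2)))) : V _) -
        (p - s) := by
      rw [← h1]
      abel
    rw [e6]
    unfold zc
    refine Prod.ext ?_ ?_
    · show (v1 : ZMod ((m + 1) * (n + 2))) - (p - s).1 = _
      push_cast
      rw [ZMod.natCast_zmod_val]
    · show (v2 : ZMod ((m + 1) * (n + 2))) - (p - s).2 = _
      push_cast
      rw [ZMod.natCast_zmod_val]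
  rw [e5] at h5
  have h6 := zc_small (N := (m + 1) * (n + 2)) (i := (v1 : ℤ) - ((p - s).1.val : ℕ))
    (j := (v2 : ℤ) - ((p - s).2.val : ℕ))
  omega

end blk

section two

variable {N M : ℕ} [NeZero N] [NeZero M]

/-- residues -/
lemma pr1_val {m n : ℕ} (e : N = (m + 1) * (n + 2)) (z : ZMod (M * N)) :
    (pr1 N M z).val % (m + 1) = z.val % (m + 1) := by
  have h1 : (pr1 N M z).val = z.val % N := by
    conv_lhs => rw [← ZMod.natCast_zmod_val z]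
    rw [map_natCast, ZMod.val_natCast]
  rw [h1]
  exact Nat.mod_mod_of_dvd _ ⟨n + 2, e⟩

lemma prj_og (x : V N) (c0 : ℕ × ℕ) : prj M (og (io N M x) c0) = og x c0 := by
  unfold og
  rw [prj_sub, prj_io]
  congr 1
  unfold prj
  simp

/-- **one grid for both tori** -/
lemma grid_two {m n κ ρ L : ℕ} (e : N = (m + 1) * (n + 2)) (hκ : ρ + 1 ≤ κ)
    {Pc1 : Finset (V N)} {Pc2 : Finset (V (M * N))} (hP1 : ∀ p ∈ Pc1, sz p ≤ L)
    (hP2 : ∀ p ∈ Pc2, sz p ≤ L) (hLN : 2 * L < N)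
    (hcard : (Pc1.card + Pc2.card + 1) * (2 * κ) < m + 1) {x : V N} (hx : L + m + 1 < sz x) :
    ∃ c0 : ℕ × ℕ, InC m c0 ρ ∧ GOKK m κ Pc1 (og x c0) ∧ GOKK m κ Pc2 (og (io N M x) c0) := by
  classical
  have hfar : ∀ p ∈ Pc1 ∪ Pc2.image (prj M), m + 1 < sz (x - p) := by
    intro p hp
    have hpL : sz p ≤ L := by
      rcases Finset.mem_union.1 hp with h | h
      · exact hP1 p h
      · obtain ⟨p', hp', rfl⟩ := Finset.mem_image.1 h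
        have h1 := hP2 p' hp'
        rw [sz_prj (by omega)]
        exact h1
    have h1 := sz_add_le (x - p) p
    rw [sub_add_cancel] at h1
    omega
  have hc : ((Pc1 ∪ Pc2.image (prj M)).card + 1) * (2 * κ) < m + 1 := by
    refine lt_of_le_of_lt (Nat.mul_le_mul_right _ (Nat.add_le_add_right ?_ 1)) hcard
    exact (Finset.card_union_le _ _).trans (Nat.add_le_add_left Finset.card_image_le _)
  obtain ⟨c0, h1, h2⟩ := grid_K e hκ _ hc x hfar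
  refine ⟨c0, h1, fun p hp => h2 p (Finset.mem_union_left _ hp), fun p hp => ?_⟩
  have h3 := (h2 (prj M p) (Finset.mem_union_right _ (Finset.mem_image_of_mem _ hp))).1
  have e1 : (prj M p - og x c0).1 = pr1 N M (p - og (io N M x) c0).1 := by
    rw [← prj_og (M := M), ← prj_sub]
    rfl
  have e2 : (prj M p - og x c0).2 = pr1 N M (p - og (io N M x) c0).2 := by
    rw [← prj_og (M := M), ← prj_sub]
    rfl
  rw [e1, e2, pr1_val e, pr1_val e] at h3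
  refine ⟨h3, fun hcon => ?_⟩
  have e3 : p = pt (og (io N M x) c0) (p - og (io N M x) c0).1.val
      (p - og (io N M x) c0).2.val := by
    unfold pt
    rw [ZMod.natCast_zmod_val, ZMod.natCast_zmod_val]
    exact (sub_add_cancel p _).symm
  have hcm1 : c0.1 ≤ m + 1 := by have := h1.u1; omega
  have hcm2 : c0.2 ≤ m + 1 := by have := h1.u2; omega
  have h4 := far_blk (x := io N M x) (L := L) hcm1 hcm2 (by rw [sz_io]; exact hx) hcon.1.le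
    hcon.2.le
  rw [← e3] at h4
  have h5 := hP2 p hp
  omega

end two

/-! ### (H6) -/

/-- **(H6) from the price of the edge field**, on both tori -/
theorem h6_PR {N M : ℕ} [NeZero N] [NeZero M] {b : ℝ} (hb : 0 < b) {ξ : ℕ} (hξ : 0 < ξ)
    {L R r ρ κ m n1 n2 : ℕ} [NeZero ((m + 1) * 2)]
    (e1 : N = (m + 1) * (n1 + 2)) (e2 : M * N = (m + 1) * (n2 + 2)) (hr : r ≤ ρ)
    (hκ : ρ + 1 ≤ κ) (hL : 4 * L ≤ N) (h1 : N + 4 < 4 * (R - ρ)) (h2 : 2 * (R + ρ + 2) < N)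
    (h3 : L + m + 1 < R) {Pc1 : Finset (V N)} {Pc2 : Finset (V (M * N))}
    (hP1 : ∀ p ∈ Pc1, sz p ≤ L) (hP2 : ∀ p ∈ Pc2, sz p ≤ L)
    (hcard : (Pc1.card + Pc2.card + 1) * (2 * κ) < m + 1)
    {J : Finset (V N)} (hJR : ∀ x ∈ J, sz x = R)
    (hJ : ∀ z : V N, sz z = R → ∃ x ∈ J, sz (z - x) ≤ r) {ω : ℝ}
    (hω1 : om0 N b ((1 / (ξ : ℝ) ^ 2) • (1 : Matrix (Tor N) (Tor N) ℝ)) ≤ ω)
    (hω2 : om0 (M * N) b ((1 / (ξ : ℝ) ^ 2) • (1 : Matrix (Tor (M * N)) (Tor (M * N)) ℝ)) ≤ ω)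
    (hω : ω ≤ 1 / 4) {ea : ℝ} (hea : 0 ≤ ea)
    (harm : ∀ κ' ∈ Set.Icc (0 : ℝ) 1, ∀ x0 : Tor ((m + 1) * 2),
      ArmLe ((m + 1) * 2) b hb.le ξ (fun _ => κ') x0 r ρ ea) {δ1 δ2 : ℝ}
    (hδ1 : ((n1 : ℝ) + 2) ^ 2 / 4 * Real.log (Z0 ((m + 1) * 2) b (1 / (ξ : ℝ) ^ 2)) -
      Real.log (Z0 N b (1 / (ξ : ℝ) ^ 2)) ≤ δ1)
    (hδ2 : ((n2 : ℝ) + 2) ^ 2 / 4 * Real.log (Z0 ((m + 1) * 2) b (1 / (ξ : ℝ) ^ 2)) -
      Real.log (Z0 (M * N) b (1 / (ξ : ℝ) ^ 2)) ≤ δ2)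
    {β : V N × Bool → ℝ} (hβ : EG β) (hβ0 : ∀ e : V N × Bool, L < sz e.1 → β e = 0) {pr : ℝ}
    (hPR1 : PRS m n1 κ b (1 / (ξ : ℝ) ^ 2) Pc1 β pr)
    (hPR2 : PRS m n2 κ b (1 / (ξ : ℝ) ^ 2) Pc2 (H817.ext M β) pr)
    (hε : J.card * (2 * (ea ^ (1 / 4 : ℝ) * Real.exp (δ1 + δ2)) * Real.exp (pr + 1)) ≤ 1 / 2) :
    |EZ (M * N) b (1 / (ξ : ℝ) ^ 2) (H817.ext M β) - EZ N b (1 / (ξ : ℝ) ^ 2) β| ≤
      2 * (J.card * (2 * (ea ^ (1 / 4 : ℝ) * Real.exp (δ1 + δ2)) * Real.exp (pr + 1))) +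
        8 * ω ^ 2 := by
  have ht : 0 < 1 / (ξ : ℝ) ^ 2 := by positivity
  set E : ℝ := 2 * (ea ^ (1 / 4 : ℝ) * Real.exp (δ1 + δ2)) * Real.exp (pr + 1) with hE
  have hea4 : 0 ≤ ea ^ (1 / 4 : ℝ) * Real.exp (δ1 + δ2) :=
    mul_nonneg (Real.rpow_nonneg hea _) (Real.exp_pos _).le
  have hE0 : 0 ≤ E := by positivity
  have hsum : ∑ _x ∈ J, E = J.card * E := by rw [Finset.sum_const, nsmul_eq_mul]
  have key := h6 (ε := fun _ => E) hb ht hL h1 h2 hJR hJ hω1 hω2 (by linarith)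
    (fun _ _ => hE0) (by rw [hsum]; exact hε) hβ hβ0 ?_
  · rwa [hsum] at key
  intro η F hβE hβX hη hF κ' hκ' x hx
  have hxR := hJR x hx
  have hxL : L + m + 1 < sz x := by omega
  obtain ⟨c0, hc, hG1, hG2⟩ := grid_two (M := M) e1 hκ hP1 hP2 (by omega) hcard hxL
  have hcm1 : c0.1 ≤ m + 1 := by have := hc.u1; omega
  have hcm2 : c0.2 ≤ m + 1 := by have := hc.u2; omega
  have hη2 : ∀ e : V (M * N) × Bool, L < sz e.1 → eta2 M η e = 0 := by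
    intro e he
    unfold eta2
    split_ifs with h
    · exact hη _ (by
        show L < sz (prj M e.1)
        rw [sz_prj (by omega)]
        exact he)
    · rfl
  have hF2 : ∀ v : V (M * N), L < sz v → F2 M F v = 0 := by
    intro v hv
    unfold F2
    split_ifs with h
    · exact hF _ (by
        rw [sz_prj (by omega)]
        exact hv)
    · rfl
  obtain ⟨Q1, q10, q11, q12⟩ := hPR1.pt hb ht (hω1.trans hω) (X := (η, F)) hβE.symm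
  obtain ⟨Q2, q20, q21, q22⟩ := hPR2.pt hb ht (hω2.trans hω) (X := (eta2 M η, F2 M F)) hβX.symm
  have hxL2 : L + m + 1 < sz (io N M x) := by rw [sz_io]; exact hxL
  have hs : 2 * (sz x + ρ + 1) < N := by omega
  have hmN : m + 2 ≤ N := by omega
  have w1 : ∀ (K : ℕ) [NeZero K] (η : Ed K → ℤ) (F : Tor K → ℝ),
      ((η, F) : GE K) + cstK K κ' = (η, fun v => F v + κ') := fun K _ η F =>
    Prod.ext (add_zero _) rfl
  have z0 : ∀ (K : ℕ) [NeZero K] (n : ℕ) (s : Tor K),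
      QBK m n b (1 / (ξ : ℝ) ^ 2) ((0, fun _ => κ') : GE K) s 1 := by
    intro K _ n s
    refine ⟨fun _ => 1, fun _ => zero_le_one, fun p _ => ?_, by simp⟩
    rw [one_mul]
    exact H474.Cb.ZG_le hb ht _
  have u1 := Z0_le_two hb ht hω1 hω hκ'
  have u2 := Z0_le_two hb ht hω2 hω hκ'
  have p1 := Z0_pos (N := N) hb ht
  have p2 := Z0_pos (N := M * N) hb ht
  have bk0 : ∀ (K : ℕ) [NeZero K] (s : Tor K), bkE m s (0 : Ed K → ℤ) = 0 := by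
    intro K _ s
    funext e
    unfold bkE
    simp
  constructor
  · rw [AF_G0 hb hmN hc hr hs η (fun v => F v + κ') 0 fun _ => κ']
    have hA := ag_Q (X1 := (η, fun v => F v + κ')) (X2 := (0, fun _ => κ')) (κ := κ') e1 e2 hb hξ
      (og x c0) (og (io N M x) c0) (bkE_far hcm1 hcm2 hxL hη) (bkF_far hcm1 hcm2 hxL hF κ')
      (bk0 _ _) rfl hc hr hea (harm κ' hκ' _) (by rw [← w1]; exact q11 κ' _ hG1)
      (z0 _ n2 _) hδ1 hδ2
    refine hA.trans (ENNReal.ofReal_le_ofReal ?_)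
    have k2 := q12 κ' hκ'
    rw [w1] at k2
    have k3 : ZG N b (1 / (ξ : ℝ) ^ 2) ((η, fun v => F v + κ') : GE N) =
        ZD N b (1 / (ξ : ℝ) ^ 2) η fun v => F v + κ' := rfl
    have k4 : ZM (wT b (M * N)) ((1 / (ξ : ℝ) ^ 2) • (1 : Matrix _ _ ℝ)) (fun _ => κ') =
        ZD (M * N) b (1 / (ξ : ℝ) ^ 2) 0 fun _ => κ' := by
      unfold ZD
      rw [H770.wTD_zero]
    rw [k3] at k2
    rw [k4] at u2
    have k5 := mul_le_mul k2 u2 p2.le (by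
      have := ZD_pos (N := N) hb ht η fun v => F v + κ'
      positivity)
    calc _ = ea ^ (1 / 4 : ℝ) * Real.exp (δ1 + δ2) * (Q1 * Z0 N b (1 / (ξ : ℝ) ^ 2) *
          Z0 (M * N) b (1 / (ξ : ℝ) ^ 2)) := by ring
      _ ≤ _ := mul_le_mul_of_nonneg_left k5 hea4
      _ = _ := by rw [hE]; ring
  · rw [AF_G0 hb hmN hc hr hs 0 (fun _ => κ') (eta2 M η) fun u => F2 M F u + κ']
    have hA := ag_Q (X1 := (0, fun _ => κ')) (X2 := (eta2 M η, fun u => F2 M F u + κ')) (κ := κ')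
      e1 e2 hb hξ (og x c0) (og (io N M x) c0) (bk0 _ _) rfl
      (bkE_far hcm1 hcm2 hxL2 hη2) (bkF_far hcm1 hcm2 hxL2 hF2 κ')
      hc hr hea (harm κ' hκ' _) (z0 _ n1 _) (by rw [← w1]; exact q21 κ' _ hG2) hδ1 hδ2
    refine hA.trans (ENNReal.ofReal_le_ofReal ?_)
    have k2 := q22 κ' hκ'
    rw [w1] at k2
    have k3 : ZG (M * N) b (1 / (ξ : ℝ) ^ 2)
        ((eta2 M η, fun v => F2 M F v + κ') : GE (M * N)) =
        ZD (M * N) b (1 / (ξ : ℝ) ^ 2) (eta2 M η) fun v => F2 M F v + κ' := rfl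
    have k4 : ZM (wT b N) ((1 / (ξ : ℝ) ^ 2) • (1 : Matrix _ _ ℝ)) (fun _ => κ') =
        ZD N b (1 / (ξ : ℝ) ^ 2) 0 fun _ => κ' := by
      unfold ZD
      rw [H770.wTD_zero]
    rw [k3] at k2
    rw [k4] at u1
    have k5 := mul_le_mul u1 k2 (by positivity) (by
      have := ZD_pos (N := N) hb ht (0 : Ed N → ℤ) fun _ => κ'
      positivity)
    calc _ = ea ^ (1 / 4 : ℝ) * Real.exp (δ1 + δ2) * (Z0 N b (1 / (ξ : ℝ) ^ 2) *
          (Q2 * Z0 (M * N) b (1 / (ξ : ℝ) ^ 2))) := by ring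
      _ ≤ _ := mul_le_mul_of_nonneg_left k5 hea4
      _ = _ := by rw [hE]; ring

end

end Vale.Agent.P159.H280.Hs
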