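import Vale.Agent.P159.H280.Hs8

/-!
P159, (H6) / SW2 (helper280), part 9: **`h6_PR` with numbers**.

Side `N = (m + 1) (n1 + 2)`, `8 ∣ N`, `8 (m + 1) ≤ N`, torus `M N = (m + 1) (n2 + 2)`; square of
radius `R = 3 N / 8`.

* `num_dl`, `num_ea` : the volume number and the arm number in helper474's letters `LN`, `Geo`;
* `h6_num` : (H6) with the error `9 KL (N / ξ) e^(-c κ / (4 ξ)) e^pr + 8 ω²`;
* `h6_num2` : the same with the error `KL (N / ξ)² e^(-c κ / (4 ξ)) e^pr + 8 ω²` (helper612's).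
-/

set_option linter.unusedSectionVars false
set_option linter.unusedDecidableInType false

namespace Vale.Agent.P159.H280.Hs

open scoped ENNReal
open Finset
open Vale.Agent.P159.H764 (ArmLe)
open Vale.Agent.P159.H474.Cb (Z0 pt LN Vol GE KL KL_pos)
open Vale.Agent.P159.TM.Spec (V)
open Vale.Agent.P159.H817 (sz eb eF EG EZ)
open Vale.Agent.P159.TM.SpecC (Tor wT)
open Vale.Agent.P159.H612 (om0)
open Vale.Agent.P159.TM

noncomputable section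

/-- the volume number -/
lemma num_dl {m n ξ : ℕ} {c C : ℝ} (hC : 0 < C)
    (hv : ((n : ℝ) + 2) ^ 2 ≤ Real.exp (c * (2 * ((m : ℝ) + 1)) / ξ)) :
    ((n : ℝ) + 2) ^ 2 / 4 * (C * Real.exp (-(c * (2 * ((m : ℝ) + 1)) / ξ))) ≤ C / 4 := by
  have h10 : ((n : ℝ) + 2) ^ 2 * Real.exp (-(c * (2 * ((m : ℝ) + 1)) / ξ)) ≤ 1 := by
    calc _ ≤ Real.exp (c * (2 * ((m : ℝ) + 1)) / ξ) *
          Real.exp (-(c * (2 * ((m : ℝ) + 1)) / ξ)) :=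
          mul_le_mul_of_nonneg_right hv (Real.exp_pos _).le
      _ = 1 := by rw [← Real.exp_add, add_neg_cancel, Real.exp_zero]
  nlinarith

/-- the arm number -/
lemma num_ea {ξ κ : ℕ} {c C : ℝ} (hc : 0 < c) (hC : 0 < C) (hξ : 1 ≤ ξ) :
    (C * Real.exp (-(c * ((κ - 1 : ℕ) : ℝ) / ξ))) ^ (1 / 4 : ℝ) ≤
      C ^ (1 / 4 : ℝ) * Real.exp (c / 4) * Real.exp (-(c * κ / (4 * ξ))) := by
  have hξr : (1 : ℝ) ≤ ξ := by exact_mod_cast hξ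
  have hξ0 : (0 : ℝ) < ξ := by linarith
  rw [Real.mul_rpow hC.le (Real.exp_pos _).le, ← Real.exp_mul, mul_assoc, ← Real.exp_add]
  refine mul_le_mul_of_nonneg_left (Real.exp_le_exp.2 ?_) (Real.rpow_nonneg hC.le _)
  have h4 : (κ : ℝ) ≤ ((κ - 1 : ℕ) : ℝ) + 1 := by
    have : κ ≤ (κ - 1) + 1 := by omega
    exact_mod_cast this
  have e1 : -(c * ((κ - 1 : ℕ) : ℝ) / ξ) * (1 / 4) = -(c * ((κ - 1 : ℕ) : ℝ) / (4 * ξ)) := by
    field_simp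
  rw [e1]
  have h6 : c * (κ : ℝ) / (4 * ξ) ≤ c * (((κ - 1 : ℕ) : ℝ) + 1) / (4 * ξ) := by gcongr
  have h7 : c * (((κ - 1 : ℕ) : ℝ) + 1) / (4 * ξ) =
      c * ((κ - 1 : ℕ) : ℝ) / (4 * ξ) + c / (4 * ξ) := by ring
  have h8 : c / (4 * (ξ : ℝ)) ≤ c / 4 :=
    div_le_div_of_nonneg_left hc.le (by norm_num) (by linarith)
  linarith

/-- **(H6) with numbers** -/
theorem h6_num {N M : ℕ} [NeZero N] [NeZero M] {b : ℝ} (hb : 0 < b)
    {ξ A K κ l m n1 n2 : ℕ} [NeZero ((m + 1) * 2)] [NeZero ((m + 1) * (n1 + 2))]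
    [NeZero ((m + 1) * (n2 + 2))] (e1 : N = (m + 1) * (n1 + 2)) (e2 : M * N = (m + 1) * (n2 + 2))
    (h8 : 8 ∣ N) (hmN : 8 * (m + 1) ≤ N) {L₀ c C : ℝ} (hL₀ : 0 ≤ L₀) (hc : 0 < c) (hC : 0 < C)
    (H1 : LN m n1 b hb ξ A L₀ c C) (H2 : LN m n2 b hb ξ A L₀ c C)
    (g1 : H474.Cb.Geo m n1 ξ A K κ l c) (g2 : H474.Cb.Geo m n2 ξ A K κ l c) {ω : ℝ}
    (hω1 : om0 N b ((1 / (ξ : ℝ) ^ 2) • (1 : Matrix (Tor N) (Tor N) ℝ)) ≤ ω)
    (hω2 : om0 (M * N) b ((1 / (ξ : ℝ) ^ 2) • (1 : Matrix (Tor (M * N)) (Tor (M * N)) ℝ)) ≤ ω)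
    (hω : ω ≤ 1 / 4) {L : ℕ} (hL : 4 * L < N) {Pc1 : Finset (V N)} {Pc2 : Finset (V (M * N))}
    (hP1 : ∀ p ∈ Pc1, sz p ≤ L) (hP2 : ∀ p ∈ Pc2, sz p ≤ L)
    (hcard : Pc1.card + Pc2.card ≤ K) {β : V N × Bool → ℝ} (hβ : EG β)
    (hβ0 : ∀ e : V N × Bool, L < sz e.1 → β e = 0) {pr : ℝ}
    (hPR1 : PRS m n1 κ b (1 / (ξ : ℝ) ^ 2) Pc1 β pr)
    (hPR2 : PRS m n2 κ b (1 / (ξ : ℝ) ^ 2) Pc2 (H817.ext M β) pr)
    (hε : 9 * KL A c C * (N / ξ) * Real.exp (-(c * κ / (4 * ξ))) * Real.exp pr ≤ 1) :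
    |EZ (M * N) b (1 / (ξ : ℝ) ^ 2) (H817.ext M β) - EZ N b (1 / (ξ : ℝ) ^ 2) β| ≤
      9 * KL A c C * (N / ξ) * Real.exp (-(c * κ / (4 * ξ))) * Real.exp pr + 8 * ω ^ 2 := by
  obtain ⟨hA, hAξ, hκ, hK, hl, hv1⟩ := g1
  have hv2 := g2.hv
  obtain ⟨B, hB⟩ := h8
  have hξ : 0 < ξ := by omega
  have hξr : (0 : ℝ) < ξ := by exact_mod_cast hξ
  have hκm : 2 * κ < m + 1 := by nlinarith [Nat.zero_le (K * (2 * κ))]
  obtain ⟨B', rfl⟩ : ∃ B', B = B' + 1 := ⟨B - 1, by omega⟩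
  have hN : N = (B' + 1) * 8 := by omega
  have hcardK : (Pc1.card + Pc2.card + 1) * (2 * κ) < m + 1 :=
    lt_of_le_of_lt (Nat.mul_le_mul_right _ (by omega)) hK
  have hr1 : 1 ≤ ξ / A := (Nat.one_le_div_iff (by omega)).2 hAξ
  have hr2 : ξ / A ≤ ξ / 2 := Nat.div_le_div_left hA (by norm_num)
  set ea : ℝ := C * Real.exp (-(c * ((κ - 1 : ℕ) : ℝ) / ξ)) with hea
  have hea0 : 0 ≤ ea := by positivity
  have v1 := H1.vol
  have v2 := H2.vol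
  unfold Vol at v1 v2
  rw [← Z0_congr (K := N) (K' := (m + 1) * (n1 + 2)) e1 b _] at v1
  rw [← Z0_congr (K := M * N) (K' := (m + 1) * (n2 + 2)) e2 b _] at v2
  have w1 := v1.trans (num_dl hC hv1)
  have w2 := v2.trans (num_dl hC hv2)
  have hcard := card_num (A := A) hN (by omega) hAξ (by omega : ξ ≤ B' + 1)
  have hea4 := num_ea (κ := κ) hc hC (show 1 ≤ ξ by omega)
  rw [← hea] at hea4
  have hCp := Real.rpow_pos_of_pos hC (1 / 4)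
  have hA1 : (1 : ℝ) ≤ A := by exact_mod_cast (show 1 ≤ A by omega)
  have hNξ : 0 ≤ (N : ℝ) / ξ := by positivity
  -- the error
  have hbig : (cen N (3 * (B' + 1)) (ξ / A)).card * (2 * (ea ^ (1 / 4 : ℝ) *
      Real.exp (C / 4 + C / 4)) * Real.exp (pr + 1)) ≤
      9 / 2 * KL A c C * (N / ξ) * Real.exp (-(c * κ / (4 * ξ))) * Real.exp pr := by
    have e3 : Real.exp (C / 4 + C / 4) = Real.exp (C / 2) := by
      congr 1
      ring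
    have e4 : Real.exp (pr + 1) = Real.exp pr * Real.exp 1 := Real.exp_add _ _
    rw [e3, e4]
    have he : Real.exp 1 ≤ 2.7182818286 := Real.exp_one_lt_d9.le
    calc _ ≤ 7 * A * (N / ξ) * (2 * (C ^ (1 / 4 : ℝ) * Real.exp (c / 4) *
          Real.exp (-(c * κ / (4 * ξ))) * Real.exp (C / 2)) * (Real.exp pr * 2.7182818286)) := by
          refine mul_le_mul hcard ?_ (by positivity) (by positivity)
          refine mul_le_mul (mul_le_mul_of_nonneg_left (mul_le_mul_of_nonneg_right hea4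
            (Real.exp_pos _).le) (by norm_num)) (mul_le_mul_of_nonneg_left he
            (Real.exp_pos _).le) (by positivity) (by positivity)
      _ = 14 * 2.7182818286 * A * ((N / ξ) * (C ^ (1 / 4 : ℝ) * Real.exp (c / 4) *
          Real.exp (-(c * κ / (4 * ξ))) * Real.exp (C / 2)) * Real.exp pr) := by ring
      _ ≤ 9 / 2 * (2 * A + 1) ^ 2 * ((N / ξ) * (C ^ (1 / 4 : ℝ) * Real.exp (c / 4) *
          Real.exp (-(c * κ / (4 * ξ))) * Real.exp (C / 2)) * Real.exp pr) := by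
          refine mul_le_mul_of_nonneg_right ?_ (by positivity)
          nlinarith
      _ = _ := by
          unfold KL
          ring
  have hbig2 : (cen N (3 * (B' + 1)) (ξ / A)).card * (2 * (ea ^ (1 / 4 : ℝ) *
      Real.exp (C / 4 + C / 4)) * Real.exp (pr + 1)) ≤ 1 / 2 := by linarith
  have key := h6_PR (N := N) (M := M) hb hξ (L := L) (R := 3 * (B' + 1)) (r := ξ / A)
    (ρ := κ - 1) (κ := κ) (m := m) (n1 := n1) (n2 := n2) e1 e2 (by omega) (by omega) (by omega)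
    (by omega) (by omega) (by omega) hP1 hP2 hcardK (J := cen N (3 * (B' + 1)) (ξ / A))
    (cen_sz (by omega)) (cen_cov hr1 (by omega)) hω1 hω2 hω (ea := ea) hea0
    (fun κ' _ x0 => H1.arm _ (fun x y => by
      rw [sub_self, abs_zero]
      positivity) _ _) w1 w2 hβ hβ0 hPR1 hPR2 hbig2
  linarith

/-- **(H6) with numbers**, the error of the locality -/
theorem h6_num2 {N M : ℕ} [NeZero N] [NeZero M] {b : ℝ} (hb : 0 < b)
    {ξ A K κ l m n1 n2 : ℕ} [NeZero ((m + 1) * 2)] [NeZero ((m + 1) * (n1 + 2))]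
    [NeZero ((m + 1) * (n2 + 2))] (e1 : N = (m + 1) * (n1 + 2)) (e2 : M * N = (m + 1) * (n2 + 2))
    (h8 : 8 ∣ N) (hmN : 8 * (m + 1) ≤ N) {L₀ c C : ℝ} (hL₀ : 0 ≤ L₀) (hc : 0 < c) (hC : 0 < C)
    (H1 : LN m n1 b hb ξ A L₀ c C) (H2 : LN m n2 b hb ξ A L₀ c C)
    (g1 : H474.Cb.Geo m n1 ξ A K κ l c) (g2 : H474.Cb.Geo m n2 ξ A K κ l c) {ω : ℝ}
    (hω1 : om0 N b ((1 / (ξ : ℝ) ^ 2) • (1 : Matrix (Tor N) (Tor N) ℝ)) ≤ ω)
    (hω2 : om0 (M * N) b ((1 / (ξ : ℝ) ^ 2) • (1 : Matrix (Tor (M * N)) (Tor (M * N)) ℝ)) ≤ ω)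
    (hω : ω ≤ 1 / 4) {L : ℕ} (hL : 4 * L < N) {Pc1 : Finset (V N)} {Pc2 : Finset (V (M * N))}
    (hP1 : ∀ p ∈ Pc1, sz p ≤ L) (hP2 : ∀ p ∈ Pc2, sz p ≤ L)
    (hcard : Pc1.card + Pc2.card ≤ K) {β : V N × Bool → ℝ} (hβ : EG β)
    (hβ0 : ∀ e : V N × Bool, L < sz e.1 → β e = 0) {pr : ℝ}
    (hPR1 : PRS m n1 κ b (1 / (ξ : ℝ) ^ 2) Pc1 β pr)
    (hPR2 : PRS m n2 κ b (1 / (ξ : ℝ) ^ 2) Pc2 (H817.ext M β) pr)
    (hε : KL A c C * (N / ξ) ^ 2 * Real.exp (-(c * κ / (4 * ξ))) * Real.exp pr ≤ 1) :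
    |EZ (M * N) b (1 / (ξ : ℝ) ^ 2) (H817.ext M β) - EZ N b (1 / (ξ : ℝ) ^ 2) β| ≤
      KL A c C * (N / ξ) ^ 2 * Real.exp (-(c * κ / (4 * ξ))) * Real.exp pr + 8 * ω ^ 2 := by
  obtain ⟨hA, hAξ, hκ, hK, hl, hv1⟩ := id g1
  have hξ : 0 < ξ := by omega
  have hξr : (0 : ℝ) < ξ := by exact_mod_cast hξ
  have hκm : 2 * κ < m + 1 := by nlinarith [Nat.zero_le (K * (2 * κ))]
  have h9 : (9 : ℝ) ≤ N / ξ := by
    rw [le_div_iff₀ hξr]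
    exact_mod_cast (show 9 * ξ ≤ N by omega)
  have h3 : 9 * KL A c C * (N / ξ) * Real.exp (-(c * κ / (4 * ξ))) * Real.exp pr ≤
      KL A c C * (N / ξ) ^ 2 * Real.exp (-(c * κ / (4 * ξ))) * Real.exp pr := by
    have hK0 := KL_pos A (c := c) hC
    have : 9 * KL A c C * (N / ξ) * Real.exp (-(c * κ / (4 * ξ))) * Real.exp pr =
        KL A c C * (9 * (N / ξ)) * Real.exp (-(c * κ / (4 * ξ))) * Real.exp pr := by ring
    rw [this]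
    refine mul_le_mul_of_nonneg_right (mul_le_mul_of_nonneg_right (mul_le_mul_of_nonneg_left ?_
      hK0.le) (Real.exp_pos _).le) (Real.exp_pos _).le
    nlinarith
  have key := h6_num (l := l) hb e1 e2 h8 hmN hL₀ hc hC H1 H2 g1 g2 hω1 hω2 hω hL hP1 hP2 hcard
    hβ hβ0 hPR1 hPR2 (h3.trans hε)
  linarith

end

end Vale.Agent.P159.H280.Hs
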