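import Vale.Agent.P159.H280.Top0
import Vale.Agent.P159.H864.Fou2
import Vale.Agent.P159.H37.RPf
import Vale.Agent.P159.H462.In3Sum

/-!
P159, row TOP (helper280), part 1: **TOP1**, the upper bound `Π_t(k) ≤ C (t + EE k)` of the self
energy on EVERY torus, for every momentum `k ≠ 0` down to the lattice scale.
-/

open Finset Filter Topology

namespace Vale.Agent.P159.H280

open Vale.Agent.P159.TM.H764 (EE cN Gh)
open Vale.Agent.P159.TM.Spec (V)
open Vale.Agent.P159.TM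
open Vale.Agent.P159.H37

/-- small momenta and small masses -/
theorem top_small {b a : ℝ} (hb : 0 < b) (ha : 0 < a) {K m1 : ℕ}
    (h : ∀ m : ℕ, m1 ≤ m → ∀ (M : ℕ) [NeZero M], K * 2 ^ m ≤ M →
      H764.QK ((2 ^ m : ℕ) : ℝ) (H41.G b M ((2 ^ m : ℕ) : ℝ)) (1 / 4) a) :
    ∃ C κ : ℝ, 0 < C ∧ 0 < κ ∧ ∀ (N : ℕ) [NeZero N] (t : ℝ), 0 < t → t ≤ κ → ∀ k : V N, k ≠ 0 →
      EE k ≤ κ → Pik N b t k ≤ C * (t + EE k) := by
  obtain ⟨A, hA⟩ : ∃ A : ℝ, A = a + (K : ℝ) ^ 2 + 1 := ⟨_, rfl⟩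
  have hK0 : (0 : ℝ) ≤ (K : ℝ) ^ 2 := by positivity
  have hA0 : 0 < A := by rw [hA]; positivity
  have hAa : a ≤ A := by rw [hA]; linarith
  have hA1 : 1 ≤ A := by rw [hA]; linarith
  have hAK : (K : ℝ) ^ 2 ≤ A := by rw [hA]; linarith
  refine ⟨16 * A, 1 / (4 * A * 4 ^ m1), by positivity, by positivity,
    fun N _ t ht htκ k hk hkκ => ?_⟩
  obtain ⟨s, hs⟩ : ∃ s : ℝ, s = max t (EE k) := ⟨_, rfl⟩
  have hst : t ≤ s := hs ▸ le_max_left _ _
  have hsE : EE k ≤ s := hs ▸ le_max_right _ _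
  have hs0 : 0 < s := ht.trans_le hst
  have hsκ : s ≤ 1 / (4 * A * 4 ^ m1) := hs ▸ max_le htκ hkκ
  have hE0 : 0 ≤ EE k := H462.EE_nonneg k
  have hss : s ≤ t + EE k := by rw [hs]; exact max_le (by linarith) (by linarith)
  obtain ⟨x, hx⟩ : ∃ x : ℝ, x = 1 / (4 * A * s) := ⟨_, rfl⟩
  have hxs : A * x * s = 1 / 4 := by rw [hx]; field_simp
  have hx0 : 0 < x := by rw [hx]; positivity
  have hx1 : (4 : ℝ) ^ m1 ≤ x := by
    rw [hx, le_div_iff₀ (by positivity)]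
    rw [le_div_iff₀ (by positivity)] at hsκ
    linarith
  obtain ⟨m, hm1, hm2⟩ := exists_nat_pow_near ((one_le_pow₀ (by norm_num)).trans hx1)
    (by norm_num : (1 : ℝ) < 4)
  have hmm : m1 ≤ m := by
    have := (pow_lt_pow_iff_right₀ (by norm_num : (1 : ℝ) < 4)).1 (hx1.trans_lt hm2)
    omega
  have h4 : ((2 ^ m : ℕ) : ℝ) ^ 2 = 4 ^ m := by
    push_cast
    rw [← pow_mul, mul_comm, pow_mul]
    norm_num
  have hN0 : (0 : ℝ) < N := by exact_mod_cast NeZero.pos N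
  -- the torus is large enough
  have hKN : K * 2 ^ m ≤ N := by
    have h1 : ((K * 2 ^ m : ℕ) : ℝ) ^ 2 ≤ (N : ℝ) ^ 2 := by
      have h2 : ((K * 2 ^ m : ℕ) : ℝ) ^ 2 = (K : ℝ) ^ 2 * 4 ^ m := by
        rw [Nat.cast_mul, mul_pow, h4]
      rw [h2]
      have h3 : (K : ℝ) ^ 2 * 4 ^ m ≤ A * x := mul_le_mul hAK hm1 (by positivity) hA0.le
      have h5 : A * x = 1 / (4 * s) := by
        rw [hx]
        field_simp
      have h6 : 16 / (N : ℝ) ^ 2 ≤ s := (H462.EE_gap hk).trans hsE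
      have h7 : 1 / (4 * s) ≤ (N : ℝ) ^ 2 := by
        rw [div_le_iff₀ (by positivity)]
        rw [div_le_iff₀ (by positivity)] at h6
        nlinarith
      linarith
    have h3 := (pow_le_pow_iff_left₀ (by positivity) hN0.le two_ne_zero).1 h1
    exact_mod_cast h3
  have hQ := h m hmm N hKN k
  have hξ : (0 : ℝ) < ((2 ^ m : ℕ) : ℝ) := by positivity
  have hG := H864.Ght_eq_Gh (N := N) (b := b) hξ k
  rw [← hG] at hQ
  have e4 : ((2 ^ m : ℕ) : ℝ) ^ 4 = 4 ^ m * 4 ^ m := by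
    rw [show ((2 ^ m : ℕ) : ℝ) ^ 4 = (((2 ^ m : ℕ) : ℝ) ^ 2) ^ 2 by ring, h4]
    ring
  rw [h4, e4] at hQ
  rw [h4] at hG
  have h4m : (0 : ℝ) < 4 ^ m := by positivity
  have h8 : a * (4 ^ m * 4 ^ m) * EE k ≤ 4 ^ m * (1 / 4) := by
    have h9 : a * 4 ^ m * EE k ≤ A * x * s := by
      gcongr
    calc a * (4 ^ m * 4 ^ m) * EE k = 4 ^ m * (a * 4 ^ m * EE k) := by ring
      _ ≤ 4 ^ m * (A * x * s) := mul_le_mul_of_nonneg_left h9 h4m.le
      _ = _ := by rw [hxs]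
  have h10 : 4 ^ m / 2 ≤ Ght N b (1 / 4 ^ m) k := by linarith
  have h11 : Pik N b (1 / 4 ^ m) k ≤ 1 / 4 ^ m := by
    unfold Pik
    have h12 : (Ght N b (1 / 4 ^ m) k)⁻¹ ≤ (4 ^ m / 2)⁻¹ := inv_anti₀ (by positivity) h10
    have h13 : ((4 : ℝ) ^ m / 2)⁻¹ = 1 / 4 ^ m + 1 / 4 ^ m := by
      rw [inv_div]
      ring
    linarith
  have h14 : t ≤ 1 / 4 ^ m := by
    rw [le_div_iff₀ h4m]
    have h15 : t * 4 ^ m ≤ s * x := by gcongr
    have h16 : s * x ≤ A * x * s := by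
      have := mul_le_mul_of_nonneg_right hA1 (mul_pos hx0 hs0).le
      linarith
    linarith
  have h17 := H864.Pik_mono (N := N) hb ht h14 k
  have h18 : 1 / (4 : ℝ) ^ m ≤ 16 * A * s := by
    rw [div_le_iff₀ h4m]
    rw [pow_succ] at hm2
    have h19 : A * x * s ≤ A * (4 ^ m * 4) * s := by gcongr
    linarith
  calc Pik N b t k ≤ 1 / 4 ^ m := h17.trans h11
    _ ≤ 16 * A * s := h18
    _ ≤ 16 * A * (t + EE k) := mul_le_mul_of_nonneg_left hss (by positivity)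

/-- one coordinate reduced -/
lemma red1 {N : ℕ} [NeZero N] {b t : ℝ} (hb : 0 < b) (ht : 0 < t) {p q : ZMod N} (r : ZMod N)
    (hp : cN p < 1) (hq : cN q ≤ cN p) :
    Pik N b t (q, r) ≤ 2 / (1 - cN p) * Pik N b t (p, r) := by
  have h1 := RP.rp_Pik (N := N) hb ht hp hq r
  have h2 := H864.Pik_nonneg (N := N) hb ht ((0 : ZMod N), r)
  have h3 := H864.Pik_nonneg (N := N) hb ht (p, r)
  have h4 := H764.neg_one_le_cN q
  rw [div_mul_eq_mul_div, le_div_iff₀ (by linarith)]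
  have h5 : 0 ≤ Pik N b t (0, r) * (cN p - cN q) := mul_nonneg h2 (by linarith)
  have h6 : Pik N b t (p, r) * (1 - cN q) ≤ Pik N b t (p, r) * 2 :=
    mul_le_mul_of_nonneg_left (by linarith) h3
  nlinarith

/-- an intermediate momentum -/
lemma exists_mid {N D : ℕ} [NeZero N] (hD : 2 ≤ D) (hN : D ≤ N) :
    2 / (D : ℝ) ^ 2 ≤ 1 - cN ((N / D : ℕ) : ZMod N) ∧
      1 - cN ((N / D : ℕ) : ZMod N) ≤ 20 / (D : ℝ) ^ 2 := by
  have hN0 : (0 : ℝ) < N := by exact_mod_cast NeZero.pos N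
  have hD0 : (0 : ℝ) < D := by
    have : 0 < D := by omega
    exact_mod_cast this
  have hD2 : (2 : ℝ) ≤ D := by exact_mod_cast hD
  have hπ := Real.pi_pos
  have h0 : cN ((N / D : ℕ) : ZMod N) = Real.cos (2 * Real.pi * (N / D : ℕ) / N) := by
    have := H764.cN_int (N := N) ((N / D : ℕ) : ℤ)
    rw [Int.cast_natCast] at this
    rw [this]
    push_cast
    rfl
  rw [h0]
  obtain ⟨x, hx⟩ : ∃ x : ℝ, x = 2 * Real.pi * (N / D : ℕ) / N := ⟨_, rfl⟩
  rw [← hx]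
  have h1 : ((N / D : ℕ) : ℝ) ≤ N / D := Nat.cast_div_le
  have h2 : (N : ℝ) / (2 * D) ≤ (N / D : ℕ) := by
    have h3 : N ≤ 2 * D * (N / D) := by
      have h4 := Nat.lt_mul_div_succ N (show 0 < D by omega)
      have h5 : 1 ≤ N / D := (Nat.one_le_div_iff (by omega)).2 hN
      calc N ≤ D * (N / D + 1) := h4.le
        _ ≤ D * (N / D + N / D) := Nat.mul_le_mul_left _ (by omega)
        _ = 2 * D * (N / D) := by ring
    rw [div_le_iff₀ (by positivity)]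
    have h6 : (N : ℝ) ≤ ((2 * D * (N / D) : ℕ) : ℝ) := by exact_mod_cast h3
    rw [Nat.cast_mul, Nat.cast_mul] at h6
    push_cast at h6 ⊢
    linarith
  have h7 : x ≤ 2 * Real.pi / D := by
    rw [hx]
    calc 2 * Real.pi * (N / D : ℕ) / N ≤ 2 * Real.pi * (N / D) / N := by gcongr
      _ = 2 * Real.pi / D := by field_simp
  have h8 : Real.pi / D ≤ x := by
    rw [hx]
    calc Real.pi / D = 2 * Real.pi * ((N : ℝ) / (2 * D)) / N := by field_simp
      _ ≤ _ := by gcongr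
  have h9 : x ≤ Real.pi := by
    refine h7.trans ?_
    rw [div_le_iff₀ hD0]
    nlinarith
  have hx0 : 0 < x := lt_of_lt_of_le (by positivity) h8
  constructor
  · have h11 := Real.cos_le_one_sub_mul_cos_sq (x := x) (by rw [abs_of_pos hx0]; exact h9)
    have h12 : 2 / (D : ℝ) ^ 2 ≤ 2 / Real.pi ^ 2 * x ^ 2 := by
      calc 2 / (D : ℝ) ^ 2 = 2 / Real.pi ^ 2 * (Real.pi / D) ^ 2 := by field_simp
        _ ≤ _ := by gcongr
    linarith
  · have h10 := Real.one_sub_sq_div_two_le_cos (x := x)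
    have h11 : x ^ 2 ≤ (2 * Real.pi / D) ^ 2 := by gcongr
    have h12 : Real.pi ^ 2 ≤ 10 := by
      have := Real.pi_lt_d2
      nlinarith
    have h13 : (2 * Real.pi / D) ^ 2 / 2 ≤ 20 / (D : ℝ) ^ 2 := by
      rw [div_pow, div_div, div_le_div_iff₀ (by positivity) (by positivity)]
      nlinarith [sq_nonneg (D : ℝ)]
    linarith

lemma small_tori {b : ℝ} (κ : ℝ) (D : ℕ) : ∃ C : ℝ, 0 ≤ C ∧
    ∀ (N : ℕ) [NeZero N], N < D → ∀ k : V N, Pik N b κ k ≤ C := by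
  induction D with
  | zero => exact ⟨0, le_rfl, fun N _ h => absurd h (Nat.not_lt_zero _)⟩
  | succ D ih =>
    obtain ⟨C, hC, h⟩ := ih
    by_cases hD : D = 0
    · refine ⟨C, hC, fun N _ hN k => ?_⟩
      have := NeZero.pos N
      omega
    · have : NeZero D := ⟨hD⟩
      refine ⟨C + ∑ k : V D, |Pik D b κ k|, by positivity, fun N inst hN k => ?_⟩
      rcases Nat.lt_succ_iff_lt_or_eq.1 hN with h1 | h1
      · have h2 := h N h1 k
        have h3 : 0 ≤ ∑ k : V D, |Pik D b κ k| := by positivity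
        linarith
      · subst h1
        have h3 : |Pik N b κ k| ≤ ∑ k : V N, |Pik N b κ k| :=
          Finset.single_le_sum (f := fun k => |Pik N b κ k|) (fun _ _ => abs_nonneg _)
            (Finset.mem_univ k)
        have h4 := le_abs_self (Pik N b κ k)
        linarith

/-- **TOP1, general form** -/
theorem top_of {b : ℝ} (hb : 0 < b) {C κ : ℝ} (hC : 0 < C) (hκ : 0 < κ)
    (h : ∀ (N : ℕ) [NeZero N] (t : ℝ), 0 < t → t ≤ κ → ∀ k : V N, k ≠ 0 →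
      EE k ≤ κ → Pik N b t k ≤ C * (t + EE k)) :
    ∃ C' : ℝ, 0 < C' ∧ ∀ (N : ℕ) [NeZero N] (t : ℝ), 0 < t → t ≤ κ → ∀ k : V N, k ≠ 0 →
      Pik N b t k ≤ C' * (t + EE k) := by
  obtain ⟨D, hD⟩ := exists_nat_ge (2 + 80 / κ)
  have h80 : 0 < 80 / κ := by positivity
  have hD2 : 2 ≤ D := by
    have : (2 : ℝ) ≤ D := by linarith
    exact_mod_cast this
  have hD0 : (0 : ℝ) < D := by linarith
  have hDκ : 80 / (D : ℝ) ^ 2 ≤ κ := by
    rw [div_le_iff₀ (by positivity)]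
    have h1 : 80 / κ ≤ (D : ℝ) ^ 2 := by nlinarith
    rw [div_le_iff₀ hκ] at h1
    linarith
  obtain ⟨C1, hC1, h1⟩ := small_tori (b := b) κ D
  refine ⟨C * (D : ℝ) ^ 4 + C1 * (D : ℝ) ^ 2 / 16, by positivity, fun N _ t ht htκ k hk => ?_⟩
  have hE0 : 0 ≤ EE k := H462.EE_nonneg k
  have hD1 : (1 : ℝ) ≤ (D : ℝ) ^ 4 := one_le_pow₀ (by linarith)
  by_cases hND : N < D
  · have h2 := H864.Pik_mono (N := N) hb ht htκ k
    have h3 := h1 N hND k
    have h4 := H462.EE_gap hk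
    have hN0 : (0 : ℝ) < N := by exact_mod_cast NeZero.pos N
    have hNr : (N : ℝ) ≤ D := by exact_mod_cast hND.le
    have h5 : 1 ≤ (D : ℝ) ^ 2 / 16 * EE k := by
      rw [div_le_iff₀ (by positivity)] at h4
      have h6 : EE k * (N : ℝ) ^ 2 ≤ EE k * (D : ℝ) ^ 2 := by gcongr
      linarith
    have h7 : C1 ≤ C1 * (D : ℝ) ^ 2 / 16 * EE k := by
      calc C1 = C1 * 1 := (mul_one _).symm
        _ ≤ C1 * ((D : ℝ) ^ 2 / 16 * EE k) := mul_le_mul_of_nonneg_left h5 hC1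
        _ = _ := by ring
    have h8 : 0 ≤ C * (D : ℝ) ^ 4 * (t + EE k) := by positivity
    have h9 : 0 ≤ C1 * (D : ℝ) ^ 2 / 16 * t := by positivity
    nlinarith
  push Not at hND
  have hpos : 0 ≤ C1 * (D : ℝ) ^ 2 / 16 * (t + EE k) := by positivity
  by_cases hkκ : EE k ≤ κ
  · have h2 := h N t ht htκ k hk hkκ
    have h3 : C * (t + EE k) ≤ C * (D : ℝ) ^ 4 * (t + EE k) := by
      have h4 : 0 ≤ C * (t + EE k) := by positivity
      nlinarith
    rw [add_mul]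
    linarith
  push Not at hkκ
  obtain ⟨g1, g2⟩ := exists_mid (N := N) hD2 hND
  obtain ⟨p, hp⟩ : ∃ p : ZMod N, p = ((N / D : ℕ) : ZMod N) := ⟨_, rfl⟩
  rw [← hp] at g1 g2
  have hS0 : 0 < 1 - cN p := lt_of_lt_of_le (by positivity) g1
  have hR : 2 / (1 - cN p) ≤ (D : ℝ) ^ 2 := by
    rw [div_le_iff₀ hS0]
    rw [div_le_iff₀ (by positivity)] at g1
    linarith
  have hDD : (1 : ℝ) ≤ (D : ℝ) ^ 2 := one_le_pow₀ (by linarith)
  have hp0 : p ≠ 0 := by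
    intro h0
    rw [h0, H764.cN_zero] at hS0
    linarith
  -- the reduced coordinates
  obtain ⟨R, hRd⟩ : ∃ R : ZMod N → ZMod N, ∀ q, R q = if cN q ≤ cN p then p else q :=
    ⟨fun q => if cN q ≤ cN p then p else q, fun q => rfl⟩
  have r1 : ∀ q r : ZMod N, Pik N b t (q, r) ≤ (D : ℝ) ^ 2 * Pik N b t (R q, r) := by
    intro q r
    have h0 := H864.Pik_nonneg (N := N) hb ht (R q, r)
    rw [hRd] at h0 ⊢
    by_cases hq : cN q ≤ cN p
    · rw [if_pos hq] at h0 ⊢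
      exact (red1 hb ht r (by linarith) hq).trans (mul_le_mul_of_nonneg_right hR h0)
    · rw [if_neg hq] at h0 ⊢
      nlinarith
  have r2 : ∀ q r : ZMod N, Pik N b t (q, r) ≤ (D : ℝ) ^ 2 * Pik N b t (q, R r) := by
    intro q r
    have h2 := r1 r q
    rw [show Pik N b t (r, q) = Pik N b t (q, r) from H864.Pik_swp (N := N) t (q, r),
      show Pik N b t (R r, q) = Pik N b t (q, R r) from H864.Pik_swp (N := N) t (q, R r)] at h2
    exact h2
  have r3 : ∀ q : ZMod N, 1 - cN (R q) ≤ 1 - cN p := by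
    intro q
    rw [hRd]
    split_ifs with hq
    · exact le_rfl
    · push Not at hq
      linarith
  have hE' : EE (R k.1, R k.2) ≤ κ := by
    have h3 := r3 k.1
    have h4 := r3 k.2
    have h5 : EE (R k.1, R k.2) = 2 * (1 - cN (R k.1)) + 2 * (1 - cN (R k.2)) := rfl
    have h6 : 4 * (20 / (D : ℝ) ^ 2) = 80 / (D : ℝ) ^ 2 := by ring
    linarith
  have hk' : ((R k.1, R k.2) : V N) ≠ 0 := by
    intro h0
    have h01 : R k.1 = 0 := congrArg Prod.fst h0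
    have h02 : R k.2 = 0 := congrArg Prod.snd h0
    have h5 : EE k = 2 * (1 - cN k.1) + 2 * (1 - cN k.2) := rfl
    rw [hRd] at h01 h02
    have h6 : ¬ cN k.1 ≤ cN p := fun h => by
      rw [if_pos h] at h01
      exact hp0 h01
    have h7 : ¬ cN k.2 ≤ cN p := fun h => by
      rw [if_pos h] at h02
      exact hp0 h02
    push Not at h6 h7
    have h8 : 4 * (20 / (D : ℝ) ^ 2) = 80 / (D : ℝ) ^ 2 := by ring
    linarith
  have h9 := h N t ht htκ (R k.1, R k.2) hk' hE'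
  have h10 : C * (t + EE (R k.1, R k.2)) ≤ C * (t + EE k) :=
    mul_le_mul_of_nonneg_left (by linarith) hC.le
  have h11 := H864.Pik_nonneg (N := N) hb ht (R k.1, R k.2)
  calc Pik N b t k = Pik N b t (k.1, k.2) := rfl
    _ ≤ (D : ℝ) ^ 2 * Pik N b t (R k.1, k.2) := r1 _ _
    _ ≤ (D : ℝ) ^ 2 * ((D : ℝ) ^ 2 * Pik N b t (R k.1, R k.2)) :=
        mul_le_mul_of_nonneg_left (r2 _ _) (by positivity)
    _ ≤ (D : ℝ) ^ 2 * ((D : ℝ) ^ 2 * (C * (t + EE k))) := by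
        gcongr
        exact h9.trans h10
    _ = C * (D : ℝ) ^ 4 * (t + EE k) := by ring
    _ ≤ _ := by
        rw [add_mul]
        linarith

/-- **TOP1** -/
theorem top1 {b : ℝ} (hb : 0 < b) (hh : 0 < helicity b) (hs : 1 / helicity b < 5 / 2) :
    ∃ C t1 : ℝ, 0 < C ∧ 0 < t1 ∧ ∀ (N : ℕ) [NeZero N] (t : ℝ), 0 < t → t ≤ t1 →
      ∀ k : V N, k ≠ 0 → Pik N b t k ≤ C * (t + EE k) := by
  obtain ⟨a, ha, K, m1, -, h⟩ := (startQ hb hh hs).qk_all hb
  obtain ⟨C, κ, hC, hκ, h⟩ := top_small hb ha h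
  obtain ⟨C', hC', h⟩ := top_of hb hC hκ h
  exact ⟨C', κ, hC', hκ, h⟩

/-- **TOP1 at the critical point** -/
theorem top1_crit : ∃ C t1 : ℝ, 0 < C ∧ 0 < t1 ∧ ∀ (N : ℕ) [NeZero N] (t : ℝ), 0 < t → t ≤ t1 →
    ∀ k : V N, k ≠ 0 → Pik N bCrit t k ≤ C * (t + EE k) := by
  obtain ⟨a, ha, K, m1, -, h⟩ := startQ_crit.qk_all H170.bCrit_pos
  obtain ⟨C, κ, hC, hκ, h⟩ := top_small H170.bCrit_pos ha h
  obtain ⟨C', hC', h⟩ := top_of H170.bCrit_pos hC hκ h
  exact ⟨C', κ, hC', hκ, h⟩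

end Vale.Agent.P159.H280
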