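import Vale.Agent.P159.H280.StR
import Vale.Agent.P159.H280.Top1
import Vale.Agent.P159.H43.Nkt1
import Vale.Agent.P159.H197.Flat

/-!
P159, START of `P_up` (helper280), part 2: the flat profile `H972.FL` (neutral, quartic form, every
momentum) at the start.
-/

open Real Filter Topology

namespace Vale.Agent.P159.H280

open Vale.Agent.P159.TM.SpecC (wT)
open Vale.Agent.P159.TM.H764 (EE)
open Vale.Agent.P159.TM.Spec (V)
open Vale.Agent.P159.TM
open Vale.Agent.P159.H37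
open Vale.Agent.P159.H972 (Par lg tn FL)
open Vale.Agent.P159.H145 (OscZ)
open Vale.Agent.P159.H963 (Pin Gnh)
open Vale.Agent.P159.H864 (sym)

lemma FL.mono {b t a η η' : ℝ} {N : ℕ} [NeZero N] (h : FL b t a η N) (ht : 0 < t) (hη : η ≤ η') :
    FL b t a η' N := by
  obtain ⟨z, a', h1, h2, h3, h4⟩ := h
  refine ⟨z, a', h1, h2.trans hη, h3.trans hη, fun k hk => (h4 k hk).trans ?_⟩
  have : η * EE k ^ 2 ≤ η' * EE k ^ 2 := mul_le_mul_of_nonneg_right hη (sq_nonneg _)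
  exact div_le_div_of_nonneg_right this ht.le

/-- neutral against integer self energy -/
lemma Pin_ge {N : ℕ} [NeZero N] {b t ω : ℝ} (hb : 0 < b) (ht : 0 < t)
    (hO : OscZ (wT b N) ((2 * t) • (1 : Matrix (V N) (V N) ℝ)) ω)
    (hO' : OscZ (wT b N) (t • (1 : Matrix (V N) (V N) ℝ)) ω) (hω0 : 0 ≤ ω) (hω : ω ≤ 1 / 2)
    {k : V N} (hk : k ≠ 0) :
    Pik N b t k - 10 * ω / t * (t + Pik N b t k) ^ 2 ≤ Pin N b t k := by
  have h1 := H43.sym_const_le (N := N) hb.le ht hO hω0 hO' (by linarith) hk (c := 0)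
    ⟨le_rfl, zero_le_one⟩
  have e1 : H43.Gcc N b t 0 = Gm (wt N b t) := by
    unfold H43.Gcc Gm
    congr 1
    funext x
    simp
  rw [e1, H864.sym_Gm_wt] at h1
  have hg := H864.Ght_pos (N := N) hb ht k
  have hgn := H963.Gnh_pos (N := N) hb ht hk
  have hle := H963.Ght_le_Gnh (N := N) hb.le ht hk
  have hP0 := H963.Pin_nonneg (N := N) hb ht hk
  have hPP := H963.Pin_le_Pik (N := N) hb ht hk
  have h2 : (4 * ω + ω) / (1 - ω) / t ≤ 10 * ω / t := by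
    refine div_le_div_of_nonneg_right ?_ ht.le
    rw [div_le_iff₀ (by linarith)]
    nlinarith
  have h3 : Gnh N b t k - Ght N b t k ≤ 10 * ω / t := by
    have := (abs_le.1 (h1.trans h2)).1
    linarith
  have e2 : t + Pik N b t k = (Ght N b t k)⁻¹ := by
    unfold Pik
    ring
  have e3 : t + Pin N b t k = (Gnh N b t k)⁻¹ := by
    unfold Pin
    ring
  have h4 : Pik N b t k - Pin N b t k =
      (Gnh N b t k - Ght N b t k) * ((t + Pik N b t k) * (t + Pin N b t k)) := by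
    rw [e2, e3]
    have : Pik N b t k - Pin N b t k = (Ght N b t k)⁻¹ - (Gnh N b t k)⁻¹ := by
      rw [← e2, ← e3]
      ring
    rw [this]
    field_simp
  have h5 : (t + Pik N b t k) * (t + Pin N b t k) ≤ (t + Pik N b t k) ^ 2 := by
    rw [pow_two]
    exact mul_le_mul_of_nonneg_left (by linarith) (by linarith)
  have h6 : 0 ≤ Gnh N b t k - Ght N b t k := by linarith
  have h7 : (Gnh N b t k - Ght N b t k) * ((t + Pik N b t k) * (t + Pin N b t k)) ≤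
      10 * ω / t * (t + Pik N b t k) ^ 2 := by
    refine mul_le_mul h3 h5 ?_ (by positivity)
    have h8 : 0 ≤ t + Pik N b t k := by linarith
    have h9 : 0 ≤ t + Pin N b t k := by linarith
    positivity
  linarith

/-- from the start profile to `FL` -/
theorem fl_of {N : ℕ} [NeZero N] {b t Y C2 e1 δ ω η : ℝ} {i : ℕ} (hb : 0 < b) (ht : 0 < t)
    (hY0 : 0 < Y) (hC2 : 0 < C2) (hgap : ∀ k : V N, k ≠ 0 → t ≤ 4 ^ i * EE k)
    (hlow : ∀ k : V N, EE k / Y - δ * (t + EE k) * (1 + EE k / t) ≤ Pik N b t k)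
    (hup : ∀ k : V N, e1 * (1 + EE k / t) ≤ 1 →
      Pik N b t k ≤ EE k / Y + e1 * (t + EE k) * (1 + EE k / t))
    (htop : ∀ k : V N, k ≠ 0 → Pik N b t k ≤ C2 * (t + EE k))
    (hO : OscZ (wT b N) ((2 * t) • (1 : Matrix (V N) (V N) ℝ)) ω)
    (hO' : OscZ (wT b N) (t • (1 : Matrix (V N) (V N) ℝ)) ω) (hω0 : 0 ≤ ω) (hω : ω ≤ 1 / 2)
    (he1 : 0 ≤ e1) (he12 : e1 ≤ 1 / 2) (hδ : 0 ≤ δ)
    (hη : 4 * 16 ^ i * ((1 + C2) * e1 + δ + 10 * ω * (1 + C2) ^ 2) ≤ η) :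
    FL b t (1 / Y) η N := by
  have hη0 : 0 ≤ η := le_trans (by positivity) hη
  refine ⟨0, 1 / Y, le_rfl, by rw [zero_mul]; exact hη0, by rw [sub_self, abs_zero]; exact hη0,
    fun k hk => ?_⟩
  obtain ⟨E, hE⟩ : ∃ E : ℝ, E = EE k := ⟨_, rfl⟩
  have hE0 : 0 ≤ E := hE ▸ H462.EE_nonneg k
  have g := hgap k hk
  have low := hlow k
  have up := hup k
  have top := htop k hk
  have neu := Pin_ge hb ht hO hO' hω0 hω hk
  have hPP := H963.Pin_le_Pik (N := N) hb ht hk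
  have hP0 := H864.Pik_nonneg (N := N) hb ht k
  rw [← hE] at g low up top ⊢
  obtain ⟨Q, hQ⟩ : ∃ Q : ℝ, Q = E ^ 2 / t := ⟨_, rfl⟩
  have hQ0 : 0 ≤ Q := by rw [hQ]; positivity
  have hpow1 : (1 : ℝ) ≤ 4 ^ i := one_le_pow₀ (by norm_num)
  have e16 : (16 : ℝ) ^ i = 4 ^ i * 4 ^ i := by
    rw [← mul_pow]
    norm_num
  have hs : t + E ≤ 2 * 4 ^ i * E := by
    have : E ≤ 4 ^ i * E := le_mul_of_one_le_left hE0 hpow1
    linarith
  have hs2 : (t + E) ^ 2 / t ≤ 4 * 16 ^ i * Q := by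
    rw [hQ, ← mul_div_assoc]
    refine div_le_div_of_nonneg_right ?_ ht.le
    have h1 := pow_le_pow_left₀ (by positivity) hs 2
    refine h1.trans (le_of_eq ?_)
    rw [e16]
    ring
  have hform : ∀ x : ℝ, x * (t + E) * (1 + E / t) = x * ((t + E) ^ 2 / t) := by
    intro x
    field_simp
  rw [hform] at low
  have low2 : E / Y - δ * (4 * 16 ^ i * Q) ≤ Pik N b t k := by
    have := mul_le_mul_of_nonneg_left hs2 hδ
    linarith
  have hexp : 4 * (16 ^ i * e1 * Q) + 4 * (16 ^ i * (C2 * e1) * Q) + δ * (4 * 16 ^ i * Q) +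
      10 * ω * (1 + C2) ^ 2 * (4 * 16 ^ i * Q) ≤ η * Q := by
    refine le_trans (le_of_eq ?_) (mul_le_mul_of_nonneg_right hη hQ0)
    ring
  have n1 : 0 ≤ 16 ^ i * (C2 * e1) * Q := by positivity
  have n2 : 0 ≤ 16 ^ i * e1 * Q := by positivity
  have n3 : 0 ≤ δ * (4 * 16 ^ i * Q) := by positivity
  have n4 : 0 ≤ 10 * ω * (1 + C2) ^ 2 * (4 * 16 ^ i * Q) := by positivity
  have hEY : 1 / Y * E = E / Y := by ring
  have hη2 : η * E ^ 2 / t = η * Q := by rw [hQ]; ring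
  have hEY0 : 0 ≤ E / Y := by positivity
  rw [sub_zero, hEY, hη2, abs_le]
  constructor
  · -- lower bound
    have h1 : t + Pik N b t k ≤ (1 + C2) * (t + E) := by
      have : (1 + C2) * (t + E) = (t + E) + C2 * (t + E) := by ring
      linarith
    have h2 : 10 * ω / t * (t + Pik N b t k) ^ 2 ≤ 10 * ω / t * ((1 + C2) * (t + E)) ^ 2 := by
      have h3 : 0 ≤ t + Pik N b t k := by linarith
      gcongr
    have h3 : 10 * ω / t * ((1 + C2) * (t + E)) ^ 2 =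
        10 * ω * (1 + C2) ^ 2 * ((t + E) ^ 2 / t) := by
      field_simp
    have h4 : 10 * ω * (1 + C2) ^ 2 * ((t + E) ^ 2 / t) ≤
        10 * ω * (1 + C2) ^ 2 * (4 * 16 ^ i * Q) :=
      mul_le_mul_of_nonneg_left hs2 (by positivity)
    linarith
  · by_cases hsm : e1 * (1 + E / t) ≤ 1
    · have h1 := up hsm
      rw [hform] at h1
      have h2 := mul_le_mul_of_nonneg_left hs2 he1
      have h3 : e1 * (4 * 16 ^ i * Q) = 4 * (16 ^ i * e1 * Q) := by ring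
      linarith
    · push Not at hsm
      have h1 : 1 / 2 ≤ e1 * (E / t) := by
        have : e1 * (1 + E / t) = e1 + e1 * (E / t) := by ring
        linarith
      have h2 : E ≤ 2 * e1 * Q := by
        have h3 : E * (1 / 2) ≤ E * (e1 * (E / t)) := mul_le_mul_of_nonneg_left h1 hE0
        have h4 : E * (e1 * (E / t)) = e1 * Q := by rw [hQ]; ring
        linarith
      have h3 : C2 * (t + E) ≤ C2 * (2 * 4 ^ i * (2 * e1 * Q)) := by
        refine mul_le_mul_of_nonneg_left (hs.trans ?_) hC2.le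
        exact mul_le_mul_of_nonneg_left h2 (by positivity)
      have h4 : C2 * (2 * 4 ^ i * (2 * e1 * Q)) ≤ 4 * (16 ^ i * (C2 * e1) * Q) := by
        have h5 : (4 : ℝ) ^ i ≤ 16 ^ i := pow_le_pow_left₀ (by norm_num) (by norm_num) i
        have h6 : 0 ≤ 4 * (C2 * e1) * Q := by positivity
        calc C2 * (2 * 4 ^ i * (2 * e1 * Q)) = 4 ^ i * (4 * (C2 * e1) * Q) := by ring
          _ ≤ 16 ^ i * (4 * (C2 * e1) * Q) := mul_le_mul_of_nonneg_right h5 h6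
          _ = _ := by ring
      linarith

/-- **the flat profile at the start**, torus of `2 ^ i` correlation lengths -/
theorem start_fl {b : ℝ} (hb : 0 < b) (hY : 2 / Real.pi ≤ helicity b) :
    ∃ c C : ℝ, 0 < c ∧ 0 < C ∧ ∃ i0 : ℕ, ∀ I : ℕ, ∀ δ : ℝ, 0 < δ → δ ≤ 1 → ∃ m0 : ℕ,
      ∀ i : ℕ, i0 ≤ i → i ≤ I → C * (2 ^ i) ^ 6 * Real.exp (-(c * 2 ^ i)) ≤ 1 → ∀ m : ℕ, m0 ≤ m →
        FL b (tn m) (1 / helicity b) (C * (2 ^ i) ^ 6 * Real.exp (-(c * 2 ^ i)) + δ)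
          (2 ^ (i + m)) := by
  obtain ⟨hY0, hY2⟩ := H197.inv_Y_le hY
  have hs : 1 / helicity b < 5 / 2 := by linarith
  obtain ⟨c1, C1, hc1, hC1, hflat⟩ := H197.start_flat hb hY
  obtain ⟨C2, t1, hC2, ht1, htop⟩ := top1 hb hY0 hs
  obtain ⟨c3, hc3, i3, hosc⟩ := start_osc hb hY0 hs
  have hcm : 0 < min c1 c3 := lt_min hc1 hc3
  obtain ⟨C, hCd⟩ : ∃ C : ℝ, C = 4 * (1 + C2) * C1 + 1280 * (1 + C2) ^ 2 := ⟨_, rfl⟩
  have hC : 0 < C := by rw [hCd]; positivity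
  refine ⟨min c1 c3, C, hcm, hC, max 3 i3, fun I δ hδ hδ1 => ?_⟩
  obtain ⟨δ', hδ'⟩ : ∃ δ' : ℝ, δ' = δ / (4 * 16 ^ I * (2 + C2)) := ⟨_, rfl⟩
  have hδ'0 : 0 < δ' := by rw [hδ']; positivity
  have hδ'4 : δ' ≤ 1 / 4 := by
    rw [hδ', div_le_iff₀ (by positivity)]
    have h1 : (1 : ℝ) ≤ 16 ^ I := one_le_pow₀ (by norm_num)
    nlinarith
  -- choose the levels
  have hex : ∀ i : ℕ, 3 ≤ i → ∃ m₀ : ℕ, ∀ m : ℕ, m₀ ≤ m →
      ∀ k : V (2 ^ (i + m)), ∀ t : ℝ, t = 1 / ((2 ^ m : ℕ) : ℝ) ^ 2 →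
        EE k / helicity b - δ' * (t + EE k) * (1 + EE k / t) ≤ Pik (2 ^ (i + m)) b t k ∧
        ((C1 * Real.exp (-(c1 * 2 ^ i)) + δ') * (1 + EE k / t) ≤ 1 →
          Pik (2 ^ (i + m)) b t k ≤ EE k / helicity b +
            (C1 * Real.exp (-(c1 * 2 ^ i)) + δ') * (t + EE k) * (1 + EE k / t)) :=
    fun i hi => hflat i hi δ' hδ'0
  choose! M hM using hex
  obtain ⟨m1, hm1⟩ := hosc I
  obtain ⟨m2, hm2⟩ : ∃ m2 : ℕ, ∀ m : ℕ, m2 ≤ m → tn m ≤ t1 := by
    have hT : Tendsto (fun m : ℕ => tn m) atTop (𝓝 0) := by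
      have h1 : Tendsto (fun m : ℕ => ((1 / 4 : ℝ)) ^ m) atTop (𝓝 0) :=
        tendsto_pow_atTop_nhds_zero_of_lt_one (by norm_num) (by norm_num)
      refine h1.congr fun m => ?_
      unfold tn
      rw [one_div, inv_pow]
    exact eventually_atTop.1 (hT.eventually_le_const ht1)
  refine ⟨∑ i ∈ Finset.range (I + 1), M i + m1 + m2, fun i hi hiI hsm m hm => ?_⟩
  have hMi : M i ≤ m := by
    have h1 : M i ≤ ∑ i ∈ Finset.range (I + 1), M i :=
      Finset.single_le_sum (f := M) (fun _ _ => Nat.zero_le _) (Finset.mem_range.2 (by omega))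
    omega
  have h3i : 3 ≤ i := (le_max_left _ _).trans hi
  obtain ⟨x, hx⟩ : ∃ x : ℝ, x = Real.exp (-(min c1 c3 * 2 ^ i)) := ⟨_, rfl⟩
  have hx0 : 0 < x := hx ▸ Real.exp_pos _
  rw [← hx] at hsm ⊢
  have h2i : (0 : ℝ) < 2 ^ i := by positivity
  have hxe1 : Real.exp (-(c1 * 2 ^ i)) ≤ x := by
    rw [hx]
    refine Real.exp_le_exp.2 ?_
    have := mul_le_mul_of_nonneg_right (min_le_left c1 c3) h2i.le
    linarith
  have hxe3 : Real.exp (-(c3 * 2 ^ i)) ≤ x := by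
    rw [hx]
    refine Real.exp_le_exp.2 ?_
    have := mul_le_mul_of_nonneg_right (min_le_right c1 c3) h2i.le
    linarith
  have e6 : ((2 : ℝ) ^ i) ^ 6 = 64 ^ i := by
    rw [← pow_mul, mul_comm, pow_mul]
    norm_num
  rw [e6] at hsm ⊢
  have h64 : (1 : ℝ) ≤ 64 ^ i := one_le_pow₀ (by norm_num)
  have h16 : (1 : ℝ) ≤ 16 ^ i := one_le_pow₀ (by norm_num)
  have h4 : (1 : ℝ) ≤ 4 ^ i := one_le_pow₀ (by norm_num)
  have h4e : (64 : ℝ) ^ i = 16 ^ i * 4 ^ i := by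
    rw [← mul_pow]
    norm_num
  have hx64 : (0 : ℝ) ≤ 64 ^ i * x := by positivity
  have h44 : (4 : ℝ) ^ i * x ≤ 64 ^ i * x := by
    rw [h4e]
    have : (4 : ℝ) ^ i ≤ 16 ^ i * 4 ^ i := le_mul_of_one_le_left (by positivity) h16
    exact mul_le_mul_of_nonneg_right this hx0.le
  have hCx : C * (64 ^ i * x) ≤ 1 := by linarith
  have hC1280 : 1280 ≤ C := by
    rw [hCd]
    have h1 : (1 : ℝ) ≤ (1 + C2) ^ 2 := one_le_pow₀ (by linarith)
    have h2 : 0 ≤ 4 * (1 + C2) * C1 := by positivity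
    linarith
  have hx1280 : 1280 * (64 ^ i * x) ≤ 1 := (mul_le_mul_of_nonneg_right hC1280 hx64).trans hCx
  -- the oscillation
  obtain ⟨ω, hω⟩ : ∃ ω : ℝ, ω = 32 * 4 ^ i * Real.exp (-(c3 * 2 ^ i)) := ⟨_, rfl⟩
  have hωx : ω ≤ 32 * (4 ^ i * x) := by
    rw [hω, mul_assoc]
    gcongr
  have hω0 : 0 ≤ ω := by rw [hω]; positivity
  have hos : 64 * 4 ^ i * Real.exp (-(c3 * 2 ^ i)) ≤ 1 := by
    have : 64 * 4 ^ i * Real.exp (-(c3 * 2 ^ i)) ≤ 64 * (4 ^ i * x) := by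
      rw [mul_assoc]
      gcongr
    linarith
  have htm := tn_pos m
  have hO := hm1 i ((le_max_right _ _).trans hi) hiI m (by omega) (2 * tn m) (by linarith)
    (by linarith) hos
  have hO' := hm1 i ((le_max_right _ _).trans hi) hiI m (by omega) (tn m) le_rfl
    (by linarith) hos
  rw [← hω] at hO hO'
  have hfl := fun k : V (2 ^ (i + m)) => hM i h3i m hMi k (tn m) (tn_eq m)
  obtain ⟨e1, he1⟩ : ∃ e1 : ℝ, e1 = C1 * Real.exp (-(c1 * 2 ^ i)) + δ' := ⟨_, rfl⟩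
  have he10 : 0 ≤ e1 := by rw [he1]; positivity
  have hC1x : C1 * Real.exp (-(c1 * 2 ^ i)) ≤ C1 * x := by gcongr
  have hC1C : C1 * x ≤ 1 / 4 := by
    have h1 : 4 * C1 ≤ C := by
      rw [hCd]
      nlinarith [mul_pos hC2 hC1]
    have h2 : x ≤ 64 ^ i * x := le_mul_of_one_le_left hx0.le h64
    have h3 : 4 * C1 * x ≤ C * (64 ^ i * x) := mul_le_mul h1 h2 hx0.le hC.le
    linarith
  refine fl_of (i := i) hb htm hY0 hC2 (fun k hk => ?_) (fun k => (hfl k).1) (e1 := e1)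
    (fun k h => ?_) (fun k hk => htop _ _ htm (hm2 m (by omega)) k hk) hO hO' hω0 (by linarith)
    he10 (by rw [he1]; linarith) hδ'0.le ?_
  · have h1 := H462.EE_gap hk
    have h2 : ((2 ^ (i + m) : ℕ) : ℝ) ^ 2 = 4 ^ i / tn m := by
      unfold tn
      push_cast
      rw [← pow_mul, mul_comm (i + m) 2, pow_mul, pow_add]
      norm_num
    rw [h2, div_div_eq_mul_div, div_le_iff₀ (by positivity)] at h1
    linarith
  · rw [he1] at h ⊢
    exact (hfl k).2 h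
  · -- the number
    have h1 : 4 * 16 ^ i * ((1 + C2) * e1 + δ' + 10 * ω * (1 + C2) ^ 2) ≤
        4 * 16 ^ i * ((1 + C2) * (C1 * x) + (2 + C2) * δ' + 320 * (4 ^ i * x) * (1 + C2) ^ 2) := by
      have h2 : (1 + C2) * e1 ≤ (1 + C2) * (C1 * x) + (1 + C2) * δ' := by
        rw [he1, mul_add]
        gcongr
      have h3 : 10 * ω * (1 + C2) ^ 2 ≤ 320 * (4 ^ i * x) * (1 + C2) ^ 2 := by
        have : 10 * ω ≤ 320 * (4 ^ i * x) := by linarith
        gcongr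
      refine mul_le_mul_of_nonneg_left ?_ (by positivity)
      linarith
    refine h1.trans ?_
    have h5 : 4 * 16 ^ i * ((2 + C2) * δ') ≤ δ := by
      have h6 : (16 : ℝ) ^ i ≤ 16 ^ I := pow_le_pow_right₀ (by norm_num) hiI
      have h7 : 4 * 16 ^ I * ((2 + C2) * δ') = δ := by
        rw [hδ']
        field_simp
      rw [← h7]
      gcongr
    have h8 : 4 * 16 ^ i * ((1 + C2) * (C1 * x)) ≤ 4 * (1 + C2) * C1 * (64 ^ i * x) := by
      have h9 : (16 : ℝ) ^ i ≤ 64 ^ i := pow_le_pow_left₀ (by norm_num) (by norm_num) i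
      calc 4 * 16 ^ i * ((1 + C2) * (C1 * x)) = 16 ^ i * (4 * (1 + C2) * C1 * x) := by ring
        _ ≤ 64 ^ i * (4 * (1 + C2) * C1 * x) := mul_le_mul_of_nonneg_right h9 (by positivity)
        _ = _ := by ring
    have h10 : 4 * 16 ^ i * (320 * (4 ^ i * x) * (1 + C2) ^ 2) =
        1280 * (1 + C2) ^ 2 * (64 ^ i * x) := by
      rw [h4e]
      ring
    have h11 : C * 64 ^ i * x = 4 * (1 + C2) * C1 * (64 ^ i * x) +
        1280 * (1 + C2) ^ 2 * (64 ^ i * x) := by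
      rw [hCd]
      ring
    rw [h11]
    linarith

/-- **the field `flat` at the start** -/
theorem start_F {b : ℝ} (hb : 0 < b) (hY : 2 / Real.pi ≤ helicity b) {th pf : ℝ} (hth : 0 < th) :
    ∃ es0 : ℝ, 0 < es0 ∧ ∀ P : Par, P.th = th → P.pf = pf → P.es ≤ es0 → ∀ e0 : ℝ, 0 < e0 →
      ∃ n0 : ℕ, ∀ n : ℕ, n0 ≤ n → ∀ e : ℝ, e0 ≤ e → e ≤ P.es → ∀ r : ℕ, P.TT n e r →
        FL b (tn n) (1 / helicity b) (e ^ P.pf) (2 ^ r) ∧
          FL b (4 * tn n) (1 / helicity b) (e ^ P.pf) (2 ^ r) := by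
  obtain ⟨c, C, hc, hC, i0, h⟩ := start_fl hb hY
  obtain ⟨es1, hes1, hes11, hE1⟩ := exp_beat (th := th) (q := |pf| + 1) (c := c) (C := C) 6 hth hc
  have hlim : Tendsto (fun z : ℝ => z ^ th) atTop atTop := tendsto_rpow_atTop hth
  obtain ⟨z0, hz0⟩ := eventually_atTop.1 (hlim.eventually_ge_atTop ((2 : ℝ) ^ i0))
  obtain ⟨Z, hZ⟩ : ∃ Z : ℝ, Z = max 1 z0 := ⟨_, rfl⟩
  have hZ1 : 1 ≤ Z := hZ ▸ le_max_left _ _
  have hZz : z0 ≤ Z := hZ ▸ le_max_right _ _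
  refine ⟨min es1 (1 / Z), by positivity, fun P hPth hPpf hPes e0 he0 => ?_⟩
  obtain ⟨δ, hδd⟩ : ∃ δ : ℝ, δ = min 1 (e0 ^ |pf| / 2) := ⟨_, rfl⟩
  have hδ : 0 < δ := by rw [hδd]; exact lt_min one_pos (by positivity)
  obtain ⟨m0, hm0⟩ := h (P.kE e0 + P.q0 * (4 * P.w e0) + 1) δ hδ (by
    rw [hδd]
    exact min_le_left _ _)
  refine ⟨m0 + 1, fun n hn e hee hes r hr => ?_⟩
  have he : 0 < e := he0.trans_le hee
  have he12 : e ≤ 1 / 2 := hes.trans P.es1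
  have hes1' : e ≤ es1 := hes.trans (hPes.trans (min_le_left _ _))
  have heZ : e ≤ 1 / Z := hes.trans (hPes.trans (min_le_right _ _))
  have he1 : 1 ≤ 1 / e := by
    rw [le_div_iff₀ he, one_mul]
    linarith
  obtain ⟨h1, h2⟩ := hr
  have h3 : P.kE e ≤ P.kE e0 := H972.lg_anti P.th0.le he0 hee
  have h4 : P.w e ≤ P.w e0 := H972.lg_anti P.thp0.le he0 hee
  have h5 : P.q0 * (4 * P.w e) ≤ P.q0 * (4 * P.w e0) := Nat.mul_le_mul_left _ (by omega)
  obtain ⟨i, hri, hik⟩ : ∃ i, r = i + n ∧ P.kE e ≤ i := ⟨r - n, by omega, by omega⟩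
  have hith : (1 / e) ^ th ≤ (2 : ℝ) ^ i := by
    rw [← hPth]
    exact (pow_lg he).trans (pow_le_pow_right₀ (by norm_num) hik)
  have hi0 : i0 ≤ i := by
    have h6 : (2 : ℝ) ^ i0 ≤ (2 : ℝ) ^ i := by
      refine (hz0 (1 / e) ?_).trans hith
      refine hZz.trans ?_
      rw [le_div_iff₀ he]
      rw [le_div_iff₀ (by linarith)] at heZ
      linarith
    exact (pow_le_pow_iff_right₀ (by norm_num)).1 h6
  have hδe : δ ≤ e ^ P.pf / 2 := by
    rw [hδd, hPpf]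
    refine (min_le_right _ _).trans ?_
    have h7 : e0 ^ |pf| ≤ e ^ |pf| := Real.rpow_le_rpow he0.le hee (abs_nonneg _)
    have h8 : e ^ |pf| ≤ e ^ pf :=
      Real.rpow_le_rpow_of_exponent_ge he (by linarith) (le_abs_self _)
    linarith
  have hnum : ∀ j : ℕ, i ≤ j → C * (2 ^ j) ^ 6 * Real.exp (-(c * 2 ^ j)) ≤ e ^ P.pf / 2 ∧
      C * (2 ^ j) ^ 6 * Real.exp (-(c * 2 ^ j)) ≤ 1 := by
    intro j hj
    have h7 := hE1 e he hes1' (2 ^ j) (hith.trans (pow_le_pow_right₀ (by norm_num) hj))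
    have h8 : e ^ (|pf| + 1) = e ^ |pf| * e := by
      rw [Real.rpow_add he, Real.rpow_one]
    have h9 : e ^ |pf| ≤ e ^ pf :=
      Real.rpow_le_rpow_of_exponent_ge he (by linarith) (le_abs_self _)
    have h10 : e ^ |pf| ≤ 1 := Real.rpow_le_one he.le (by linarith) (abs_nonneg _)
    have h11 : 0 < e ^ |pf| := by positivity
    rw [h8] at h7
    rw [hPpf]
    constructor
    · nlinarith
    · nlinarith
  constructor
  · have hk := hnum i le_rfl
    have h7 := hm0 i hi0 (by omega) hk.2 n (by omega)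
    subst hri
    exact FL.mono h7 (tn_pos n) (by linarith [hk.1])
  · have hk := hnum (i + 1) (by omega)
    have h7 := hm0 (i + 1) (by omega) (by omega) hk.2 (n - 1) (by omega)
    have e1 : i + 1 + (n - 1) = r := by omega
    rw [e1] at h7
    rw [tn_pred (by omega)]
    exact FL.mono h7 (tn_pos _) (by linarith [hk.1])

end Vale.Agent.P159.H280
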