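import Vale.Agent.P159.H280.Start2
import Vale.Agent.P159.H879.StartY
import Vale.Agent.P159.H972.Good
import Vale.Agent.P159.H145.Loc2T

/-!
P159, START of `P_up` (helper280), part 1: the field `rng` of `H972.GP` and the oscillation numbers
at the start.
-/

open Real Filter Topology

namespace Vale.Agent.P159.H280

open Vale.Agent.P159.TM.SpecC (Kn wT)
open Vale.Agent.P159.TM.Frame (QL)
open Vale.Agent.P159.TM
open Vale.Agent.P159.H37
open Vale.Agent.P159.H972 (Par lg tn RNG)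
open Vale.Agent.P159.H145 (OscZ)

lemma tn_eq (n : ℕ) : tn n = 1 / (((2 ^ n : ℕ) : ℝ)) ^ 2 := by
  unfold tn
  push_cast
  rw [one_div, ← pow_mul, mul_comm n 2, pow_mul]
  norm_num

lemma tn_pos (n : ℕ) : 0 < tn n := by
  unfold tn
  positivity

lemma tn_pred {n : ℕ} (hn : 1 ≤ n) : 4 * tn n = tn (n - 1) := by
  obtain ⟨m, rfl⟩ := Nat.exists_eq_add_of_le' hn
  unfold tn
  rw [Nat.add_sub_cancel, pow_succ]
  field_simp

/-- powers of the scale beat every exponential -/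
lemma exp_beat {th q c C : ℝ} (p : ℕ) (hth : 0 < th) (hc : 0 < c) : ∃ es0 : ℝ, 0 < es0 ∧
    es0 ≤ 1 ∧ ∀ e : ℝ, 0 < e → e ≤ es0 → ∀ z : ℝ, (1 / e) ^ th ≤ z →
      C * z ^ p * Real.exp (-(c * z)) ≤ e ^ q := by
  obtain ⟨s, hs⟩ := exists_nat_ge (|q| / th)
  have hlim : Tendsto (fun z : ℝ => |C| * (1 / c) ^ (p + s) * ((c * z) ^ (p + s) *
      Real.exp (-(c * z)))) atTop (𝓝 (|C| * (1 / c) ^ (p + s) * 0)) :=
    ((Real.tendsto_pow_mul_exp_neg_atTop_nhds_zero (p + s)).comp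
      (tendsto_id.const_mul_atTop hc)).const_mul _
  rw [mul_zero] at hlim
  obtain ⟨z0, hz0⟩ := eventually_atTop.1 (hlim.eventually_le_const one_pos)
  obtain ⟨Z, hZ⟩ : ∃ Z : ℝ, Z = max 1 z0 := ⟨_, rfl⟩
  have hZ1 : 1 ≤ Z := hZ ▸ le_max_left _ _
  have hZz : z0 ≤ Z := hZ ▸ le_max_right _ _
  have hZ0 : 0 < Z := by linarith
  refine ⟨min 1 (Z ^ (-(1 / th))), lt_min one_pos (by positivity), min_le_left _ _,
    fun e he hee z hz => ?_⟩
  have he1 : e ≤ 1 := hee.trans (min_le_left _ _)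
  have he2 : e ≤ Z ^ (-(1 / th)) := hee.trans (min_le_right _ _)
  have h1e : 1 ≤ 1 / e := by rwa [le_div_iff₀ he, one_mul]
  have hZe : Z ≤ (1 / e) ^ th := by
    have h1 : Z ^ (1 / th) ≤ 1 / e := by
      rw [Real.rpow_neg hZ0.le] at he2
      rw [le_div_iff₀ he]
      have h2 : 0 < Z ^ (1 / th) := by positivity
      calc Z ^ (1 / th) * e ≤ Z ^ (1 / th) * (Z ^ (1 / th))⁻¹ := by gcongr
        _ = 1 := mul_inv_cancel₀ h2.ne'
    calc Z = (Z ^ (1 / th)) ^ th := by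
          rw [← Real.rpow_mul hZ0.le, one_div, inv_mul_cancel₀ hth.ne', Real.rpow_one]
      _ ≤ (1 / e) ^ th := Real.rpow_le_rpow (by positivity) h1 hth.le
  have hz1 : 1 ≤ z := hZ1.trans (hZe.trans hz)
  have hzp : 0 < z := by linarith
  have h3 := hz0 z (hZz.trans (hZe.trans hz))
  have h4 : |C| * (1 / c) ^ (p + s) * ((c * z) ^ (p + s) * Real.exp (-(c * z))) =
      |C| * z ^ p * Real.exp (-(c * z)) * z ^ s := by
    rw [mul_pow, pow_add z, one_div, inv_pow]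
    field_simp
  rw [h4] at h3
  have h5 : (z ^ s)⁻¹ ≤ e ^ q := by
    have h6 : z ^ (-(|q| / th)) ≤ e ^ q := by
      have h7 : z ^ (-(|q| / th)) ≤ ((1 / e) ^ th) ^ (-(|q| / th)) :=
        Real.rpow_le_rpow_of_nonpos (by positivity) hz (by
          have : 0 ≤ |q| / th := by positivity
          linarith)
      have h8 : ((1 / e) ^ th) ^ (-(|q| / th)) = e ^ |q| := by
        rw [← Real.rpow_mul (by positivity), one_div, Real.inv_rpow he.le, ← Real.rpow_neg he.le]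
        congr 1
        field_simp
      have h9 : e ^ |q| ≤ e ^ q := Real.rpow_le_rpow_of_exponent_ge he he1 (le_abs_self q)
      linarith
    refine le_trans ?_ h6
    rw [Real.rpow_neg hzp.le]
    refine inv_anti₀ (by positivity) ?_
    rw [← Real.rpow_natCast]
    exact Real.rpow_le_rpow_of_exponent_le hz1 hs
  have h6 : C * z ^ p * Real.exp (-(c * z)) ≤ |C| * z ^ p * Real.exp (-(c * z)) := by
    gcongr
    exact le_abs_self C
  have hzs : 0 < z ^ s := by positivity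
  have h7 : |C| * z ^ p * Real.exp (-(c * z)) ≤ (z ^ s)⁻¹ := by
    rw [← one_div, le_div_iff₀ hzs]
    exact h3
  linarith

lemma pow_lg {c e : ℝ} (he : 0 < e) : (1 / e) ^ c ≤ (2 : ℝ) ^ (lg c e) := by
  have h1 : c * Real.logb 2 (1 / e) ≤ (lg c e : ℝ) := Nat.le_ceil _
  have h2 : (1 / e) ^ c = (2 : ℝ) ^ (c * Real.logb 2 (1 / e)) := by
    rw [mul_comm, Real.rpow_mul (by norm_num), Real.rpow_logb (by norm_num) (by norm_num)
      (by positivity)]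
  rw [h2, ← Real.rpow_natCast]
  exact Real.rpow_le_rpow_of_exponent_le (by norm_num) h1

/-- `StartQ` on tori of `2 ^ i` correlation lengths -/
theorem StartQ.two {b A a1 : ℝ} (h : StartQ b A) (ha : A < a1) : ∃ W0 : ℝ, ∀ W : ℝ, W0 ≤ W →
    ∃ c : ℝ, 0 < c ∧ ∃ i0 : ℕ, ∀ I : ℕ, ∃ m1 : ℕ, ∀ i : ℕ, i0 ≤ i → i ≤ I → ∀ m : ℕ, m1 ≤ m →
      QL 10 W b (2 ^ (i + m)) (2 ^ m) (Real.exp (-(c * 2 ^ i))) a1 := by
  obtain ⟨W0, h⟩ := h.fixed
  refine ⟨W0, fun W hW => ?_⟩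
  obtain ⟨c, hc, h⟩ := h W hW
  obtain ⟨n0, h⟩ := h a1 ha
  refine ⟨c, hc, n0, fun I => ?_⟩
  obtain ⟨m1, h⟩ := h (2 ^ I)
  refine ⟨m1, fun i hi hiI m hm => ?_⟩
  have h1 := h (2 ^ i) (hi.trans Nat.lt_two_pow_self.le) (Nat.pow_le_pow_right (by norm_num) hiI)
    m hm
  rw [← pow_add] at h1
  push_cast at h1
  exact h1

/-- **the field `rng` at the start** -/
theorem start_R {b : ℝ} (hb : 0 < b) (hh : 0 < helicity b) (hs : 1 / helicity b < 5 / 2) :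
    ∃ W0 : ℝ, ∀ W : ℝ, W0 ≤ W → ∀ th x1 ys : ℝ, 0 < th → 0 < x1 → 0 < ys → ∀ X0 : ℕ,
      ∃ es0 : ℝ, 0 < es0 ∧ ∀ P : Par, P.th = th → P.x1 = x1 → P.W = W → P.ys = ys → P.X0 = X0 →
        P.b1 ≤ b → b ≤ P.b2 → P.es ≤ es0 → ∀ e0 : ℝ, 0 < e0 → ∃ n0 : ℕ, ∀ n : ℕ, n0 ≤ n →
          ∀ e : ℝ, e0 ≤ e → e ≤ P.es → ∀ r : ℕ, (P.TT n e r ∨ r = n + 3 * P.xE e) →
            RNG P b n r e ∧ RNG P b (n - 1) r e := by
  obtain ⟨W0, h⟩ := (startQ hb hh hs).two hs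
  refine ⟨W0, fun W hW th x1 ys hth hx1 hys X0 => ?_⟩
  obtain ⟨c, hc, i0, h⟩ := h W hW
  set μ : ℝ := min th (3 * x1) with hμ
  have hμ0 : 0 < μ := lt_min hth (by positivity)
  -- smallness
  obtain ⟨es1, hes1, hes11, hE1⟩ := exp_beat (th := μ) (q := 1 / 4) (c := c) (C := 1) 0 hμ0 hc
  have hlim : Tendsto (fun z : ℝ => z ^ μ) atTop atTop := tendsto_rpow_atTop hμ0
  obtain ⟨z0, hz0⟩ := eventually_atTop.1 (hlim.eventually_ge_atTop ((2 : ℝ) ^ i0 + X0))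
  obtain ⟨Z, hZ⟩ : ∃ Z : ℝ, Z = max 1 z0 := ⟨_, rfl⟩
  have hZ1 : 1 ≤ Z := hZ ▸ le_max_left _ _
  have hZz : z0 ≤ Z := hZ ▸ le_max_right _ _
  refine ⟨min es1 (min (1 / Z) (ys ^ 4)), by positivity, fun P hPth hPx1 hPW hPys hPX hPb1 hPb2
    hPes e0 he0 => ?_⟩
  obtain ⟨m1, hm1⟩ := h (max (P.kE e0 + P.q0 * (4 * P.w e0)) (3 * P.xE e0) + 1)
  refine ⟨m1 + 1 + X0, fun n hn e hee hes r hr => ?_⟩
  have he : 0 < e := he0.trans_le hee
  have hes1' : e ≤ es1 := hes.trans (hPes.trans (min_le_left _ _))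
  have heZ : e ≤ 1 / Z := hes.trans (hPes.trans ((min_le_right _ _).trans (min_le_left _ _)))
  have hey : e ≤ ys ^ 4 := hes.trans (hPes.trans ((min_le_right _ _).trans (min_le_right _ _)))
  have he1 : 1 ≤ 1 / e := by
    rw [le_div_iff₀ he, one_mul]
    exact hes1'.trans hes11
  -- the exponent of the torus
  obtain ⟨i, hri, hiμ, hiI⟩ : ∃ i, r = n + i ∧ (1 / e) ^ μ ≤ (2 : ℝ) ^ i ∧
      i ≤ max (P.kE e0 + P.q0 * (4 * P.w e0)) (3 * P.xE e0) := by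
    rcases hr with hr | hr
    · obtain ⟨h1, h2⟩ := hr
      refine ⟨r - n, by omega, ?_, ?_⟩
      · have h3 : P.kE e ≤ r - n := by omega
        have h4 : (1 / e) ^ μ ≤ (1 / e) ^ P.th :=
          Real.rpow_le_rpow_of_exponent_le he1 (by rw [hPth]; exact min_le_left _ _)
        refine h4.trans ((pow_lg he).trans ?_)
        exact pow_le_pow_right₀ (by norm_num) h3
      · refine le_trans ?_ (le_max_left _ _)
        have h3 : P.kE e ≤ P.kE e0 := H972.lg_anti P.th0.le he0 hee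
        have h4 : P.w e ≤ P.w e0 := H972.lg_anti P.thp0.le he0 hee
        have h5 : P.q0 * (4 * P.w e) ≤ P.q0 * (4 * P.w e0) :=
          Nat.mul_le_mul_left _ (by omega)
        omega
    · refine ⟨3 * P.xE e, hr, ?_, ?_⟩
      · have h4 : (1 / e) ^ μ ≤ (1 / e) ^ (3 * P.x1) :=
          Real.rpow_le_rpow_of_exponent_le he1 (by rw [hPx1]; exact min_le_right _ _)
        refine h4.trans ?_
        have h5 : (1 / e) ^ P.x1 ≤ (2 : ℝ) ^ (P.xE e) := pow_lg he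
        have h6 : (1 / e) ^ (3 * P.x1) = ((1 / e) ^ P.x1) ^ 3 := by
          rw [mul_comm, Real.rpow_mul (by positivity)]
          norm_cast
        rw [h6, mul_comm 3, pow_mul]
        exact pow_le_pow_left₀ (by positivity) h5 3
      · refine le_trans ?_ (le_max_right _ _)
        have h3 : P.xE e ≤ P.xE e0 := H972.lg_anti P.x10.le he0 hee
        omega
  have hbig : (2 : ℝ) ^ i0 + X0 ≤ (2 : ℝ) ^ i := by
    refine (hz0 (1 / e) ?_).trans hiμ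
    refine hZz.trans ?_
    rw [le_div_iff₀ he]
    rw [le_div_iff₀ (by linarith)] at heZ
    linarith
  have hi0 : i0 ≤ i := by
    have h1 : (2 : ℝ) ^ i0 ≤ (2 : ℝ) ^ i := by
      have : (0 : ℝ) ≤ X0 := Nat.cast_nonneg _
      linarith
    exact (pow_le_pow_iff_right₀ (by norm_num)).1 h1
  have hX0 : X0 ≤ 2 ^ i := by
    have h1 : (X0 : ℝ) ≤ (2 : ℝ) ^ i := by
      have : (0 : ℝ) ≤ (2 : ℝ) ^ i0 := by positivity
      linarith
    exact_mod_cast h1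
  have hye : Real.exp (-(c * 2 ^ i)) ≤ e ^ (1 / 4 : ℝ) := by
    have h1 := hE1 e he hes1' (2 ^ i) hiμ
    simpa using h1
  have hys' : e ^ (1 / 4 : ℝ) ≤ P.ys := by
    rw [hPys]
    have h1 : e ^ (1 / 4 : ℝ) ≤ (ys ^ 4) ^ (1 / 4 : ℝ) := Real.rpow_le_rpow he.le hey (by norm_num)
    refine h1.trans (le_of_eq ?_)
    rw [← Real.rpow_natCast, ← Real.rpow_mul hys.le]
    norm_num
  -- both levels
  have key : ∀ j m : ℕ, i ≤ j → j ≤ i + 1 → m1 ≤ m → X0 ≤ m → r = j + m → RNG P b m r e := by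
    intro j m hij hji hm hXm hrj
    obtain ⟨hN, hQ⟩ := hm1 j (hi0.trans hij) (by omega) m hm
    rw [← hPW] at hQ
    subst hrj
    have hmono : Real.exp (-(c * 2 ^ j)) ≤ e ^ (1 / 4 : ℝ) := by
      refine le_trans ?_ hye
      have h2 : (2 : ℝ) ^ i ≤ 2 ^ j := pow_le_pow_right₀ (by norm_num) hij
      exact Real.exp_le_exp.2 (by nlinarith)
    refine ⟨hPb1, hPb2, ?_, ?_, ?_, ?_, hys', ?_⟩
    · rw [hPX]
      exact hXm.trans Nat.lt_two_pow_self.le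
    · rw [hPX, pow_add]
      exact Nat.mul_le_mul_right _ (hX0.trans (Nat.pow_le_pow_right (by norm_num) hij))
    · exact pow_dvd_pow 2 (by omega)
    · positivity
    · exact hQ.mono (by norm_num) le_rfl (Nat.cast_nonneg _) hmono le_rfl
  exact ⟨key i n le_rfl (by omega) (by omega) (by omega) (by omega),
    key (i + 1) (n - 1) (by omega) le_rfl (by omega) (by omega) (by omega)⟩

/-! ### oscillation -/

/-- the integrality effect at the start -/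
theorem start_yt {b : ℝ} (hb : 0 < b) (hh : 0 < helicity b) (hs : 1 / helicity b < 5 / 2) :
    ∃ c : ℝ, 0 < c ∧ ∃ i0 : ℕ, ∀ I : ℕ, ∃ m1 : ℕ, ∀ i : ℕ, i0 ≤ i → i ≤ I → ∀ m : ℕ, m1 ≤ m →
      1 - tn m * Ght (2 ^ (i + m)) b (tn m) 0 ≤ Real.exp (-(c * 2 ^ i)) := by
  obtain ⟨W0, h⟩ := (startQ hb hh hs).two hs
  obtain ⟨c, hc, i0, h⟩ := h W0 le_rfl
  refine ⟨c, hc, i0, fun I => ?_⟩
  obtain ⟨m1, h⟩ := h I
  refine ⟨m1, fun i hi hiI m hm => ?_⟩
  obtain ⟨hN, hQ⟩ := h i hi hiI m hm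
  have h1 := hQ.qu.qk 0
  rw [H764.EE_zero, mul_zero, sub_zero] at h1
  have hξ : (0 : ℝ) < ((2 ^ m : ℕ) : ℝ) := by positivity
  rw [← H864.Ght_eq_Gh hξ 0, ← tn_eq] at h1
  have h2 : tn m * ((2 ^ m : ℕ) : ℝ) ^ 2 = 1 := by
    rw [tn_eq]
    field_simp
  have h3 := mul_le_mul_of_nonneg_left h1 (tn_pos m).le
  have h4 : tn m * ((1 - Real.exp (-(c * 2 ^ i))) * ((2 ^ m : ℕ) : ℝ) ^ 2) =
      (1 - Real.exp (-(c * 2 ^ i))) * (tn m * ((2 ^ m : ℕ) : ℝ) ^ 2) := by ring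
  rw [h4, h2] at h3
  linarith

/-- **oscillation at the start**, masses `t` and `2 t` at once (`t = tn m`) -/
theorem start_osc {b : ℝ} (hb : 0 < b) (hh : 0 < helicity b) (hs : 1 / helicity b < 5 / 2) :
    ∃ c : ℝ, 0 < c ∧ ∃ i0 : ℕ, ∀ I : ℕ, ∃ m1 : ℕ, ∀ i : ℕ, i0 ≤ i → i ≤ I → ∀ m : ℕ, m1 ≤ m →
      ∀ t : ℝ, tn m ≤ t → t ≤ 4 * tn m → 64 * 4 ^ i * Real.exp (-(c * 2 ^ i)) ≤ 1 →
        OscZ (wT b (2 ^ (i + m))) (t • (1 : Matrix (TM.Spec.V (2 ^ (i + m))) _ ℝ))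
          (32 * 4 ^ i * Real.exp (-(c * 2 ^ i))) := by
  obtain ⟨c, hc, i0, h⟩ := start_yt hb hh hs
  refine ⟨c, hc, i0, fun I => ?_⟩
  obtain ⟨m1, h⟩ := h (I + 1)
  refine ⟨m1 + 1, fun i hi hiI m hm t ht1 ht2 hsm => ?_⟩
  have hm1 : 1 ≤ m := by omega
  have h1 := h (i + 1) (by omega) (by omega) (m - 1) (by omega)
  have e1 : i + 1 + (m - 1) = i + m := by omega
  rw [e1] at h1
  have ht : 0 < t := (tn_pos m).trans_le ht1
  have hL : H43.Lc (wT b (2 ^ (i + m))) (t • (1 : Matrix (TM.Spec.V (2 ^ (i + m))) _ ℝ)) ≤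
      64 * 4 ^ i * Real.exp (-(c * 2 ^ i)) := by
    have h2 := H879.Lc_wT (N := 2 ^ (i + m)) b t
    rw [h2]
    -- compare with the mass `4 tn m`
    have h3 : t * (1 - t * Ght (2 ^ (i + m)) b t 0) ≤
        tn (m - 1) * (1 - tn (m - 1) * Ght (2 ^ (i + m)) b (tn (m - 1)) 0) := by
      have hT : t ≤ tn (m - 1) := by rw [← tn_pred hm1]; exact ht2
      have hT0 := tn_pos (m - 1)
      have hP := H864.Pik_mono (N := 2 ^ (i + m)) hb ht hT 0
      have hP0 := H864.Pik_nonneg (N := 2 ^ (i + m)) hb ht 0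
      rw [H864.Ght_eq_inv hb ht, H864.Ght_eq_inv hb hT0]
      obtain ⟨p, hp⟩ : ∃ p, p = Pik (2 ^ (i + m)) b t 0 := ⟨_, rfl⟩
      obtain ⟨p', hp'⟩ : ∃ p, p = Pik (2 ^ (i + m)) b (tn (m - 1)) 0 := ⟨_, rfl⟩
      rw [← hp] at hP hP0 ⊢
      rw [← hp'] at hP ⊢
      have hp'0 : 0 ≤ p' := hP0.trans hP
      obtain ⟨T, hTd⟩ : ∃ T, T = tn (m - 1) := ⟨_, rfl⟩
      rw [← hTd] at hT hT0 ⊢
      have e2 : t * (1 - t * (t + p)⁻¹) = t * p / (t + p) := by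
        field_simp
        ring
      have e3 : T * (1 - T * (T + p')⁻¹) = T * p' / (T + p') := by
        field_simp
        ring
      rw [e2, e3, div_le_div_iff₀ (by linarith) (by linarith)]
      have f1 : t * p * T ≤ T * p' * t := by
        have := mul_le_mul_of_nonneg_left hP (mul_pos ht hT0).le
        linarith
      have f2 : t * p * p' ≤ T * p' * p := by
        have := mul_le_mul_of_nonneg_right hT (mul_nonneg hP0 hp'0)
        linarith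
      linarith
    have h4 : ((2 ^ (i + m) : ℕ) : ℝ) ^ 2 * tn (m - 1) = 4 * 4 ^ i := by
      rw [← tn_pred hm1]
      unfold tn
      push_cast
      rw [← pow_mul, mul_comm (i + m) 2, pow_mul, pow_add]
      norm_num
      field_simp
    have h5 : Real.exp (-(c * 2 ^ (i + 1))) ≤ Real.exp (-(c * 2 ^ i)) := by
      refine Real.exp_le_exp.2 ?_
      have : (0 : ℝ) < 2 ^ i := by positivity
      rw [pow_succ]
      nlinarith
    calc t * ((2 ^ (i + m) : ℕ) : ℝ) ^ 2 * (1 - t * Ght (2 ^ (i + m)) b t 0)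
        = ((2 ^ (i + m) : ℕ) : ℝ) ^ 2 * (t * (1 - t * Ght (2 ^ (i + m)) b t 0)) := by ring
      _ ≤ ((2 ^ (i + m) : ℕ) : ℝ) ^ 2 * (tn (m - 1) *
          (1 - tn (m - 1) * Ght (2 ^ (i + m)) b (tn (m - 1)) 0)) :=
          mul_le_mul_of_nonneg_left h3 (by positivity)
      _ = 4 * 4 ^ i * (1 - tn (m - 1) * Ght (2 ^ (i + m)) b (tn (m - 1)) 0) := by
          rw [← h4]
          ring
      _ ≤ 4 * 4 ^ i * Real.exp (-(c * 2 ^ i)) :=
          mul_le_mul_of_nonneg_left (h1.trans h5) (by positivity)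
      _ ≤ 64 * 4 ^ i * Real.exp (-(c * 2 ^ i)) := by
          have : 0 ≤ 4 ^ i * Real.exp (-(c * 2 ^ i)) := by positivity
          linarith
  have h6 := H43.oscZ_of_Lc_le (w := wT b (2 ^ (i + m))) H145.per_wT (H145.mt_symm (t := t))
    (H789.em_wt hb.le ht) (H864.ev_wt t) (H789.pk_wt hb.le ht) hL hsm
  convert h6 using 1
  ring

end Vale.Agent.P159.H280
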