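import Vale.Agent.P159.TM.H265.TransFin
import Vale.Agent.P159.TM.H41.IFin

/-!
P159, second order flow, row START (helper280): ST1 and ST2.

For every `b > 0` with `helicity b > 0` (in particular `b = bCrit`), the one-scale hypothesis
`QL 10 W b (n 2^m) (2^m) y a` of `TM/Frame/Lit` holds for every slope `a > 1 / helicity b`, every
small activity `y`, all large `m` and all sides `n` in the range `k log (1/y) ≤ n ≤ y^(-4)`.
-/

open Real Filter Topology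

namespace Vale.Agent.P159.H280

open Vale.Agent.P159.TM.H859 (Mn)
open Vale.Agent.P159.TM.SpecC (Kn)
open Vale.Agent.P159.TM.Frame (QL)
open Vale.Agent.P159.TM.H764 (QK)
open Vale.Agent.P159.TM

/-- **ST1**: `QU` (in the form `QK`) with arbitrarily small activity and slope close to
`1 / helicity b`, on tori of side `2^i ξ`, `ξ = 2^(k-i)` -/
theorem st1 {b a' : ℝ} (hb : 0 < b) (hY : 0 < helicity b) (haY : 1 / helicity b < a') {y1 : ℝ}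
    (hy1 : 0 < y1) : ∃ i₁ : ℕ, ∀ i : ℕ, i₁ ≤ i → ∃ k₁ : ℕ, i ≤ k₁ ∧ ∀ k : ℕ, k₁ ≤ k →
      QK ((2 ^ (k - i) : ℕ) : ℝ) (H41.G b (2 ^ k) ((2 ^ (k - i) : ℕ) : ℝ)) y1 a' :=
  H41.qk_of_win hb.le hY haY (H41.win hb) hy1

/-- ST1 with the window `(H2)` -/
theorem st1_hyp {b a' : ℝ} (hb : 0 < b) (hY : 0 < helicity b) (haY : 1 / helicity b < a')
    (ha5 : 2 * a' ≤ 5) (W : ℝ) {y0 : ℝ} (hy0 : 0 < y0) :
    ∃ i₁ : ℕ, ∀ i : ℕ, i₁ ≤ i → ∃ m₁ : ℕ, ∀ m : ℕ, m₁ ≤ m →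
      QL 5 W b (2 ^ i * 2 ^ m) (2 ^ m) y0 a' := by
  have ha0 : 0 < a' := (by positivity : 0 < 1 / helicity b).trans haY
  obtain ⟨s, hs⟩ := pow_unbounded_of_one_lt (8 * a' * W ^ 2) (show (1 : ℝ) < 4 by norm_num)
  have h4s : (0 : ℝ) < 4 ^ s := by positivity
  set y1 : ℝ := min y0 (min (1 / 4) (1 / 4 ^ s)) with hy1
  have hy1p : 0 < y1 := lt_min hy0 (lt_min (by norm_num) (by positivity))
  have hy10 : y1 ≤ y0 := min_le_left _ _
  have hy14 : y1 ≤ 1 / 4 := (min_le_right _ _).trans (min_le_left _ _)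
  have hy1s : y1 ≤ 1 / 4 ^ s := (min_le_right _ _).trans (min_le_right _ _)
  obtain ⟨i₁, hi₁⟩ := st1 hb hY haY hy1p
  refine ⟨i₁, fun i hi => ?_⟩
  obtain ⟨k₁, hk₁, hq₁⟩ := hi₁ i hi
  obtain ⟨k₂, hk₂, hq₂⟩ := hi₁ (i + s) (hi.trans (Nat.le_add_right _ _))
  refine ⟨max k₁ k₂, fun m hm => ?_⟩
  obtain ⟨k, hkdef⟩ : ∃ k : ℕ, k = i + m := ⟨_, rfl⟩
  have hkk1 : k₁ ≤ k := ((le_max_left _ _).trans hm).trans (by omega)
  have hkk2 : k₂ ≤ k := ((le_max_right _ _).trans hm).trans (by omega)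
  have hisk : i + s ≤ k := hk₂.trans hkk2
  have hkm : k - i = m := by omega
  have hprod : 2 ^ i * 2 ^ m = 2 ^ k := by rw [← pow_add, hkdef]
  have hQ1 := hq₁ k hkk1
  have hQ2 := hq₂ k hkk2
  rw [hkm] at hQ1
  have hx : (0 : ℝ) < ((2 ^ m : ℕ) : ℝ) := by positivity
  have hx2 : (0 : ℝ) < ((2 ^ (k - (i + s)) : ℕ) : ℝ) := by positivity
  have hMx : (2 : ℝ) ^ s * ((2 ^ (k - (i + s)) : ℕ) : ℝ) = ((2 ^ m : ℕ) : ℝ) := by
    push_cast
    rw [← pow_add]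
    congr 1
    omega
  rw [hprod]
  refine ⟨inferInstance, (hQ1.mono hx.le hy10 le_rfl).qu, ?_⟩
  have hE := H41.e7 (N := 2 ^ k) (b := b) hb.le hx2
    (show ((2 ^ (k - (i + s)) : ℕ) : ℝ) ≤ (2 : ℝ) ^ s * ((2 ^ (k - (i + s)) : ℕ) : ℝ) from
      le_mul_of_one_le_left hx2.le (one_le_pow₀ (by norm_num)))
  have h22 : ((2 : ℝ) ^ s) ^ 2 = 4 ^ s := by
    rw [← pow_mul, mul_comm, pow_mul]
    norm_num
  have h := H764.H2.step (C2 := 5) (W := W) (M := 2 ^ s) (by norm_num) hx2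
    (one_le_pow₀ (by norm_num)) (fun k => H41.Gh_nonneg hb.le (by rw [hMx]; exact hx) k) hQ2 hE
    hy1p.le hy14 ha0.le ha5 (by rw [h22]; exact hs.le) (by
      rw [h22]
      rw [le_div_iff₀ h4s] at hy1s
      linarith)
  rw [hMx] at h
  exact h

/-- **ST2**, one coupling: the one-scale hypothesis at every large dyadic scale -/
def StartQ (b A : ℝ) : Prop :=
  ∃ W0 : ℝ, ∀ W : ℝ, W0 ≤ W → ∃ k : ℕ, 1 ≤ k ∧ ∀ a1 : ℝ, A < a1 → ∃ ys : ℝ, 0 < ys ∧ ys ≤ 1 ∧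
    ∀ y1 : ℝ, 0 < y1 → y1 ≤ ys → ∃ m1 : ℕ, ∀ m : ℕ, m1 ≤ m → ∀ n : ℕ, Kn k y1 ≤ n →
      (n : ℝ) ≤ (1 / y1) ^ 4 → QL 10 W b (n * 2 ^ m) (2 ^ m) y1 a1

theorem sqrt_small {C y1 : ℝ} (hC : 1 ≤ C) (hy1 : 0 < y1) (h : 8 * C * y1 ^ 3 ≤ 1) :
    2 / √(y1 / (2 * C)) ≤ (1 / y1) ^ 2 := by
  have hC0 : 0 < C := by linarith
  have h0 : 0 < y1 / (2 * C) := by positivity
  have hs : 0 < √(y1 / (2 * C)) := Real.sqrt_pos.2 h0
  rw [div_le_iff₀ hs]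
  have h1 : 2 * y1 ^ 2 ≤ √(y1 / (2 * C)) := by
    refine Real.le_sqrt_of_sq_le ?_
    rw [le_div_iff₀ (by positivity)]
    calc (2 * y1 ^ 2) ^ 2 * (2 * C) = y1 * (8 * C * y1 ^ 3) := by ring
      _ ≤ y1 * 1 := by gcongr
      _ = y1 := mul_one _
  calc (2 : ℝ) = (1 / y1) ^ 2 * (2 * y1 ^ 2) := by field_simp
    _ ≤ (1 / y1) ^ 2 * √(y1 / (2 * C)) := by gcongr

/-- **ST2** -/
theorem startQ {b : ℝ} (hb : 0 < b) (hY : 0 < helicity b) (hY2 : 1 / helicity b < 5 / 2) :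
    StartQ b (1 / helicity b) := by
  obtain ⟨W1, h0⟩ := H265.trans0Q (b2 := b) hb (by norm_num : (0 : ℝ) ≤ 3)
    (H352.thmA hb b (3 + 1))
  obtain ⟨W2, hT⟩ := H265.transQ (b2 := b) hb (by norm_num : (0 : ℝ) ≤ 3)
    (H352.thmA hb b (3 + 1))
  refine ⟨max W1 W2, fun W hW => ?_⟩
  obtain ⟨C0, ys0, X0, hC0, hys0, h0⟩ := h0 W ((le_max_left _ _).trans hW)
  obtain ⟨c, C, ysT, XT, hc, hC, hysT, hT⟩ := hT W ((le_max_right _ _).trans hW)
  have hC00 : 0 < C0 := by linarith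
  obtain ⟨k, hk⟩ := exists_nat_ge (2 / c + 1)
  have hk1 : 1 ≤ k := by
    have h1 : (1 : ℝ) ≤ k := by
      have : 0 < 2 / c := by positivity
      linarith
    exact_mod_cast h1
  have hck : 2 ≤ c * k := by
    have h1 : 2 / c ≤ k := by linarith
    rw [div_le_iff₀ hc] at h1
    linarith
  refine ⟨k, hk1, fun a1 ha1 => ?_⟩
  -- the slopes
  obtain ⟨a0, haY, ha01, ha05⟩ : ∃ a0 : ℝ, 1 / helicity b < a0 ∧ a0 < a1 ∧ 2 * a0 ≤ 5 := by
    refine ⟨(1 / helicity b + min a1 (5 / 2)) / 2, ?_, ?_, ?_⟩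
    · have := lt_min ha1 hY2
      linarith
    · have := min_le_left a1 (5 / 2)
      linarith
    · have := min_le_right a1 (5 / 2)
      linarith
  obtain ⟨d, hd, hd1, hd2⟩ : ∃ d : ℝ, 0 < d ∧ 3 * d ≤ a1 - a0 ∧ d ≤ 1 / 2 := by
    refine ⟨min ((a1 - a0) / 3) (1 / 2), lt_min (by linarith) (by norm_num), ?_, min_le_right _ _⟩
    have := min_le_left ((a1 - a0) / 3) (1 / 2)
    linarith
  -- smallness
  obtain ⟨t, ht, ht1, hsm⟩ := Frame.small k c C d (max XT (√((C + 1) / d))) 0 hk1 hc hd hck hC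
  obtain ⟨t2, ht2, h2⟩ := Frame.thr (P := fun y : ℝ => C0 * √(y / (2 * C0)) ≤ d ∧
      C * √y ≤ d ∧ 8 * C0 * y ^ 3 ≤ 1 ∧ y / (2 * C0) ≤ 1) (by
    have e0 : Tendsto (fun y : ℝ => y) (𝓝[>] 0) (𝓝 0) :=
      tendsto_nhdsWithin_of_tendsto_nhds tendsto_id
    have e1 : Tendsto (fun y : ℝ => C0 * √(y / (2 * C0))) (𝓝[>] 0) (𝓝 0) := by
      have h1 := ((Real.continuous_sqrt.tendsto 0).comp
        (by simpa using e0.div_const (2 * C0) : Tendsto (fun y : ℝ => y / (2 * C0)) (𝓝[>] 0) (𝓝 0)))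
      have h2 := h1.const_mul C0
      simpa using h2
    have e2 : Tendsto (fun y : ℝ => C * √y) (𝓝[>] 0) (𝓝 0) := by
      have h2 := ((Real.continuous_sqrt.tendsto 0).comp e0).const_mul C
      simpa using h2
    have e3 : Tendsto (fun y : ℝ => 8 * C0 * y ^ 3) (𝓝[>] 0) (𝓝 0) := by
      have h2 := (e0.pow 3).const_mul (8 * C0)
      simpa using h2
    have e4 : Tendsto (fun y : ℝ => y / (2 * C0)) (𝓝[>] 0) (𝓝 0) := by
      simpa using e0.div_const (2 * C0)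
    filter_upwards [e1.eventually_le_const hd, e2.eventually_le_const hd,
      e3.eventually_le_const one_pos, e4.eventually_le_const one_pos] with y g1 g2 g3 g4
    exact ⟨g1, g2, g3, g4⟩)
  refine ⟨min (min t t2) (min ys0 ysT), lt_min (lt_min ht ht2) (lt_min hys0 hysT),
    ((min_le_left _ _).trans (min_le_left _ _)).trans ht1, fun y1 hy1 hy1s => ?_⟩
  have hyt : y1 ≤ t := hy1s.trans ((min_le_left _ _).trans (min_le_left _ _))
  have hyt2 : y1 ≤ t2 := hy1s.trans ((min_le_left _ _).trans (min_le_right _ _))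
  have hys0' : y1 ≤ ys0 := hy1s.trans ((min_le_right _ _).trans (min_le_left _ _))
  have hysT' : y1 ≤ ysT := hy1s.trans ((min_le_right _ _).trans (min_le_right _ _))
  have hy11 : y1 ≤ 1 := hyt.trans ht1
  obtain ⟨g1, g2, g3, -, -, -, g7, g8, -⟩ := hsm y1 hy1 hyt
  obtain ⟨f1, f2, f3, f4⟩ := h2 y1 hy1 hyt2
  set y0 : ℝ := y1 / (2 * C0) with hy0
  have hy0p : 0 < y0 := by positivity
  have hy01 : y0 ≤ y1 := by
    rw [hy0, div_le_iff₀ (by positivity)]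
    nlinarith
  have hCy0 : C0 * y0 = y1 / 2 := by
    rw [hy0]
    field_simp
  have hs0 : 0 < √y0 := Real.sqrt_pos.2 hy0p
  -- the side of the first transfer
  set K0 : ℕ := ⌈1 / √y0⌉₊ with hK0
  have hK01 : 1 / √y0 ≤ (K0 : ℝ) := Nat.le_ceil _
  have h1s : 1 ≤ 1 / √y0 := by
    rw [le_div_iff₀ hs0, one_mul]
    exact (Real.sqrt_le_one.2 f4)
  have hK02 : (K0 : ℝ) ≤ 2 / √y0 := by
    have h1 := (Nat.ceil_lt_add_one (by positivity : 0 ≤ 1 / √y0)).le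
    have h3 : 2 / √y0 = 1 / √y0 + 1 / √y0 := by ring
    rw [h3]
    linarith
  -- the source torus
  obtain ⟨i₁, hi⟩ := st1_hyp hb hY haY ha05 W hy0p
  set i : ℕ := max i₁ K0 with hidef
  obtain ⟨m₁, hm⟩ := hi i (le_max_left _ _)
  have hKi : K0 ≤ 2 ^ i := (le_max_right i₁ K0).trans (Nat.lt_two_pow_self).le
  refine ⟨max m₁ (max X0 XT), fun m hmm n hn1 hn2 => ?_⟩
  have hmm1 : m₁ ≤ m := (le_max_left _ _).trans hmm
  have hX0 : X0 ≤ 2 ^ m := (((le_max_left _ _).trans (le_max_right _ _)).trans hmm).trans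
    (Nat.lt_two_pow_self).le
  have hXT : XT ≤ 2 ^ m := (((le_max_right _ _).trans (le_max_right _ _)).trans hmm).trans
    (Nat.lt_two_pow_self).le
  have q1 : QL 6 W b (2 ^ i * 2 ^ m) (2 ^ m) y0 a0 :=
    Frame.monoQL 5 6 W b _ _ y0 a0 y0 a0 (by norm_num) (by norm_num) le_rfl le_rfl (hm m hmm1)
  have q2 := h0 b le_rfl le_rfl (2 ^ i * 2 ^ m) (K0 * 2 ^ m) (2 ^ i) K0 (2 ^ m) y0 a0 hX0 hKi rfl
    rfl hy0p (hy01.trans hys0') hK01 hK02 (by linarith) q1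
  rw [hCy0] at q2
  -- the second transfer
  have hKn1 : (Kn k y1 : ℝ) ≤ 1 / √y1 := by
    rw [le_div_iff₀ (Real.sqrt_pos.2 hy1)]
    exact g7
  have hKK : Kn k y1 ≤ K0 := by
    have h3 : 1 / √y1 ≤ 1 / √y0 := one_div_le_one_div_of_le hs0 (Real.sqrt_le_sqrt hy01)
    exact_mod_cast hKn1.trans (h3.trans hK01)
  have hXK : XT ≤ Kn k y1 := by exact_mod_cast (le_max_left _ _).trans g1
  have hK0b : (K0 : ℝ) ≤ (1 / y1) ^ 2 := hK02.trans (sqrt_small hC0 hy1 f3)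
  have hinv : 1 ≤ 1 / y1 := by
    rw [le_div_iff₀ hy1]
    linarith
  have hinv2 : 1 / y1 ≤ 1 / (y1 / 2) := one_div_le_one_div_of_le (by positivity) (by linarith)
  have hK04 : (K0 : ℝ) ≤ (1 / (y1 / 2)) ^ 4 := by
    calc (K0 : ℝ) ≤ (1 / y1) ^ 2 := hK0b
      _ ≤ (1 / y1) ^ 4 := pow_le_pow_right₀ hinv (by norm_num)
      _ ≤ _ := by gcongr
  have hd0 : a0 + C0 * √y0 ≤ 3 := by linarith
  have q3 := hT b le_rfl le_rfl (K0 * 2 ^ m) (n * 2 ^ m) K0 n (Kn k y1) (2 ^ m) (y1 / 2)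
    (a0 + C0 * √y0) hXT hXK hKK hn1 rfl rfl (by positivity) (by linarith)
    (by
      have : 0 ≤ (Kn k y1 : ℝ) * y1 := by positivity
      linarith) (by linarith) hK04 (hK0b.trans g8)
    (hn2.trans (by gcongr)) hd0 q2
  have hE0 : 0 ≤ C * Real.exp (-(c * (Kn k y1 : ℝ))) := by positivity
  have hq : y1 / 2 + C * Real.exp (-(c * (Kn k y1 : ℝ))) ≤ y1 := by linarith
  refine Frame.monoQL 10 10 W b _ _ _ _ y1 a1 (by norm_num) le_rfl hq ?_ q3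
  have hs1 : √(y1 / 2 + C * Real.exp (-(c * (Kn k y1 : ℝ)))) ≤ √y1 := Real.sqrt_le_sqrt hq
  have hKn0 : (0 : ℝ) < Kn k y1 := by exact_mod_cast Frame.one_le_Kn k y1
  have hKd : C * (1 / (Kn k y1 : ℝ) ^ 2) ≤ d := by
    have h3 : √((C + 1) / d) ≤ Kn k y1 := (le_max_right _ _).trans g1
    have h4 : (C + 1) / d ≤ (Kn k y1 : ℝ) ^ 2 := by
      rw [Real.sqrt_le_left hKn0.le] at h3
      exact h3
    rw [div_le_iff₀ hd] at h4
    rw [mul_one_div, div_le_iff₀ (by positivity)]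
    linarith
  have h5 := mul_le_mul_of_nonneg_left hs1 hC
  rw [mul_add]
  linarith

end Vale.Agent.P159.H280
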