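import Vale.Agent.P159.H280.Start
import Vale.Agent.P159.TM.H352.Aexp
import Vale.Agent.P159.TM.Frame.T1

/-!
P159, second order flow, row START (helper280): corollaries of ST2. The critical point, the
standing range `Spec.Rng` at every large dyadic scale, exponential decay (summed form) at every
large dyadic scale, tori of a fixed number of correlation lengths.
-/

open Real Filter Topology

namespace Vale.Agent.P159.H280

open Vale.Agent.P159.TM.SpecC (Kn)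
open Vale.Agent.P159.TM.Frame (QL)
open Vale.Agent.P159.TM

/-- **ST2 at the critical point** -/
theorem startQ_crit : StartQ bCrit (π / 2) := by
  have hT := Frame.T1
  have hπ := Real.pi_pos
  have h1 : 1 / helicity bCrit = π / 2 := by
    rw [hT]
    field_simp
  have h := startQ H170.bCrit_pos (by rw [hT]; positivity) (by
    rw [h1]
    have := Real.pi_lt_four
    linarith)
  rwa [h1] at h

/-- the standing range of Theorem A at every large dyadic scale -/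
theorem StartQ.rng {b A : ℝ} (h : StartQ b A) {b1 b2 : ℝ} (hb1 : b1 ≤ b) (hb2 : b ≤ b2) :
    ∃ W0 : ℝ, ∀ W : ℝ, W0 ≤ W → ∃ k : ℕ, 1 ≤ k ∧ ∀ a : ℝ, A < a → ∀ ys : ℝ, 0 < ys → ∀ X : ℕ,
      ∃ y0 : ℝ, 0 < y0 ∧ y0 ≤ 1 ∧ y0 ≤ ys ∧ ∀ y : ℝ, 0 < y → y ≤ y0 → ∃ m1 : ℕ, ∀ m : ℕ, m1 ≤ m →
        ∀ n : ℕ, Kn k y ≤ n → (n : ℝ) ≤ (1 / y) ^ 4 →
          ∃ hN : NeZero (n * 2 ^ m), @Spec.Rng b1 b2 a W ys X (n * 2 ^ m) hN b (2 ^ m) y := by
  obtain ⟨W0, h⟩ := h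
  refine ⟨W0, fun W hW => ?_⟩
  obtain ⟨k, hk, h⟩ := h W hW
  refine ⟨k, hk, fun a ha ys hys X => ?_⟩
  obtain ⟨y', hy', hy'1, h⟩ := h a ha
  refine ⟨min (min y' ys) (Real.exp (-X)), lt_min (lt_min hy' hys) (Real.exp_pos _),
    ((min_le_left _ _).trans (min_le_left _ _)).trans hy'1,
    (min_le_left _ _).trans (min_le_right _ _), fun y hy hyy => ?_⟩
  obtain ⟨m1, hm⟩ := h y hy (hyy.trans ((min_le_left _ _).trans (min_le_left _ _)))
  refine ⟨max m1 X, fun m hmm n hn1 hn2 => ?_⟩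
  obtain ⟨hN, hQ⟩ := hm m ((le_max_left _ _).trans hmm) n hn1 hn2
  have hX : (X : ℝ) ≤ Kn k y := by
    have h1 : Real.log y ≤ -X := by
      have h2 := Real.log_le_log hy (hyy.trans (min_le_right _ _))
      rwa [Real.log_exp] at h2
    have h3 : (X : ℝ) ≤ Real.log (1 / y) := by
      rw [one_div, Real.log_inv]
      linarith
    have h4 : Real.log (1 / y) ≤ k * Real.log (1 / y) := by
      have h5 : (1 : ℝ) ≤ k := by exact_mod_cast hk
      have h6 : 0 ≤ Real.log (1 / y) := (Nat.cast_nonneg X).trans h3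
      nlinarith
    exact (h3.trans h4).trans (Frame.le_Kn k y)
  have hXn : X ≤ n := by
    have h1 : (X : ℝ) ≤ (n : ℝ) := hX.trans (Nat.cast_le.2 hn1)
    exact_mod_cast h1
  exact ⟨hN, hb1, hb2, ((le_max_right m1 X).trans hmm).trans (Nat.lt_two_pow_self).le,
    Nat.mul_le_mul_right _ hXn, ⟨n, mul_comm _ _⟩, hy.le,
    hyy.trans ((min_le_left _ _).trans (min_le_right _ _)), hQ⟩

/-- **decay at every large dyadic scale** (`b` fixed, constants independent of the scale and of the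
torus, `k log (1/y) ≤ n ≤ min (y⁻⁴) (c / y)`) -/
theorem StartQ.dec {b A : ℝ} (hb : 0 < b) (h : StartQ b A) : ∃ c C : ℝ, 0 < c ∧ 0 < C ∧
    ∃ k : ℕ, 1 ≤ k ∧ ∃ y0 : ℝ, 0 < y0 ∧ y0 ≤ 1 ∧ ∀ y : ℝ, 0 < y → y ≤ y0 → ∃ m1 : ℕ, ∀ m : ℕ,
      m1 ≤ m → ∀ n : ℕ, Kn k y ≤ n → (n : ℝ) ≤ (1 / y) ^ 4 → (n : ℝ) * y ≤ c →
        ∀ [NeZero (n * 2 ^ m)], ∑ w : Spec.V (n * 2 ^ m), Spec.GT (n * 2 ^ m) b (2 ^ m) w *
          Real.exp (c * H459.sn w / ((2 ^ m : ℕ) : ℝ)) ≤ C * (((2 ^ m : ℕ) : ℝ)) ^ 2 := by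
  obtain ⟨W1, h⟩ := h.rng (le_refl b) le_rfl
  obtain ⟨W2, c, C, ys, X, hc, hC, hys, -, hA⟩ := H352.thmAexp' hb b (A + 1)
  obtain ⟨k, hk, h⟩ := h (max W1 W2) (le_max_left _ _)
  obtain ⟨y0, hy0, hy01, -, h⟩ := h (A + 1) (by linarith) ys hys X
  refine ⟨c, C, hc, hC, k, hk, y0, hy0, hy01, fun y hy hyy => ?_⟩
  obtain ⟨m1, hm⟩ := h y hy hyy
  refine ⟨m1, fun m hmm n hn1 hn2 hn3 inst => ?_⟩
  obtain ⟨hN, hR⟩ := hm m hmm n hn1 hn2
  refine hA (max W1 W2) (le_max_right _ _) (n * 2 ^ m) b (2 ^ m) y hR ?_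
  push_cast
  have h2 : (0 : ℝ) ≤ 2 ^ m := by positivity
  calc (n : ℝ) * 2 ^ m * y = (n * y) * 2 ^ m := by ring
    _ ≤ c * 2 ^ m := mul_le_mul_of_nonneg_right hn3 h2

/-- **tori of `n` correlation lengths, `n` fixed, the scale tends to infinity**: activity
`exp (-c n)`, slope arbitrarily close to `A` -/
theorem StartQ.fixed {b A : ℝ} (h : StartQ b A) : ∃ W0 : ℝ, ∀ W : ℝ, W0 ≤ W → ∃ c : ℝ, 0 < c ∧
    ∀ a1 : ℝ, A < a1 → ∃ n0 : ℕ, ∀ n1 : ℕ, ∃ m1 : ℕ, ∀ n : ℕ, n0 ≤ n → n ≤ n1 → ∀ m : ℕ,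
      m1 ≤ m → QL 10 W b (n * 2 ^ m) (2 ^ m) (Real.exp (-(c * n))) a1 := by
  obtain ⟨W0, h⟩ := h
  refine ⟨W0, fun W hW => ?_⟩
  obtain ⟨k, hk, h⟩ := h W hW
  have hk0 : (0 : ℝ) < k := by exact_mod_cast hk
  refine ⟨1 / (2 * k), by positivity, fun a1 ha1 => ?_⟩
  obtain ⟨ys, hys, hys1, h⟩ := h a1 ha1
  -- thresholds for `n`
  have e1 : ∀ᶠ n : ℕ in atTop, Real.exp (-(1 / (2 * k) * n)) ≤ ys := by
    have h1 : Tendsto (fun n : ℕ => Real.exp (-(1 / (2 * k) * n))) atTop (𝓝 0) := by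
      refine Real.tendsto_exp_neg_atTop_nhds_zero.comp ?_
      exact (tendsto_natCast_atTop_atTop (R := ℝ)).const_mul_atTop (by positivity)
    exact h1.eventually_le_const hys
  have e2 : ∀ᶠ n : ℕ in atTop, (n : ℝ) ≤ Real.exp (2 / k * n) := by
    have h1 := (Real.tendsto_pow_mul_exp_neg_atTop_nhds_zero 1).comp
      ((tendsto_natCast_atTop_atTop (R := ℝ)).const_mul_atTop (by positivity : 0 < 2 / (k : ℝ)))
    have h2 := h1.eventually_le_const (by positivity : (0 : ℝ) < 2 / k)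
    filter_upwards [h2] with n hn
    simp only [Function.comp, pow_one] at hn
    rw [Real.exp_neg, ← div_eq_mul_inv, div_le_iff₀ (Real.exp_pos _)] at hn
    exact le_of_mul_le_mul_left hn (by positivity)
  obtain ⟨n0, hn0⟩ := eventually_atTop.1 (e1.and (e2.and (eventually_ge_atTop 4)))
  have hex : ∀ n : ℕ, n0 ≤ n → ∃ m1 : ℕ, ∀ m : ℕ, m1 ≤ m →
      QL 10 W b (n * 2 ^ m) (2 ^ m) (Real.exp (-(1 / (2 * k) * n))) a1 := by
    intro n hn
    obtain ⟨f1, f2, f3⟩ := hn0 n hn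
    obtain ⟨m1, hm⟩ := h (Real.exp (-(1 / (2 * k) * n))) (Real.exp_pos _) f1
    refine ⟨m1, fun m hmm => hm m hmm n ?_ ?_⟩
    · unfold SpecC.Kn
      have h1 : Real.log (1 / Real.exp (-(1 / (2 * k) * n))) = 1 / (2 * k) * n := by
        rw [one_div, ← Real.exp_neg, neg_neg, Real.log_exp]
      rw [h1]
      have h2 : (k : ℝ) * (1 / (2 * k) * n) = n / 2 := by
        field_simp
      rw [h2]
      have h3 : ⌈(n : ℝ) / 2⌉₊ ≤ n - 1 := by
        rw [Nat.ceil_le, Nat.cast_sub (by omega)]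
        have : (4 : ℝ) ≤ n := by exact_mod_cast f3
        push_cast
        linarith
      omega
    · refine f2.trans (le_of_eq ?_)
      rw [one_div, ← Real.exp_neg, neg_neg, ← Real.exp_nat_mul]
      congr 1
      push_cast
      field_simp
      ring
  choose! mm hmm using hex
  refine ⟨n0, fun n1 => ⟨∑ n ∈ Finset.range (n1 + 1), mm n, fun n hn hn1 m hm => ?_⟩⟩
  exact hmm n hn m ((Finset.single_le_sum (f := mm) (fun _ _ => Nat.zero_le _)
    (Finset.mem_range.2 (by omega))).trans hm)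

end Vale.Agent.P159.H280
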