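import Vale.Agent.P159.H280.Start2
import Vale.Agent.P159.TM.H265.TransFin

/-!
P159, row TOP (helper280), part 0: the crude one scale bound `QK` on EVERY torus of side at least
`K ξ`, `K` a fixed number, `ξ = 2^m` large (Theorem A on the torus of side `K ξ` only).
-/

open Finset Filter Topology

namespace Vale.Agent.P159.H280

open Vale.Agent.P159.TM.SpecC (Kn)
open Vale.Agent.P159.TM Vale.Agent.P159.TM.H265
open Vale.Agent.P159.TM.H705 (tsn)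

/-- from one torus of side `K ξ` to every torus of side at least `K ξ` -/
theorem qk_one {b : ℝ} {ξ K N M : ℕ} [NeZero N] [NeZero M] {y c C a : ℝ} (hb : 0 ≤ b)
    (hξ : 1 ≤ ξ) (hc : 0 < c) (hC : 0 ≤ C) (hy : 0 < y) (hA : HA N b ξ hb y c C) (hK : 8 ≤ K)
    (hN : N = K * ξ) (hKM : K * ξ ≤ M) (hKy : (K : ℝ) * y ≤ c / 32)
    (hKe : (K : ℝ) ≤ Real.exp (c / 32 * K))
    (hQ : H764.QK (ξ : ℝ) (H41.G b N (ξ : ℝ)) y a)
    (he : 3 * (y + D2 c C * Real.exp (-(c / 32 * K))) ≤ 1 / 4) :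
    H764.QK (ξ : ℝ) (H41.G b M (ξ : ℝ)) (1 / 4) (K3 c C 2 / 2) := by
  have hξ' : (0 : ℝ) < ξ := by exact_mod_cast hξ
  have h8 : 8 * ξ ≤ K * ξ := Nat.mul_le_mul_right ξ hK
  have hKN : K * ξ ≤ N := hN.ge
  have herr := err_le (C := C) hc hKe
  set e1 := √C * K * Real.exp c * Real.exp (-(c * K / 4)) with he1
  set e2 := √C * K * Real.exp c * Real.exp (-(c * K / 8)) with he2
  have hR : ((K * ξ / 4 : ℕ) : ℝ) * y ≤ c * ξ := by
    have h1 : ((K * ξ / 4 : ℕ) : ℝ) ≤ K * ξ / 4 := by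
      have : ((K * ξ / 4 : ℕ) : ℝ) ≤ ((K * ξ : ℕ) : ℝ) / 4 := Nat.cast_div_le
      push_cast at this
      exact this
    have h2 := mul_le_mul_of_nonneg_right h1 hy.le
    nlinarith
  have hv1 := v1 hb hξ hc.le hC hy.le hA hK hKN (by linarith)
  have hv2 := tail_h2 hb hξ hc hC hy.le hA hK le_rfl hN (by linarith)
  have h2 : 2 * ξ ≤ N := by omega
  have hm1 := v2j hb hξ h2 hc hC hy.le hA hR 1
  have hm2 := v2j hb hξ h2 hc hC hy.le hA hR 2
  have hm1' : tsn (K * ξ / 4) (H41.G b N (ξ : ℝ)) (fun w => |(w.1.valMinAbs : ℝ)|) ≤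
      K3 c C 1 * (ξ : ℝ) ^ 3 := by
    refine le_trans (le_of_eq ?_) hm1
    simp only [pow_one]
  have hm2' : tsn (K * ξ / 4) (H41.G b N (ξ : ℝ)) (fun w => (w.1.valMinAbs : ℝ) ^ 2) ≤
      2 * (K3 c C 2 / 2) * (ξ : ℝ) ^ 4 := by
    refine le_trans (le_of_eq ?_) (hm2.trans (le_of_eq ?_))
    · unfold tsn
      refine sum_congr rfl fun w _ => ?_
      simp only [sq_abs]
    · ring
  have h3 : (1 - y) * (ξ : ℝ) ^ 2 ≤ ∑ w, H41.G b N (ξ : ℝ) w := by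
    have := hQ 0
    rw [H764.EE_zero, mul_zero, sub_zero, H705.Gh_zero] at this
    exact this
  obtain ⟨-, t2, -⟩ := H705.trans_model (M := M) hK hξ hKN hKM hb hv1 hv2 h3 hm2' hm1'
  refine t2.qk.mono hξ'.le ?_ le_rfl
  linarith

/-- `y = e^{-j}` and `K = Kn k y`: all the smallness conditions hold for large `j` -/
theorem small_all (k : ℕ) (hk : 1 ≤ k) {c D y0 : ℝ} (hc : 0 < c) (hy0 : 0 < y0) :
    ∃ y : ℝ, 0 < y ∧ y ≤ y0 ∧ 8 ≤ Kn k y ∧ ((Kn k y : ℕ) : ℝ) * y ≤ c / 32 ∧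
      ((Kn k y : ℕ) : ℝ) ≤ Real.exp (c / 32 * (Kn k y : ℕ)) ∧
      ((Kn k y : ℕ) : ℝ) ≤ (1 / y) ^ 4 ∧
      3 * (y + D * Real.exp (-(c / 32 * (Kn k y : ℕ)))) ≤ 1 / 4 := by
  have hkn : ∀ j : ℕ, Kn k (Real.exp (-(j : ℝ))) = k * j + 1 := by
    intro j
    unfold Kn
    have h1 : Real.log (1 / Real.exp (-(j : ℝ))) = j := by
      rw [one_div, ← Real.exp_neg, neg_neg, Real.log_exp]
    rw [h1]
    have h2 : (k : ℝ) * (j : ℝ) = ((k * j : ℕ) : ℝ) := by push_cast; ring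
    rw [h2, Nat.ceil_natCast]
  have T1 : Tendsto (fun j : ℕ => Real.exp (-(j : ℝ))) atTop (𝓝 0) :=
    Real.tendsto_exp_neg_atTop_nhds_zero.comp tendsto_natCast_atTop_atTop
  have TK : Tendsto (fun j : ℕ => k * j + 1) atTop atTop := by
    refine tendsto_atTop_mono (fun j => ?_) tendsto_id
    show j ≤ k * j + 1
    nlinarith
  have TKr : Tendsto (fun j : ℕ => ((k * j + 1 : ℕ) : ℝ)) atTop atTop :=
    tendsto_natCast_atTop_atTop.comp TK
  have TJ : Tendsto (fun j : ℕ => ((k * j + 1 : ℕ) : ℝ) * Real.exp (-(j : ℝ))) atTop (𝓝 0) := by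
    have h1 := (Real.tendsto_pow_mul_exp_neg_atTop_nhds_zero 1).comp
      (tendsto_natCast_atTop_atTop (R := ℝ))
    have h2 : Tendsto (fun j : ℕ => (k : ℝ) * (((j : ℝ)) ^ 1 * Real.exp (-(j : ℝ))) +
        Real.exp (-(j : ℝ))) atTop (𝓝 ((k : ℝ) * 0 + 0)) := (h1.const_mul _).add T1
    rw [mul_zero, add_zero] at h2
    refine h2.congr fun j => ?_
    push_cast
    ring
  have TE : Tendsto (fun j : ℕ => Real.exp (-(c / 32 * ((k * j + 1 : ℕ) : ℝ)))) atTop (𝓝 0) :=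
    Real.tendsto_exp_neg_atTop_nhds_zero.comp (TKr.const_mul_atTop (by positivity))
  have TG : Tendsto (fun j : ℕ => ((k * j + 1 : ℕ) : ℝ) *
      Real.exp (-(c / 32 * ((k * j + 1 : ℕ) : ℝ)))) atTop (𝓝 0) := by
    have h1 := (Real.tendsto_pow_mul_exp_neg_atTop_nhds_zero 1).comp
      (TKr.const_mul_atTop (by positivity : 0 < c / 32))
    have h2 := h1.const_mul (32 / c)
    rw [mul_zero] at h2
    refine h2.congr fun j => ?_
    simp only [Function.comp, pow_one]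
    field_simp
  have T3 : Tendsto (fun j : ℕ => 3 * (Real.exp (-(j : ℝ)) +
      D * Real.exp (-(c / 32 * ((k * j + 1 : ℕ) : ℝ))))) atTop (𝓝 (3 * (0 + D * 0))) :=
    (T1.add (TE.const_mul D)).const_mul 3
  rw [mul_zero, add_zero, mul_zero] at T3
  have E := ((T1.eventually_le_const hy0).and ((TK.eventually_ge_atTop 8).and
    ((TJ.eventually_le_const (by positivity : (0 : ℝ) < c / 32)).and
    ((TG.eventually_le_const one_pos).and ((TJ.eventually_le_const one_pos).and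
      (T3.eventually_le_const (by norm_num : (0 : ℝ) < 1 / 4)))))))
  obtain ⟨j, g1, g2, g3, g4, g5, g6⟩ := E.exists
  refine ⟨Real.exp (-(j : ℝ)), Real.exp_pos _, g1, ?_, ?_, ?_, ?_, ?_⟩
  · rw [hkn]; exact g2
  · rw [hkn]; exact g3
  · rw [hkn]
    rw [Real.exp_neg, ← div_eq_mul_inv, div_le_iff₀ (Real.exp_pos _), one_mul] at g4
    exact g4
  · rw [hkn]
    have h1 : (0 : ℝ) < Real.exp (-(j : ℝ)) := Real.exp_pos _
    have h2 : Real.exp (-(j : ℝ)) ≤ 1 := by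
      rw [Real.exp_le_one_iff]
      have : (0 : ℝ) ≤ j := Nat.cast_nonneg j
      linarith
    have h3 : ((k * j + 1 : ℕ) : ℝ) ≤ 1 / Real.exp (-(j : ℝ)) := by
      rw [le_div_iff₀ h1]
      exact g5
    refine h3.trans ?_
    have h4 : 1 ≤ 1 / Real.exp (-(j : ℝ)) := by
      rw [le_div_iff₀ h1, one_mul]
      exact h2
    calc 1 / Real.exp (-(j : ℝ)) = (1 / Real.exp (-(j : ℝ))) ^ 1 := (pow_one _).symm
      _ ≤ (1 / Real.exp (-(j : ℝ))) ^ 4 := pow_le_pow_right₀ h4 (by norm_num)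
  · rw [hkn]; exact g6

/-- **the crude one scale bound on every torus** -/
theorem StartQ.qk_all {b A : ℝ} (hb : 0 < b) (h : StartQ b A) : ∃ a : ℝ, 0 < a ∧ ∃ K m1 : ℕ,
    8 ≤ K ∧ ∀ m : ℕ, m1 ≤ m → ∀ (M : ℕ) [NeZero M], K * 2 ^ m ≤ M →
      H764.QK ((2 ^ m : ℕ) : ℝ) (H41.G b M ((2 ^ m : ℕ) : ℝ)) (1 / 4) a := by
  obtain ⟨W1, h⟩ := h.rng (le_refl b) le_rfl
  obtain ⟨W2, hA⟩ := H352.thmA hb b (A + 1)
  obtain ⟨c, C, ys, X, hc, hC, hys, -, hA⟩ := hA (max W1 W2) (le_max_right _ _)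
  obtain ⟨k, hk, h⟩ := h (max W1 W2) (le_max_left _ _)
  obtain ⟨y0, hy0, -, -, h⟩ := h (A + 1) (by linarith) ys hys X
  obtain ⟨y, hy, hyy, g1, g2, g3, g4, g5⟩ := small_all k hk (D := D2 c C) hc hy0
  obtain ⟨m1, hm⟩ := h y hy hyy
  refine ⟨K3 c C 2 / 2, by have := K3_pos (C := C) hc 2; positivity, Kn k y, m1, g1,
    fun m hmm M _ hM => ?_⟩
  obtain ⟨hN, hR⟩ := hm m hmm (Kn k y) le_rfl g4
  have hHA : HA (Kn k y * 2 ^ m) b (2 ^ m) hb.le y c C := fun x0 n hn =>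
    (hA (Kn k y * 2 ^ m) b hb.le (2 ^ m) y hR x0 n hn).1
  exact qk_one hb.le Nat.one_le_two_pow hc hC.le hy hHA g1 rfl hM g2 g3 hR.hyp.qu.qk g5

end Vale.Agent.P159.H280
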